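import Crest.Agent.R160.Tree

/-!
Two-point homogeneity of the regular tree, and mass transport.
-/

set_option autoImplicit false

open MeasureTheory unitInterval Filter Topology
open Crest.ProbabilityR Crest.ProbabilityR.Labels Crest.ProbabilityR.TreeIsing
open scoped Classical

noncomputable section

namespace Crest.Agent.R160

universe u

variable {V : Type u} {G : SimpleGraph V} [G.LocallyFinite] {d : ℕ}

namespace AutAux

open Set

omit [G.LocallyFinite] in
theorem fix {A A' : Set V} {e : V → V} (he : BijOn e A A') {y y' : V} (hy : y ∈ A) (hy' : y' ∈ A') :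
    ∃ e' : V → V, BijOn e' A A' ∧ e' y = y' ∧ ∀ x ∈ A, x ≠ y → e x ≠ y' → e' x = e x := by
  refine ⟨Equiv.swap (e y) y' ∘ e, BijOn.comp (Equiv.bijOn_swap (he.mapsTo hy) hy') he, by simp,
    fun x hx h1 h2 => ?_⟩
  exact Equiv.swap_apply_of_ne_of_ne (fun k => h1 (he.injOn hx hy k)) h2

theorem exists_bij (h : RT G d) (a a' x x' y y' : V) : ∃ e : V → V,
    BijOn e (G.neighborSet a) (G.neighborSet a') ∧ (G.Adj a x → G.Adj a' x' → e x = x') ∧
      (G.Adj a y → G.Adj a' y' → y ≠ x → y' ≠ x' → e y = y') := by
  obtain ⟨e₀, h₀⟩ : ∃ e : V → V, BijOn e (G.neighborSet a) (G.neighborSet a') := by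
    have hc : Fintype.card (G.neighborSet a) = Fintype.card (G.neighborSet a') := by
      rw [G.card_neighborSet_eq_degree, G.card_neighborSet_eq_degree, h.reg.degree_eq,
        h.reg.degree_eq]
    let e := Fintype.equivOfCardEq hc
    refine ⟨fun z => if hz : z ∈ G.neighborSet a then e ⟨z, hz⟩ else z, fun z hz => ?_,
      fun z hz w hw k => ?_, fun z hz => ⟨e.symm ⟨z, hz⟩, (e.symm ⟨z, hz⟩).2, ?_⟩⟩
    · simp only [dif_pos hz]
      exact (e ⟨z, hz⟩).2
    · simp only [dif_pos hz, dif_pos hw] at k
      exact congrArg Subtype.val (e.injective (Subtype.ext k))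
    · simp only [dif_pos (e.symm ⟨z, hz⟩).2, Subtype.coe_eta, Equiv.apply_symm_apply]
  obtain ⟨e₁, h₁, k₁⟩ : ∃ e : V → V, BijOn e (G.neighborSet a) (G.neighborSet a') ∧
      (G.Adj a x → G.Adj a' x' → e x = x') := by
    by_cases hx : G.Adj a x ∧ G.Adj a' x'
    · obtain ⟨e, a1, a2, -⟩ := fix h₀ hx.1 hx.2
      exact ⟨e, a1, fun _ _ => a2⟩
    · exact ⟨e₀, h₀, fun a b => absurd ⟨a, b⟩ hx⟩
  by_cases hy : G.Adj a y ∧ G.Adj a' y' ∧ y ≠ x ∧ y' ≠ x'
  · obtain ⟨e, a1, a2, a3⟩ := fix h₁ hy.1 hy.2.1
    refine ⟨e, a1, fun b c => ?_, fun _ _ _ _ => a2⟩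
    rw [a3 x b hy.2.2.1.symm (by rw [k₁ b c]; exact hy.2.2.2.symm), k₁ b c]
  · exact ⟨e₁, h₁, k₁, fun a b c e => absurd ⟨a, b, c, e⟩ hy⟩

/-- The parent of `w` in the tree rooted at `u` (junk `u` for `w = u`). -/
def par (G : SimpleGraph V) (u w : V) : V := geo G w u 1

theorem dist_zero (h : RT G d) {u w : V} : G.dist u w = 0 ↔ u = w :=
  h.tree.connected.dist_eq_zero_iff

theorem par_spec (h : RT G d) {u w : V} {n : ℕ} (hw : G.dist u w = n + 1) :
    G.Adj (par G u w) w ∧ G.dist u (par G u w) = n := by
  obtain ⟨a, b⟩ := geo_spec h w u (i := 1) (by rw [G.dist_comm]; omega)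
  rw [G.dist_comm (u := w) (v := u), G.dist_comm] at b
  exact ⟨(SimpleGraph.dist_eq_one_iff_adj.1 a).symm, by unfold par; omega⟩

theorem par_eq (h : RT G d) {u w x : V} (hx : G.Adj x w) (hw : G.dist u w = G.dist u x + 1) :
    par G u w = x :=
  geo_eq_of h (SimpleGraph.dist_eq_one_iff_adj.2 hx.symm)
    (by rw [G.dist_comm (u := w), G.dist_comm (u := x), hw])

omit [G.LocallyFinite] in
theorem par_self (u : V) : par G u u = u := by
  unfold par geo
  rw [dif_neg]
  rintro ⟨y, -, k⟩
  simp at k

end AutAux

open AutAux in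
/-- The automorphism group is transitive on pairs at a given distance. -/
theorem exists_aut (h : RT G d) {u v u' v' : V} (hd : G.dist u v = G.dist u' v') :
    ∃ g : G ≃g G, g u = u' ∧ g v = v' := by
  choose b hb hb1 hb2 using fun a a' =>
    exists_bij h a a' (par G u a) (par G u' a') (par G v a) (par G v' a')
  let F : ℕ → V → V := fun n => Nat.rec (fun _ => u')
    (fun _ f w => b (par G u w) (f (par G u w)) w) n
  let g : V → V := fun w => F (G.dist u w) w
  have g0 : g u = u' := by simp [g, F]
  have gs : ∀ {w n}, G.dist u w = n + 1 → g w = b (par G u w) (g (par G u w)) w := by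
    intro w n hw
    simp only [g]
    rw [(par_spec h hw).2, hw]
  have gadj : ∀ {w n}, G.dist u w = n + 1 → G.Adj (g (par G u w)) (g w) := fun {w n} hw => by
    rw [gs hw]
    exact (hb _ _).mapsTo (par_spec h hw).1
  have gd : ∀ n w, G.dist u w = n → G.dist u' (g w) = n := by
    intro n
    induction n with
    | zero =>
      intro w hw
      rw [← (dist_zero h).1 hw, g0, SimpleGraph.dist_self]
    | succ n ih =>
      intro w hw
      obtain ⟨a1, a2⟩ := par_spec h hw
      have k := ih _ a2
      rcases h.tree.dist_eq_dist_add_one_of_adj u' (gadj hw) with e | e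
      · exfalso
        obtain ⟨c1, c2⟩ := par_spec h (a2.trans (k.symm.trans e))
        have e1 := hb1 _ (g (par G u w)) c1.symm (by rw [par_eq h (gadj hw).symm e]; exact gadj hw)
        rw [par_eq h (gadj hw).symm e] at e1
        have := (hb _ _).injOn c1.symm a1 (e1.trans (gs hw))
        rw [this] at c2
        omega
      · omega
  have gp : ∀ {w n}, G.dist u w = n + 1 → par G u' (g w) = g (par G u w) := fun {w n} hw =>
    par_eq h (gadj hw) (by rw [gd _ _ hw, gd _ _ (par_spec h hw).2])
  have ginj : ∀ n w w', G.dist u w = n → g w = g w' → w = w' := by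
    intro n
    induction n with
    | zero =>
      intro w w' hw e
      have : G.dist u w' = 0 := by rw [← gd _ w' rfl, ← e, gd _ _ hw]
      rw [← (dist_zero h).1 hw, ← (dist_zero h).1 this]
    | succ n ih =>
      intro w w' hw e
      have hw' : G.dist u w' = n + 1 := by rw [← gd _ w' rfl, ← e, gd _ _ hw]
      have k := ih _ (par G u w') (par_spec h hw).2 (by rw [← gp hw, ← gp hw', e])
      rw [gs hw, gs hw', ← k] at e
      exact (hb _ _).injOn (par_spec h hw).1 (k ▸ (par_spec h hw').1) e
  have gsurj : ∀ n z, G.dist u' z = n → ∃ w, g w = z := by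
    intro n
    induction n with
    | zero => exact fun z hz => ⟨u, g0.trans ((dist_zero h).1 hz)⟩
    | succ n ih =>
      intro z hz
      obtain ⟨a1, a2⟩ := par_spec h hz
      obtain ⟨p, hp⟩ := ih _ a2
      rw [← hp] at a1 a2
      obtain ⟨w, hw, e⟩ := (hb p (g p)).surjOn a1
      rcases h.tree.dist_eq_dist_add_one_of_adj u (show G.Adj p w from hw) with k | k
      · exfalso
        obtain ⟨c1, c2⟩ := par_spec h (gd _ _ k)
        have e1 := hb1 p (g p) (par_spec h k).1.symm c1.symm
        rw [par_eq h (show G.Adj p w from hw).symm k, e] at e1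
        rw [← e1] at c2
        have := gd _ _ k
        omega
      · exact ⟨w, by rw [gs k, par_eq h hw k, e]⟩
  have ginj' : Function.Injective g := fun w w' e => ginj _ w w' rfl e
  have gv : ∀ n a, G.dist u a = n → G.dist v a + n = G.dist u v →
      G.dist v' (g a) + n = G.dist u v := by
    intro n
    induction n with
    | zero =>
      intro a ha _
      rw [← (dist_zero h).1 ha, g0, hd, G.dist_comm, add_zero]
    | succ n ih =>
      intro a ha hv
      obtain ⟨a1, a2⟩ := par_spec h ha
      have t1 := h.tree.connected.dist_triangle (u := u) (v := par G u a) (w := v)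
      rw [G.dist_comm (u := par G u a)] at t1
      have t2 : G.dist v (par G u a) = G.dist v a + 1 := by
        rcases h.tree.dist_eq_dist_add_one_of_adj v a1 with k | k <;> omega
      have k := ih _ a2 (by omega)
      obtain ⟨c1, c2⟩ := par_spec h (u := v') (w := g (par G u a)) (n := G.dist v a) (by omega)
      have e0 := par_eq h a1.symm t2
      have e1 := hb2 (par G u a) (g (par G u a)) (by rw [e0]; exact a1) c1.symm ?_ ?_
      · rw [e0, ← gs ha] at e1
        rw [e1, c2]
        exact hv
      · rw [e0]
        intro e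
        rcases n with _ | n
        · rw [← (dist_zero h).1 a2, par_self] at e
          rw [e] at ha
          simp at ha
        · have := (par_spec h a2).2
          rw [← e] at this
          omega
      · intro e
        have k1 := gd _ _ a2
        rcases n with _ | n
        · rw [← (dist_zero h).1 k1, par_self] at e
          rw [← (dist_zero h).1 k1, e] at c1
          exact c1.ne rfl
        · have k2 := (par_spec h k1).2
          have t3 := h.tree.connected.dist_triangle (u := u') (v := par G v' (g (par G u a)))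
            (w := v')
          rw [G.dist_comm (u := par G v' (g (par G u a))), c2, e, k2] at t3
          omega
  refine ⟨⟨Equiv.ofBijective g ⟨ginj', fun z => gsurj _ z rfl⟩, fun {a c} => ?_⟩, g0, ?_⟩
  · change G.Adj (g a) (g c) ↔ G.Adj a c
    have k1 : ∀ a c, G.dist u c = G.dist u a + 1 → G.Adj (g a) (g c) → G.Adj a c := by
      intro a c e hac
      have := par_eq h hac (by rw [gd _ _ e, gd _ a rfl])
      rw [gp e] at this
      exact ginj' this ▸ (par_spec h e).1
    constructor
    · intro hac
      rcases h.tree.dist_eq_dist_add_one_of_adj u' hac with k | k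
      · exact (k1 c a (by rwa [gd _ a rfl, gd _ c rfl] at k) hac.symm).symm
      · exact k1 a c (by rwa [gd _ a rfl, gd _ c rfl] at k) hac
    · intro hac
      rcases h.tree.dist_eq_dist_add_one_of_adj u hac with k | k
      · exact (par_eq h hac.symm k ▸ gadj k).symm
      · exact par_eq h hac k ▸ gadj k
  · have := gv _ v rfl (by simp)
    exact ((dist_zero h (w := g v)).1 (by omega)).symm

/-- Mass transport, term by term. -/
theorem swap_eq (h : RT G d) {α : Type*} (f : V → V → α)
    (hf : ∀ (g : G ≃g G) (x y : V), f (g x) (g y) = f x y) (x y : V) : f x y = f y x := by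
  obtain ⟨g, h1, h2⟩ := exists_aut h (u := x) (v := y) (u' := y) (v' := x) SimpleGraph.dist_comm
  rw [← hf g x y, h1, h2]

theorem exists_aut_vertex (h : RT G d) (u u' : V) : ∃ g : G ≃g G, g u = u' := by
  obtain ⟨g, h1, -⟩ := exists_aut h (u := u) (v := u) (u' := u') (v' := u') (by simp)
  exact ⟨g, h1⟩

end Crest.Agent.R160

end
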