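import Crest.Agent.R160.Defs

/-!
Conditional expectations on finitely many labels and the Efron–Stein decomposition of covariances.
-/

set_option autoImplicit false

open MeasureTheory unitInterval Filter Topology
open Crest.ProbabilityR Crest.ProbabilityR.Labels
open scoped Classical

noncomputable section

namespace Crest.Agent.R160

namespace BSVAux

open Finset R168

universe u

variable {V : Type u}

/-! ### Set functions -/

/-- The Möbius transform of a set function. -/
def hat (c : Finset V → ℝ) (S : Finset V) : ℝ :=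
  (-1) ^ S.card * ∑ U ∈ S.powerset, (-1) ^ U.card * c U

theorem sum_hat (F : Finset V) (c : Finset V → ℝ) : ∑ S ∈ F.powerset, hat c S = c F := by
  induction F using Finset.induction_on generalizing c with
  | empty => simp [hat]
  | insert w F hw ih =>
    rw [sum_powerset_insert hw, ← sum_add_distrib, ← ih fun U => c (insert w U)]
    refine sum_congr rfl fun S hS => ?_
    have hwS : w ∉ S := fun h => hw (mem_powerset.1 hS h)
    unfold hat
    rw [sum_powerset_insert hwS, card_insert_of_notMem hwS]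
    have e : ∑ U ∈ S.powerset, (-1 : ℝ) ^ (insert w U).card * c (insert w U) =
        -∑ U ∈ S.powerset, (-1 : ℝ) ^ U.card * c (insert w U) := by
      rw [← sum_neg_distrib]
      refine sum_congr rfl fun U hU => ?_
      rw [card_insert_of_notMem fun h => hwS (mem_powerset.1 hU h)]
      ring
    rw [e]
    ring

theorem sum_inter_eq_zero (c : Finset V → ℝ) {S T : Finset V} {w : V} (hS : w ∈ S) (hT : w ∉ T) :
    ∑ U ∈ S.powerset, (-1 : ℝ) ^ U.card * c (U ∩ T) = 0 := by
  obtain ⟨S', hw, rfl⟩ : ∃ S', w ∉ S' ∧ S = insert w S' :=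
    ⟨S.erase w, notMem_erase w S, (insert_erase hS).symm⟩
  rw [sum_powerset_insert hw, ← sum_add_distrib]
  refine sum_eq_zero fun U hU => ?_
  rw [card_insert_of_notMem fun h => hw (mem_powerset.1 hU h), insert_inter_of_notMem hT]
  ring

theorem hat_eq_double (c : Finset V → ℝ) (S : Finset V) :
    ∑ T ∈ S.powerset, ∑ U ∈ S.powerset, (-1 : ℝ) ^ U.card * (-1) ^ T.card * c (U ∩ T) =
      hat c S := by
  rw [sum_eq_single_of_mem S (mem_powerset_self S)]
  · unfold hat
    rw [mul_sum]
    refine sum_congr rfl fun U hU => ?_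
    rw [inter_eq_left.2 (mem_powerset.1 hU)]
    ring
  · intro T hT hne
    obtain ⟨w, hwS, hwT⟩ := exists_of_ssubset (lt_of_le_of_ne (mem_powerset.1 hT) hne)
    have h := sum_inter_eq_zero c hwS hwT
    have e : ∑ U ∈ S.powerset, (-1 : ℝ) ^ U.card * (-1) ^ T.card * c (U ∩ T) =
        (-1) ^ T.card * ∑ U ∈ S.powerset, (-1 : ℝ) ^ U.card * c (U ∩ T) := by
      rw [mul_sum]
      exact sum_congr rfl fun U _ => by ring
    rw [e, h, mul_zero]

/-- The share of the vertex `w` in a function of the subsets of `F`. -/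
def sh (n : Finset V → ℝ) (F : Finset V) (w : V) : ℝ :=
  ∑ S ∈ F.powerset, if w ∈ S then n S / S.card else 0

theorem sum_sh (n : Finset V → ℝ) (F : Finset V) :
    ∑ w ∈ F, sh n F w = ∑ S ∈ F.powerset, n S - n ∅ := by
  unfold sh
  rw [sum_comm, ← sum_erase_eq_sub (empty_mem_powerset F),
    ← sum_erase (s := F.powerset) (a := ∅) (by simp)]
  refine sum_congr rfl fun S hS => ?_
  obtain ⟨hne, hS⟩ := mem_erase.1 hS
  rw [← sum_filter, filter_mem_eq_inter, inter_eq_right.2 (mem_powerset.1 hS), sum_const,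
    nsmul_eq_mul]
  have : (S.card : ℝ) ≠ 0 := by
    exact_mod_cast (card_ne_zero.2 (nonempty_iff_ne_empty.2 hne))
  field_simp

theorem sh_nonneg {n : Finset V → ℝ} (hn : ∀ S, 0 ≤ n S) (F : Finset V) (w : V) :
    0 ≤ sh n F w :=
  sum_nonneg fun S _ => by
    split_ifs
    · exact div_nonneg (hn S) (Nat.cast_nonneg _)
    · exact le_rfl

theorem sh_mono {n : Finset V → ℝ} (hn : ∀ S, 0 ≤ n S) {F F' : Finset V} (h : F ⊆ F') (w : V) :
    sh n F w ≤ sh n F' w :=
  sum_le_sum_of_subset_of_nonneg (powerset_mono.2 h) fun S _ _ => by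
    split_ifs
    · exact div_nonneg (hn S) (Nat.cast_nonneg _)
    · exact le_rfl

theorem sh_of_notMem (n : Finset V → ℝ) {F : Finset V} {w : V} (h : w ∉ F) : sh n F w = 0 :=
  sum_eq_zero fun _ hS => if_neg fun hw => h (mem_powerset.1 hS hw)

theorem sum_sh_le {n : Finset V → ℝ} (hn : ∀ S, 0 ≤ n S) (F F' : Finset V) :
    ∑ w ∈ F', sh n F w ≤ ∑ S ∈ F.powerset, n S := by
  calc ∑ w ∈ F', sh n F w ≤ ∑ w ∈ F' ∪ F, sh n F w :=
        sum_le_sum_of_subset_of_nonneg subset_union_left fun w _ _ => sh_nonneg hn F w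
    _ = ∑ w ∈ F, sh n F w :=
        (sum_subset subset_union_right fun w _ hw => sh_of_notMem n hw).symm
    _ ≤ _ := by
        rw [sum_sh]
        linarith [hn ∅]

theorem sum_powerset_map (e : V ≃ V) (S : Finset V) (a : Finset V → ℝ) :
    ∑ U ∈ (S.map e.toEmbedding).powerset, a U = ∑ U ∈ S.powerset, a (U.map e.toEmbedding) := by
  refine (sum_equiv e.finsetCongr (fun U => ?_) fun U _ => rfl).symm
  rw [mem_powerset, mem_powerset, Equiv.finsetCongr_apply, map_subset_map]

theorem hat_map (e : V ≃ V) {c c' : Finset V → ℝ} (h : ∀ U, c' (U.map e.toEmbedding) = c U)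
    (S : Finset V) : hat c' (S.map e.toEmbedding) = hat c S := by
  unfold hat
  rw [sum_powerset_map, card_map]
  simp only [card_map, h]

theorem sh_map (e : V ≃ V) {n n' : Finset V → ℝ} (h : ∀ U, n' (U.map e.toEmbedding) = n U)
    (F : Finset V) (w : V) : sh n' (F.map e.toEmbedding) (e w) = sh n F w := by
  unfold sh
  rw [sum_powerset_map]
  refine sum_congr rfl fun S _ => ?_
  rw [card_map, h]
  exact if_congr (mem_map' e.toEmbedding) rfl rfl

/-! ### Conditional expectations -/

/-- Labels from `ξ` on `A`, from `ξ'` elsewhere. -/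
def pw (A : Finset V) (ξ ξ' : V → I) : V → I := fun v => if v ∈ A then ξ v else ξ' v

theorem measurable_pw (A : Finset V) : Measurable fun p : (V → I) × (V → I) => pw A p.1 p.2 := by
  refine measurable_pi_lambda _ fun v => ?_
  unfold pw
  split_ifs <;> fun_prop

theorem measurePreserving_pw (A : Finset V) :
    MeasurePreserving (fun p : (V → I) × (V → I) => pw A p.1 p.2)
      ((labelMeasure V).prod (labelMeasure V)) (labelMeasure V) := by
  refine ⟨measurable_pw A, ?_⟩
  unfold labelMeasure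
  refine Measure.eq_infinitePi _ fun s t ht => ?_
  rw [Measure.map_apply (measurable_pw A) (MeasurableSet.pi s.countable_toSet fun _ _ => ht _)]
  have : (fun p : (V → I) × (V → I) => pw A p.1 p.2) ⁻¹' (Set.pi (s : Set V) t) =
      (Set.pi (s.filter (· ∈ A) : Set V) t) ×ˢ (Set.pi (s.filter (· ∉ A) : Set V) t) := by
    ext p
    simp only [Set.mem_preimage, Set.mem_pi, mem_coe, Set.mem_prod, mem_filter, pw]
    constructor
    · intro h
      exact ⟨fun i hi => by simpa [hi.2] using h i hi.1, fun i hi => by simpa [hi.2] using h i hi.1⟩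
    · rintro ⟨h1, h2⟩ i hi
      split_ifs with hA
      · exact h1 i ⟨hi, hA⟩
      · exact h2 i ⟨hi, hA⟩
  rw [this, Measure.prod_prod, Measure.infinitePi_pi _ (fun _ _ => ht _),
    Measure.infinitePi_pi _ (fun _ _ => ht _), prod_filter_mul_prod_filter_not]

/-- Bounded measurable functions. -/
structure BM (f : (V → I) → ℝ) : Prop where
  meas : Measurable f
  bdd : ∃ C, ∀ ξ, |f ξ| ≤ C

theorem BM.integrable {f : (V → I) → ℝ} (hf : BM f) : Integrable f (labelMeasure V) := by
  obtain ⟨C, hC⟩ := hf.bdd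
  exact integrable_of_abs_le hf.meas C hC

theorem BM.mul {f g : (V → I) → ℝ} (hf : BM f) (hg : BM g) : BM fun ξ => f ξ * g ξ := by
  obtain ⟨C, hC⟩ := hf.bdd
  obtain ⟨D, hD⟩ := hg.bdd
  refine ⟨hf.meas.mul hg.meas, C * D, fun ξ => ?_⟩
  rw [abs_mul]
  exact mul_le_mul (hC ξ) (hD ξ) (abs_nonneg _) ((abs_nonneg _).trans (hC ξ))

theorem BM.const (a : ℝ) : BM fun _ : V → I => a := ⟨measurable_const, |a|, fun _ => le_rfl⟩

theorem BM.add {f g : (V → I) → ℝ} (hf : BM f) (hg : BM g) : BM fun ξ => f ξ + g ξ := by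
  obtain ⟨C, hC⟩ := hf.bdd
  obtain ⟨D, hD⟩ := hg.bdd
  exact ⟨hf.meas.add hg.meas, C + D, fun ξ => (abs_add_le _ _).trans (add_le_add (hC ξ) (hD ξ))⟩

theorem BM.sum {ι : Type*} (s : Finset ι) {f : ι → (V → I) → ℝ} (hf : ∀ i, BM (f i)) :
    BM fun ξ => ∑ i ∈ s, f i ξ := by
  induction s using Finset.induction_on with
  | empty => simpa using BM.const 0
  | insert a s ha ih => simpa only [sum_insert ha] using (hf a).add ih

theorem integral_pw (A : Finset V) {f : (V → I) → ℝ} (hf : BM f) :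
    ∫ ξ, f ξ ∂(labelMeasure V) =
      ∫ ξ, ∫ ξ', f (pw A ξ ξ') ∂(labelMeasure V) ∂(labelMeasure V) := by
  have h := measurePreserving_pw A
  obtain ⟨C, hC⟩ := hf.bdd
  rw [← h.map_eq, integral_map h.measurable.aemeasurable hf.meas.aestronglyMeasurable, h.map_eq]
  exact integral_prod (fun p : (V → I) × (V → I) => f (pw A p.1 p.2))
    (integrable_of_abs_le (hf.meas.comp h.measurable) C fun _ => hC _)

/-- The conditional expectation given the labels on `A`. -/
def cE (A : Finset V) (f : (V → I) → ℝ) (ξ : V → I) : ℝ := ∫ ξ', f (pw A ξ ξ') ∂(labelMeasure V)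

theorem abs_cE_le (A : Finset V) {f : (V → I) → ℝ} {C : ℝ} (hC : ∀ ξ, |f ξ| ≤ C) (ξ : V → I) :
    |cE A f ξ| ≤ C := by
  have h := norm_integral_le_of_norm_le_const (μ := labelMeasure V)
    (f := fun ξ' => f (pw A ξ ξ')) (C := C) (Eventually.of_forall fun _ => hC _)
  simpa [cE] using h

theorem BM.cE (A : Finset V) {f : (V → I) → ℝ} (hf : BM f) : BM (cE A f) := by
  obtain ⟨C, hC⟩ := hf.bdd
  refine ⟨?_, C, abs_cE_le A hC⟩
  exact ((hf.meas.comp (measurable_pw A)).stronglyMeasurable.integral_prod_right'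
    (ν := labelMeasure V)).measurable

theorem pw_pw (A B : Finset V) (ξ ξ' ξ'' : V → I) :
    pw B (pw A ξ ξ') ξ'' = pw (A ∩ B) ξ (pw B ξ' ξ'') := by
  funext v
  by_cases hA : v ∈ A <;> by_cases hB : v ∈ B <;> simp [pw, hA, hB]

theorem cE_pw (A : Finset V) (f : (V → I) → ℝ) (ξ ξ' : V → I) :
    cE A f (pw A ξ ξ') = cE A f ξ := by
  unfold cE
  congr 1
  funext η
  congr 1
  funext v
  by_cases hA : v ∈ A <;> simp [pw, hA]

theorem cE_cE (A B : Finset V) {f : (V → I) → ℝ} (hf : BM f) :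
    cE A (cE B f) = cE (A ∩ B) f := by
  funext ξ
  obtain ⟨C, hC⟩ := hf.bdd
  have h : BM fun η => f (pw (A ∩ B) ξ η) :=
    ⟨hf.meas.comp ((measurable_pw _).comp measurable_prodMk_left), C, fun _ => hC _⟩
  unfold cE
  rw [integral_pw B h]
  simp only [pw_pw]

theorem integral_mul_cE (A : Finset V) {f g : (V → I) → ℝ} (hf : BM f) (hg : BM g)
    (h : ∀ ξ ξ', g (pw A ξ ξ') = g ξ) :
    ∫ ξ, g ξ * f ξ ∂(labelMeasure V) = ∫ ξ, g ξ * cE A f ξ ∂(labelMeasure V) := by
  rw [integral_pw A (hg.mul hf)]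
  simp only [h, integral_const_mul]
  rfl

/-- The second moments of the conditional expectations. -/
def cc (f g : (V → I) → ℝ) (A : Finset V) : ℝ := ∫ ξ, cE A f ξ * cE A g ξ ∂(labelMeasure V)

theorem integral_cE_mul_cE (U T : Finset V) {f g : (V → I) → ℝ} (hf : BM f) (hg : BM g) :
    ∫ ξ, cE U f ξ * cE T g ξ ∂(labelMeasure V) = cc f g (U ∩ T) := by
  rw [integral_mul_cE U (hg.cE T) (hf.cE U) (cE_pw U f), cE_cE U T hg]
  simp only [mul_comm (cE U f _)]
  rw [integral_mul_cE (U ∩ T) (hf.cE U) (hg.cE _) (cE_pw _ g), cE_cE _ U hf,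
    inter_eq_left.2 inter_subset_left]
  simp only [mul_comm (cE (U ∩ T) g _)]
  rfl

theorem cc_empty (f g : (V → I) → ℝ) :
    cc f g ∅ = (∫ ξ, f ξ ∂(labelMeasure V)) * ∫ ξ, g ξ ∂(labelMeasure V) := by
  have e : ∀ (a : (V → I) → ℝ) ξ, cE ∅ a ξ = ∫ ξ, a ξ ∂(labelMeasure V) := fun a ξ => by
    unfold cE
    congr 1
  unfold cc
  simp [e]

theorem cc_eq (A : Finset V) {f g : (V → I) → ℝ} (hf : BM f) (hg : BM g) :
    cc f g A = ∫ ξ, cE A f ξ * g ξ ∂(labelMeasure V) :=
  (integral_mul_cE A hg (hf.cE A) (cE_pw A f)).symm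

theorem cc_le (A : Finset V) {f : (V → I) → ℝ} (hf : BM f) :
    cc f f A ≤ ∫ ξ, f ξ ^ 2 ∂(labelMeasure V) := by
  have h1 := cc_eq A hf hf
  have h2 : ∫ ξ, 2 * (cE A f ξ * f ξ) ∂(labelMeasure V) ≤
      ∫ ξ, (cE A f ξ * cE A f ξ + f ξ * f ξ) ∂(labelMeasure V) :=
    integral_mono (((hf.cE A).mul hf).integrable.const_mul 2)
      (((hf.cE A).mul (hf.cE A)).add (hf.mul hf)).integrable fun ξ => by
        dsimp only
        nlinarith [sq_nonneg (cE A f ξ - f ξ)]
  rw [integral_const_mul, integral_add ((hf.cE A).mul (hf.cE A)).integrable (hf.mul hf).integrable,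
    ← h1] at h2
  simp only [sq]
  unfold cc at h1 h2 ⊢
  linarith

/-- The Efron–Stein component (up to sign). -/
def es (f : (V → I) → ℝ) (S : Finset V) (ξ : V → I) : ℝ :=
  ∑ U ∈ S.powerset, (-1) ^ U.card * cE U f ξ

theorem BM.es {f : (V → I) → ℝ} (hf : BM f) (S : Finset V) : BM (es f S) :=
  BM.sum _ fun U => (BM.const _).mul (hf.cE U)

theorem hat_cc {f g : (V → I) → ℝ} (hf : BM f) (hg : BM g) (S : Finset V) :
    hat (cc f g) S = ∫ ξ, es f S ξ * es g S ξ ∂(labelMeasure V) := by
  rw [← hat_eq_double]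
  unfold es
  simp only [sum_mul_sum]
  rw [sum_comm, integral_finsetSum _ fun U _ => (BM.sum _ fun T =>
    ((BM.const _).mul (hf.cE U)).mul ((BM.const _).mul (hg.cE T))).integrable]
  refine sum_congr rfl fun U _ => ?_
  rw [integral_finsetSum _ fun T _ =>
    (((BM.const _).mul (hf.cE U)).mul ((BM.const _).mul (hg.cE T))).integrable]
  refine sum_congr rfl fun T _ => ?_
  rw [← integral_cE_mul_cE U T hf hg, ← integral_const_mul]
  congr 1
  funext ξ
  ring

theorem hat_cc_nonneg {f : (V → I) → ℝ} (hf : BM f) (S : Finset V) : 0 ≤ hat (cc f f) S := by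
  rw [hat_cc hf hf]
  exact integral_nonneg fun ξ => mul_self_nonneg _

theorem abs_hat_cc_le {f g : (V → I) → ℝ} (hf : BM f) (hg : BM g) (S : Finset V) {l : ℝ}
    (hl : 0 < l) : |hat (cc f g) S| ≤ (l * hat (cc f f) S + l⁻¹ * hat (cc g g) S) / 2 := by
  rw [hat_cc hf hg, hat_cc hf hf, hat_cc hg hg, ← integral_const_mul, ← integral_const_mul,
    ← integral_add (((hf.es S).mul (hf.es S)).integrable.const_mul _)
      (((hg.es S).mul (hg.es S)).integrable.const_mul _), ← integral_div]
  refine abs_integral_le_integral_abs.trans (integral_mono ((hf.es S).mul (hg.es S)).integrable.abs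
    (((((hf.es S).mul (hf.es S)).integrable.const_mul _).add
      (((hg.es S).mul (hg.es S)).integrable.const_mul _)).div_const _) fun ξ => ?_)
  dsimp only
  set a := es f S ξ
  set b := es g S ξ
  have h1 : l * l⁻¹ = 1 := mul_inv_cancel₀ hl.ne'
  have h2 : 0 ≤ l⁻¹ * (l * a - b) ^ 2 := by positivity
  have h3 : 0 ≤ l⁻¹ * (l * a + b) ^ 2 := by positivity
  have h4 : l⁻¹ * (l * a - b) ^ 2 = l * (a * a) - 2 * (a * b) + l⁻¹ * (b * b) := by
    linear_combination (l * a ^ 2 - 2 * a * b) * h1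
  have h5 : l⁻¹ * (l * a + b) ^ 2 = l * (a * a) + 2 * (a * b) + l⁻¹ * (b * b) := by
    linear_combination (l * a ^ 2 + 2 * a * b) * h1
  rw [abs_le]
  constructor <;> linarith

/-- The covariance is shared among the vertices. -/
theorem abs_cc_sub_le {f g : (V → I) → ℝ} (hf : BM f) (hg : BM g) (F : Finset V) {l : V → ℝ}
    (hl : ∀ w, 0 < l w) : |cc f g F - cc f g ∅| ≤
      (∑ w ∈ F, l w * sh (hat (cc f f)) F w + ∑ w ∈ F, (l w)⁻¹ * sh (hat (cc g g)) F w) / 2 := by
  have h1 := sum_sh (hat (cc f g)) F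
  have h2 : hat (cc f g) ∅ = cc f g ∅ := by simp [hat]
  rw [sum_hat, h2] at h1
  rw [← h1, ← sum_add_distrib, sum_div]
  refine (abs_sum_le_sum_abs _ _).trans (sum_le_sum fun w _ => ?_)
  unfold sh
  rw [mul_sum, mul_sum, ← sum_add_distrib, sum_div]
  refine (abs_sum_le_sum_abs _ _).trans (sum_le_sum fun S _ => ?_)
  split_ifs
  · rw [abs_div, Nat.abs_cast]
    refine (div_le_div_of_nonneg_right (abs_hat_cc_le hf hg S (hl w)) (Nat.cast_nonneg _)).trans
      (le_of_eq ?_)
    ring
  · simp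

/-! ### Equivariance -/

theorem cc_map (e : V ≃ V) {f f' : (V → I) → ℝ} (hf : BM f) (h : ∀ ω, f (ω ∘ e) = f' ω)
    (U : Finset V) : cc f' f' (U.map e.toEmbedding) = cc f f U := by
  have hp := measurePreserving_comp_inj (A := V) (B := V) e e.injective
  have key : ∀ {a : (V → I) → ℝ}, Measurable a →
      ∫ ξ, a (ξ ∘ e) ∂(labelMeasure V) = ∫ ξ, a ξ ∂(labelMeasure V) := fun {a} ha => by
    conv_rhs => rw [← hp.map_eq, integral_map hp.measurable.aemeasurable ha.aestronglyMeasurable]
  have h1 : ∀ ω, cE (U.map e.toEmbedding) f' ω = cE U f (ω ∘ e) := fun ω => by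
    unfold cE
    rw [← key (a := fun ξ' => f (pw U (ω ∘ e) ξ'))
      (hf.meas.comp ((measurable_pw _).comp measurable_prodMk_left))]
    congr 1
    funext ξ
    rw [← h]
    congr 1
    funext v
    simp only [pw, Function.comp]
    exact if_congr (mem_map' e.toEmbedding) rfl rfl
  unfold cc
  simp only [h1]
  exact key ((hf.cE U).mul (hf.cE U)).meas

/-! ### Exhaustion -/

theorem tendsto_cc (F : ℕ → Finset V) (hF : Monotone F) (hF' : ∀ v, ∃ n, v ∈ F n)
    {f g : (V → I) → ℝ} (hf : BM f) (hg : BM g) :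
    Tendsto (fun n => cc f g (F n)) atTop (𝓝 (∫ ξ, f ξ * g ξ ∂(labelMeasure V))) := by
  let π : Finset V → (V → I) → (V → I) := fun A ξ => pw A ξ (fun _ => 0)
  have hπ : ∀ A, Measurable (π A) := fun A => (measurable_pw A).comp measurable_prodMk_right
  have hππ : ∀ {A B : Finset V}, A ⊆ B → π A ∘ π B = π A := fun {A B} hAB => by
    funext ξ v
    by_cases hA : v ∈ A
    · simp [π, pw, hA, hAB hA]
    · simp [π, pw, hA]
  let ℱ : Filtration ℕ (inferInstance : MeasurableSpace (V → I)) :=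
    { seq := fun n => MeasurableSpace.comap (π (F n)) inferInstance
      mono' := fun n m hnm => by
        change MeasurableSpace.comap (π (F n)) inferInstance ≤
          MeasurableSpace.comap (π (F m)) inferInstance
        rw [← hππ (hF hnm), ← MeasurableSpace.comap_comp]
        exact MeasurableSpace.comap_mono (hπ _).comap_le
      le' := fun n => (hπ _).comap_le }
  have hsup : (inferInstance : MeasurableSpace (V → I)) ≤ ⨆ n, ℱ n := by
    have hid : @Measurable (V → I) (V → I) (⨆ n, ℱ n) inferInstance id := by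
      refine (@measurable_pi_iff _ _ _ (⨆ n, ℱ n) _ _).2 fun v => ?_
      obtain ⟨n, hn⟩ := hF' v
      have h1 : @Measurable (V → I) I (ℱ n) inferInstance ((fun ξ : V → I => ξ v) ∘ π (F n)) :=
        (measurable_pi_apply v).comp (comap_measurable (π (F n)))
      have h2 : ((fun ξ : V → I => ξ v) ∘ π (F n)) = fun ξ : V → I => id ξ v := by
        funext ξ
        simp [π, pw, hn]
      rw [h2] at h1
      exact h1.mono (le_iSup (fun n => ℱ n) n) le_rfl
    simpa using hid.comap_le
  have hae := hf.integrable.tendsto_ae_condExp (ℱ := ℱ) (hf.meas.stronglyMeasurable.mono hsup)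
  have hcE : ∀ n, cE (F n) f =ᵐ[labelMeasure V] (labelMeasure V)[f | ℱ n] := fun n => by
    refine ae_eq_condExp_of_forall_setIntegral_eq (ℱ.le n) hf.integrable
      (fun s _ _ => (hf.cE _).integrable.integrableOn) (fun s hs _ => ?_) ?_
    · obtain ⟨t, ht, rfl⟩ := hs
      have hs' : MeasurableSet (π (F n) ⁻¹' t) := hπ _ ht
      have hb : BM ((π (F n) ⁻¹' t).indicator fun _ => (1 : ℝ)) :=
        ⟨measurable_const.indicator hs', 1, fun ξ => by
          by_cases hξ : ξ ∈ π (F n) ⁻¹' t <;> simp [hξ]⟩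
      have h1 := integral_mul_cE (F n) hf hb fun ξ ξ' => by
        have : π (F n) (pw (F n) ξ ξ') = π (F n) ξ := by
          funext v
          by_cases hA : v ∈ F n <;> simp [π, pw, hA]
        simp only [Set.indicator, Set.mem_preimage, this]
      simp only [← Set.indicator_mul_left, one_mul] at h1
      rw [← integral_indicator hs', ← integral_indicator hs']
      exact h1.symm
    · have h1 : @Measurable (V → I) ℝ (ℱ n) inferInstance (cE (F n) f ∘ π (F n)) :=
        (hf.cE _).meas.comp (comap_measurable (π (F n)))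
      have h2 : cE (F n) f ∘ π (F n) = cE (F n) f := funext fun ξ => cE_pw _ _ _ _
      rw [h2] at h1
      exact h1.stronglyMeasurable.aestronglyMeasurable
  obtain ⟨C, hC⟩ := hf.bdd
  obtain ⟨D, hD⟩ := hg.bdd
  simp only [cc_eq _ hf hg]
  refine tendsto_integral_of_dominated_convergence (fun _ => C * D)
    (fun n => ((hf.cE _).mul hg).meas.aestronglyMeasurable) (integrable_const _)
    (fun n => Eventually.of_forall fun ξ => ?_) ?_
  · rw [Real.norm_eq_abs, abs_mul]
    exact mul_le_mul (abs_cE_le _ hC ξ) (hD ξ) (abs_nonneg _) ((abs_nonneg _).trans (hC ξ))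
  · filter_upwards [hae, ae_all_iff.2 hcE] with ξ h1 h2
    simp only [h2]
    exact h1.mul_const _

end BSVAux

end Crest.Agent.R160

end
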