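import Crest.Agent.R160.Equiv
import Crest.Agent.R160.BSVAux

/-!
Correlation decay for factors of independent labels on the regular tree.
-/

set_option autoImplicit false

open MeasureTheory unitInterval Filter Topology
open Crest.ProbabilityR Crest.ProbabilityR.Labels Crest.ProbabilityR.TreeIsing
open scoped Classical

noncomputable section

namespace Crest.Agent.R160

universe u

variable {V : Type u} {G : SimpleGraph V} [G.LocallyFinite] {d : ℕ}

namespace BSVAux

open Finset

/-- Projection of a vertex on a geodesic. -/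
theorem exists_proj (h : RT G d) (x x' w : V) : ∃ i ≤ G.dist x x',
    G.dist x w = i + G.dist (geo G x x' i) w ∧
      G.dist x' w + i = G.dist x x' + G.dist (geo G x x' i) w := by
  let P : ℕ → Prop := fun i => G.dist x w = i + G.dist (geo G x x' i) w
  have h0 : P 0 := by simp only [P, geo_zero h, zero_add]
  have h1 : P (Nat.findGreatest P (G.dist x x')) := Nat.findGreatest_spec (Nat.zero_le _) h0
  have h2 := Nat.findGreatest_le (P := P) (G.dist x x')
  have h3 : ∀ j, Nat.findGreatest P (G.dist x x') < j → j ≤ G.dist x x' → ¬P j :=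
    fun j => Nat.findGreatest_is_greatest
  generalize Nat.findGreatest P (G.dist x x') = i at h1 h2 h3
  refine ⟨i, h2, h1, ?_⟩
  rcases h2.eq_or_lt with hi | hi
  · rw [hi, geo_dist h, add_comm]
  · have hadj := geo_adj h x x' hi
    have h4 : w ∉ half G (geo G x x' (i + 1)) (geo G x x' i) := fun hw => by
      refine h3 (i + 1) (Nat.lt_succ_self i) hi ?_
      have h5 : G.dist (geo G x x' i) w = G.dist (geo G x x' (i + 1)) w + 1 := hw
      simp only [P] at h1 ⊢
      omega
    have h5 := dist_of_half h hadj.symm ((mem_half_iff_not h hadj.symm w).2 h4)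
      (mem_half_geo h x x' hi)
    have h6 := (geo_spec h x x' (i := i + 1) hi).2
    rw [SimpleGraph.dist_comm (u := x'), SimpleGraph.dist_comm (u := geo G x x' i)]
    omega

theorem radial_sum_le (h : RT G d) (x x' : V) {q : V → ℝ} (hq : ∀ w, 0 ≤ q w)
    (hr : ∀ w w', G.dist x w = G.dist x w' → q w = q w') {M : ℝ}
    (hM : ∀ F : Finset V, ∑ w ∈ F, q w ≤ M) (F : Finset V) :
    ∑ w ∈ F, Real.sqrt ((d : ℝ) - 1) ^ G.dist x w / Real.sqrt ((d : ℝ) - 1) ^ G.dist x' w * q w ≤
      3 / 2 * (G.dist x x' + 1) * (1 / Real.sqrt ((d : ℝ) - 1)) ^ G.dist x x' * M := by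
  have hd := h.two_le
  set s := Real.sqrt ((d : ℝ) - 1) with hs
  have hs0 : 0 < s := Real.sqrt_pos.2 (by linarith)
  have hs2 : s ^ 2 = (d : ℝ) - 1 := Real.sq_sqrt (by linarith)
  let Q : ℕ → ℝ := fun n => if hn : ∃ w, G.dist x w = n then q hn.choose else 0
  have hQ0 : ∀ n, 0 ≤ Q n := fun n => by
    simp only [Q]
    split_ifs
    · exact hq _
    · exact le_rfl
  have hQ : ∀ w, q w = Q (G.dist x w) := fun w => by
    have hn : ∃ w', G.dist x w' = G.dist x w := ⟨w, rfl⟩
    simp only [Q, dif_pos hn]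
    exact hr _ _ hn.choose_spec.symm
  have hQM : ∀ N, ∑ n ∈ range (N + 1), ((d : ℝ) - 1) ^ n * Q n ≤ M := fun N =>
    (le_sum_ball_radial h x N hQ0).trans (by simpa only [← hQ] using hM (ball G x N))
  set k := G.dist x x' with hk
  set N := F.sup (G.dist x) with hN
  let t : ℕ → V → ℝ := fun i w =>
    (1 / s) ^ k * ((d : ℝ) - 1) ^ i * Q (i + G.dist (geo G x x' i) w)
  have ht : ∀ i w, 0 ≤ t i w := fun i w =>
    mul_nonneg (mul_nonneg (by positivity) (pow_nonneg (by linarith) _)) (hQ0 _)
  calc _ ≤ ∑ w ∈ F, ∑ i ∈ range (k + 1), if w ∈ ball G (geo G x x' i) N then t i w else 0 := by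
        refine sum_le_sum fun w hw => ?_
        obtain ⟨i, hi, h1, h2⟩ := exists_proj h x x' w
        have h3 : G.dist x w ≤ N := le_sup (f := G.dist x) hw
        refine le_trans (le_of_eq ?_) (single_le_sum
          (f := fun i => if w ∈ ball G (geo G x x' i) N then t i w else 0)
          (fun j _ => by split_ifs; exacts [ht _ _, le_rfl]) (mem_range.2 (Nat.lt_succ_of_le hi)))
        rw [if_pos ((mem_ball h).2 (by omega)), hQ]
        simp only [t]
        rw [← h1]
        congr 1
        rw [← hs2, div_eq_iff (by positivity), one_div, inv_pow, mul_assoc, eq_inv_mul_iff_mul_eq₀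
          (by positivity), ← pow_mul, ← pow_add, ← pow_add]
        congr 1
        omega
    _ ≤ ∑ i ∈ range (k + 1), 3 / 2 * (1 / s) ^ k * M := by
        rw [sum_comm]
        refine sum_le_sum fun i _ => ?_
        rw [← sum_filter, filter_mem_eq_inter]
        refine (sum_le_sum_of_subset_of_nonneg inter_subset_right fun w _ _ => ht i w).trans ?_
        refine (sum_ball_radial_le h (geo G x x' i) N
          (f := fun n => (1 / s) ^ k * ((d : ℝ) - 1) ^ i * Q (i + n)) fun n =>
            mul_nonneg (mul_nonneg (by positivity) (pow_nonneg (by linarith) _)) (hQ0 _)).trans ?_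
        have h1 := hQM (i + N)
        rw [add_assoc, sum_range_add] at h1
        have h2 : 0 ≤ ∑ n ∈ range i, ((d : ℝ) - 1) ^ n * Q n :=
          sum_nonneg fun n _ => mul_nonneg (pow_nonneg (by linarith) _) (hQ0 _)
        have h3 : ∑ n ∈ range (N + 1), ((d : ℝ) - 1) ^ n * ((1 / s) ^ k * ((d : ℝ) - 1) ^ i *
            Q (i + n)) = (1 / s) ^ k * ∑ n ∈ range (N + 1), ((d : ℝ) - 1) ^ (i + n) * Q (i + n) := by
          rw [mul_sum]
          exact sum_congr rfl fun n _ => by ring
        rw [h3, mul_assoc]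
        exact mul_le_mul_of_nonneg_left (mul_le_mul_of_nonneg_left (by linarith) (by positivity))
          (by norm_num)
    _ = _ := by
        rw [sum_const, card_range, nsmul_eq_mul]
        push_cast
        ring

theorem share_le (h : RT G d) (f : V → V → (V → I) → ℝ) (hf : ∀ y x, BM (f y x))
    (heq : ∀ (g : G ≃g G) y x ω, f y x (ω ∘ g) = f (g y) (g x) ω) {B : ℝ}
    (hB : ∀ y x, G.Adj y x → ∫ ω, f y x ω ^ 2 ∂(labelMeasure V) ≤ B)
    {y x : V} (hyx : G.Adj y x) (x' : V) (F : Finset V) :
    ∑ w ∈ F, Real.sqrt ((d : ℝ) - 1) ^ G.dist x w / Real.sqrt ((d : ℝ) - 1) ^ G.dist x' w *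
      sh (hat (cc (f y x) (f y x))) F w ≤
      3 / 2 * (G.dist x x' + 1) * (1 / Real.sqrt ((d : ℝ) - 1)) ^ G.dist x x' * (d * B) := by
  set R := F.sup (G.dist x) with hR
  have hF : F ⊆ ball G x R := fun w hw => (mem_ball h).2 (le_sup (f := G.dist x) hw)
  let q : V → ℝ := fun w => ∑ y ∈ G.neighborFinset x, sh (hat (cc (f y x) (f y x))) (ball G x R) w
  have h0 : ∀ y w, 0 ≤ sh (hat (cc (f y x) (f y x))) (ball G x R) w := fun y w =>
    sh_nonneg (hat_cc_nonneg (hf y x)) _ _
  refine le_trans (sum_le_sum fun w _ => mul_le_mul_of_nonneg_left ?_ (by positivity))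
    (radial_sum_le h x x' (q := q) (fun w => sum_nonneg fun y _ => h0 y w) (fun w w' hw => ?_)
      (fun F' => ?_) F)
  · exact (sh_mono (hat_cc_nonneg (hf y x)) hF w).trans (single_le_sum
      (f := fun y => sh (hat (cc (f y x) (f y x))) (ball G x R) w) (fun y _ => h0 y w)
      ((G.mem_neighborFinset x y).2 hyx.symm))
  · obtain ⟨g, hg1, hg2⟩ := exists_aut h hw
    have hb : (ball G x R).map g.toEquiv.toEmbedding = ball G x R := by
      have := ball_map h g x R
      rw [hg1] at this
      rw [map_eq_image]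
      exact this.symm
    refine sum_equiv g.toEquiv (fun y => ?_) fun y _ => ?_
    · rw [SimpleGraph.mem_neighborFinset, SimpleGraph.mem_neighborFinset]
      conv_rhs => rw [← hg1]
      exact g.map_adj_iff.symm
    · have h1 := sh_map g.toEquiv (hat_map g.toEquiv (cc_map g.toEquiv (hf y x) (heq g y x)))
        (ball G x R) w
      rw [hb, hg1] at h1
      rw [← h1, ← hg2]
      rfl
  · simp only [q]
    rw [sum_comm]
    calc _ ≤ ∑ _y ∈ G.neighborFinset x, B := by
          refine sum_le_sum fun y hy => (sum_sh_le (hat_cc_nonneg (hf y x)) _ _).trans ?_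
          rw [sum_hat]
          exact (cc_le _ (hf y x)).trans (hB y x ((G.mem_neighborFinset x y).1 hy).symm)
      _ = d * B := by
          rw [sum_const, SimpleGraph.card_neighborFinset_eq_degree, h.reg x, nsmul_eq_mul]

theorem sum_geom_le {r : ℝ} (h0 : 0 ≤ r) (h1 : r < 1) (s : Finset ℕ) :
    ∑ k ∈ s, ((k : ℝ) + 1) * r ^ k ≤ r / (1 - r) ^ 2 + (1 - r)⁻¹ := by
  have h2 := (hasSum_coe_mul_geometric_of_norm_lt_one (𝕜 := ℝ) (r := r)
    (by rwa [Real.norm_eq_abs, abs_of_nonneg h0])).add (hasSum_geometric_of_lt_one h0 h1)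
  refine le_trans (le_of_eq (sum_congr rfl fun k _ => by ring))
    (sum_le_hasSum s (fun k _ => by positivity) h2)

theorem sum_dist_le {a : ℕ → ℝ} {S : ℝ} (hS : ∀ s : Finset ℕ, ∑ k ∈ s, a k ≤ S)
    (n i : ℕ) : ∑ j ∈ range n, a (if i ≤ j then j - i else i - j) ≤ 2 * S := by
  rw [← sum_filter_add_sum_filter_not (range n) (fun j => i ≤ j), two_mul]
  refine add_le_add ?_ ?_
  · refine le_trans (le_of_eq ?_) (hS (((range n).filter fun j => i ≤ j).image fun j => j - i))
    rw [sum_image fun j hj j' hj' e => by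
      have := (mem_filter.1 hj).2
      have := (mem_filter.1 hj').2
      omega]
    exact sum_congr rfl fun j hj => by rw [if_pos (mem_filter.1 hj).2]
  · refine le_trans (le_of_eq ?_) (hS (((range n).filter fun j => ¬i ≤ j).image fun j => i - j))
    rw [sum_image fun j hj j' hj' e => by
      have := (mem_filter.1 hj).2
      have := (mem_filter.1 hj').2
      omega]
    exact sum_congr rfl fun j hj => by rw [if_neg (mem_filter.1 hj).2]

end BSVAux

open BSVAux

/-- Correlation decay for an equivariant family indexed by the directed edges. -/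
theorem bsv (h : RT G d) (f : V → V → (V → I) → ℝ) (hm : ∀ y x, Measurable (f y x)) {C : ℝ}
    (hb : ∀ y x ω, |f y x ω| ≤ C)
    (heq : ∀ (g : G ≃g G) y x ω, f y x (ω ∘ g) = f (g y) (g x) ω) {B : ℝ}
    (hB : ∀ y x, G.Adj y x → ∫ ω, f y x ω ^ 2 ∂(labelMeasure V) ≤ B)
    {y x y' x' : V} (hyx : G.Adj y x) (hyx' : G.Adj y' x') :
    |∫ ω, f y x ω * f y' x' ω ∂(labelMeasure V) -
      (∫ ω, f y x ω ∂(labelMeasure V)) * ∫ ω, f y' x' ω ∂(labelMeasure V)| ≤
      2 * d * (G.dist x x' + 1) * (1 / Real.sqrt ((d : ℝ) - 1)) ^ G.dist x x' * B := by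
  have hf : ∀ y x, BM (f y x) := fun y x => ⟨hm y x, C, hb y x⟩
  have hB0 : 0 ≤ B := (integral_nonneg fun ω => sq_nonneg _).trans (hB y x hyx)
  have hs0 : 0 < Real.sqrt ((d : ℝ) - 1) := Real.sqrt_pos.2 (by linarith [h.two_le])
  have h1 := tendsto_cc (ball G x) (fun n m hnm w hw => (mem_ball h).2
    (((mem_ball h).1 hw).trans hnm)) (fun v => ⟨G.dist x v, (mem_ball h).2 le_rfl⟩)
    (hf y x) (hf y' x')
  rw [← cc_empty]
  refine le_of_tendsto' (h1.sub_const _).abs fun R => ?_
  refine (abs_cc_sub_le (hf y x) (hf y' x') (ball G x R) (l := fun w =>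
    Real.sqrt ((d : ℝ) - 1) ^ G.dist x w / Real.sqrt ((d : ℝ) - 1) ^ G.dist x' w)
    fun w => by positivity).trans ?_
  have h2 := share_le h f hf heq hB hyx x' (ball G x R)
  have h3 := share_le h f hf heq hB hyx' x (ball G x R)
  rw [SimpleGraph.dist_comm (u := x') (v := x)] at h3
  simp only [inv_div]
  have h4 : 0 ≤ ((G.dist x x' : ℝ) + 1) * (1 / Real.sqrt ((d : ℝ) - 1)) ^ G.dist x x' * (d * B) := by
    positivity
  linarith

/-- Sums along a geodesic of an equivariant family on the label space. -/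
theorem exists_bsv_path (h : RT G d) : ∃ C₀ : ℝ, 0 < C₀ ∧ ∀ (f : V → V → Lab V → ℝ),
    (∀ y x, Measurable (f y x)) → ∀ C : ℝ, (∀ y x ω, |f y x ω| ≤ C) →
    (∀ (g : G ≃g G) y x ω, f y x (actL g ω) = f (g y) (g x) ω) → ∀ B μ : ℝ,
    (∀ y x, G.Adj y x → ∫ ω, f y x ω ^ 2 ∂(Pl V) ≤ B) →
    (∀ y x, G.Adj y x → |∫ ω, f y x ω ∂(Pl V)| ≤ μ) → ∀ o z : V,
    ∫ ω, (∑ i ∈ Finset.range (G.dist o z), f (geo G o z (i + 1)) (geo G o z i) ω) ^ 2 ∂(Pl V) ≤
      (G.dist o z : ℝ) ^ 2 * μ ^ 2 + C₀ * G.dist o z * B := by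
  have hd := h.two_le
  set r := 1 / Real.sqrt ((d : ℝ) - 1) with hr
  have hs1 : 1 < Real.sqrt ((d : ℝ) - 1) := Real.lt_sqrt_of_sq_lt (by linarith)
  have hr0 : 0 ≤ r := by positivity
  have hr1 : r < 1 := (div_lt_one (by linarith)).2 hs1
  set S := r / (1 - r) ^ 2 + (1 - r)⁻¹ with hS
  have hS0 : 0 < S := by
    have : 0 < 1 - r := by linarith
    positivity
  have hd0 : (0 : ℝ) < d := by linarith
  refine ⟨2 * d * (2 * S), by positivity, fun f hm C hb heq B μ hB hμ o z => ?_⟩
  have hp := measurePreserving_spl (V := V)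
  have key : ∀ {a : Lab V → ℝ}, Measurable a →
      ∫ ω, a ω ∂(Pl V) = ∫ ξ, a (spl ξ) ∂(labelMeasure V) := fun {a} ha => by
    rw [← hp.map_eq, integral_map hp.measurable.aemeasurable ha.aestronglyMeasurable]
  let f' : V → V → (V → I) → ℝ := fun y x ξ => f y x (spl ξ)
  have hm' : ∀ y x, Measurable (f' y x) := fun y x => (hm y x).comp hp.measurable
  have hf : ∀ y x, BM (f' y x) := fun y x => ⟨hm' y x, C, fun ξ => hb y x _⟩
  have hB' : ∀ y x, G.Adj y x → ∫ ω, f' y x ω ^ 2 ∂(labelMeasure V) ≤ B := fun y x hyx =>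
    (key ((hm y x).pow_const 2)).symm.trans_le (hB y x hyx)
  have hμ' : ∀ y x, G.Adj y x → |∫ ω, f' y x ω ∂(labelMeasure V)| ≤ μ := fun y x hyx => by
    have := hμ y x hyx
    rwa [key (hm y x)] at this
  have hc := fun {y x y' x' : V} => bsv h f' hm' (C := C) (fun y x ξ => hb y x _)
    (fun g y x ξ => by simp only [f', spl_comp, heq]) hB' (y := y) (x := x) (y' := y') (x' := x')
  set n := G.dist o z with hn
  rw [key ((Finset.measurable_sum _ fun i _ => hm _ _).pow_const 2)]
  simp only [sq, Finset.sum_mul_sum]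
  change ∫ ξ, ∑ i ∈ Finset.range n, ∑ j ∈ Finset.range n,
    f' (geo G o z (i + 1)) (geo G o z i) ξ * f' (geo G o z (j + 1)) (geo G o z j) ξ
      ∂(labelMeasure V) ≤ _
  rw [integral_finsetSum _ fun i _ => (BM.sum _ fun j => (hf _ _).mul (hf _ _)).integrable]
  calc _ ≤ ∑ _i ∈ Finset.range n, (n * (μ * μ) + 2 * d * (2 * S) * B) := by
        refine Finset.sum_le_sum fun i hi => ?_
        have hi' := Finset.mem_range.1 hi
        have hB0 : 0 ≤ B :=
          (integral_nonneg fun ω => sq_nonneg _).trans (hB' _ _ (geo_adj h o z hi'))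
        rw [integral_finsetSum _ fun j _ => ((hf _ _).mul (hf _ _)).integrable]
        have h1 := sum_dist_le (a := fun k => ((k : ℝ) + 1) * r ^ k)
          (sum_geom_le hr0 hr1) n i
        calc _ ≤ ∑ j ∈ Finset.range n, (μ * μ + 2 * d * B *
              ((((if i ≤ j then j - i else i - j : ℕ) : ℝ) + 1) *
                r ^ (if i ≤ j then j - i else i - j))) := by
              refine Finset.sum_le_sum fun j hj => ?_
              have hj' := Finset.mem_range.1 hj
              have h2 := hc (geo_adj h o z hi') (geo_adj h o z hj')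
              have h3 : G.dist (geo G o z i) (geo G o z j) = if i ≤ j then j - i else i - j := by
                split_ifs with hij
                · exact geo_dist_geo h o z hij hj'.le
                · rw [SimpleGraph.dist_comm]
                  exact geo_dist_geo h o z (not_le.1 hij).le hi'.le
              rw [h3] at h2
              have h4 := hμ' _ _ (geo_adj h o z hi')
              have h5 := hμ' _ _ (geo_adj h o z hj')
              have h6 := (le_abs_self _).trans ((abs_mul _ _).trans_le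
                (mul_le_mul h4 h5 (abs_nonneg _) ((abs_nonneg _).trans h4)))
              have h7 := (abs_le.1 h2).2
              linarith
          _ ≤ _ := by
              rw [Finset.sum_add_distrib, Finset.sum_const, Finset.card_range, nsmul_eq_mul,
                ← Finset.mul_sum]
              have h2 := mul_le_mul_of_nonneg_left h1 (show 0 ≤ 2 * (d : ℝ) * B by positivity)
              linarith
    _ = _ := by
        rw [Finset.sum_const, Finset.card_range, nsmul_eq_mul]
        ring

end Crest.Agent.R160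

end
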