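import Crest.Agent.R160.BayesFin

/-!
Infinite-volume limits, Bayes' formula, orthogonal increments.
-/

set_option autoImplicit false

open MeasureTheory unitInterval Filter Topology
open Crest.ProbabilityR Crest.ProbabilityR.Labels Crest.ProbabilityR.TreeIsing
open scoped Classical

noncomputable section

namespace Crest.Agent.R160

universe u

variable {V : Type u} {G : SimpleGraph V} [G.LocallyFinite] {d : ℕ}

variable {θ : ℝ}

namespace BayesAux

/-- Geometrically small second moments give almost sure summability. -/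
theorem ae_summable_of_sq {Ω : Type*} [MeasurableSpace Ω] {P : Measure Ω} [IsFiniteMeasure P]
    {f : ℕ → Ω → ℝ} (hf : ∀ n, Measurable (f n)) {B : ℝ} (hB : ∀ n ω, |f n ω| ≤ B) {C q : ℝ}
    (hq0 : 0 ≤ q) (hq : q < 1) (hC : ∀ n, ∫ ω, f n ω ^ 2 ∂P ≤ C * q ^ n) :
    ∀ᵐ ω ∂P, Summable (fun n => |f n ω|) := by
  obtain ⟨s, hs⟩ : ∃ s : ℝ, s = (1 + q) / 2 := ⟨_, rfl⟩
  have hs0 : 0 < s := by rw [hs]; linarith
  have hs1 : s < 1 := by rw [hs]; linarith
  have hqs : q / s < 1 := by rw [div_lt_one hs0, hs]; linarith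
  have hqs0 : 0 ≤ q / s := div_nonneg hq0 hs0.le
  have hint : ∀ n, Integrable (fun ω => f n ω ^ 2) P := fun n =>
    R168.integrable_of_abs_le ((hf n).pow_const 2) (B ^ 2) (fun ω => by
      rw [abs_pow]; exact pow_le_pow_left₀ (abs_nonneg _) (hB n ω) 2)
  have hC0 : 0 ≤ C := by
    have := (integral_nonneg (fun ω => sq_nonneg (f 0 ω))).trans (hC 0)
    simpa using this
  have hsum : Summable (fun n => C * (q / s) ^ n) :=
    (summable_geometric_of_lt_one hqs0 hqs).mul_left C
  have hfin : ∫⁻ ω, ∑' n, ENNReal.ofReal (f n ω ^ 2 / s ^ n) ∂P ≠ ⊤ := by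
    rw [lintegral_tsum (fun n => (((hf n).pow_const 2).div_const _).ennreal_ofReal.aemeasurable)]
    refine ne_top_of_le_ne_top (hsum.tsum_ofReal_ne_top) (ENNReal.tsum_le_tsum (fun n => ?_))
    rw [← ofReal_integral_eq_lintegral_ofReal ((hint n).div_const _)
      (Eventually.of_forall (fun ω => div_nonneg (sq_nonneg _) (pow_pos hs0 n).le))]
    refine ENNReal.ofReal_le_ofReal ?_
    rw [integral_div, div_pow, ← mul_div_assoc]
    exact div_le_div_of_nonneg_right (hC n) (pow_pos hs0 n).le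
  have hae := ae_lt_top (Measurable.tsum
    (fun n => (((hf n).pow_const 2).div_const _).ennreal_ofReal)) hfin
  filter_upwards [hae] with ω hω
  have h1 : Summable (fun n => f n ω ^ 2 / s ^ n) := by
    have := ENNReal.summable_toReal hω.ne
    refine this.congr (fun n => ?_)
    rw [ENNReal.toReal_ofReal (div_nonneg (sq_nonneg _) (pow_pos hs0 n).le)]
  refine Summable.of_nonneg_of_le (fun n => abs_nonneg _) (fun n => ?_)
    (h1.add (summable_geometric_of_lt_one hs0.le hs1))
  have ht := pow_pos hs0 n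
  have h2 : |f n ω| * s ^ n ≤ f n ω ^ 2 + s ^ n * s ^ n := by
    rw [← sq_abs]; nlinarith [sq_nonneg (|f n ω| - s ^ n), abs_nonneg (f n ω)]
  rw [div_add' _ _ _ ht.ne', le_div_iff₀ ht]
  exact h2

/-- Two bounded weights that agree against a generating π-system agree against all bounded
measurable functions. -/
theorem integral_mul_eq_of_piSystem {Ω β : Type*} [MeasurableSpace Ω] [mβ : MeasurableSpace β]
    (P : Measure Ω) [IsFiniteMeasure P] {Φ : Ω → β} (hΦ : Measurable Φ) {X Y : Ω → ℝ}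
    (hX : Measurable X) (hY : Measurable Y) (hX1 : ∀ ω, |X ω| ≤ 1) (hY1 : ∀ ω, |Y ω| ≤ 1)
    (𝒞 : Set (Set β)) (hgen : mβ = MeasurableSpace.generateFrom 𝒞) (hpi : IsPiSystem 𝒞)
    (huniv : Set.univ ∈ 𝒞)
    (h𝒞 : ∀ S ∈ 𝒞, ∫ ω, X ω * S.indicator (fun _ => (1 : ℝ)) (Φ ω) ∂P =
      ∫ ω, Y ω * S.indicator (fun _ => (1 : ℝ)) (Φ ω) ∂P)
    {g : β → ℝ} (hg : Measurable g) {C : ℝ} (hC : ∀ p, |g p| ≤ C) :
    ∫ ω, X ω * g (Φ ω) ∂P = ∫ ω, Y ω * g (Φ ω) ∂P := by
  have key : ∀ {Z : Ω → ℝ}, Measurable Z → (∀ ω, |Z ω| ≤ 1) → ∀ {k : β → ℝ}, Measurable k →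
      ∀ {D : ℝ}, (∀ p, |k p| ≤ D) →
      ∫ p, k p ∂((P.withDensity (fun ω => ENNReal.ofReal (1 + Z ω))).map Φ) =
        ∫ ω, k (Φ ω) ∂P + ∫ ω, Z ω * k (Φ ω) ∂P := by
    intro Z hZ hZ1 k hk D hD
    have i1 : Integrable (fun ω => k (Φ ω)) P :=
      R168.integrable_of_abs_le (hk.comp hΦ) D (fun ω => hD _)
    have i2 : Integrable (fun ω => Z ω * k (Φ ω)) P :=
      R168.integrable_of_abs_le (f := fun ω => Z ω * k (Φ ω)) (hZ.mul (hk.comp hΦ)) D (fun ω => by
        rw [abs_mul]
        exact (mul_le_of_le_one_left (abs_nonneg _) (hZ1 ω)).trans (hD _))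
    rw [integral_map hΦ.aemeasurable hk.aestronglyMeasurable,
      integral_withDensity_eq_integral_toReal_smul (hZ.const_add 1).ennreal_ofReal
        (Eventually.of_forall (fun _ => ENNReal.ofReal_lt_top)), ← integral_add i1 i2]
    refine integral_congr_ae (Eventually.of_forall (fun ω => ?_))
    have : 0 ≤ 1 + Z ω := by have := (abs_le.1 (hZ1 ω)).1; linarith
    simp only [ENNReal.toReal_ofReal this, smul_eq_mul]
    ring
  have fin : ∀ {Z : Ω → ℝ}, (∀ ω, |Z ω| ≤ 1) →
      IsFiniteMeasure ((P.withDensity (fun ω => ENNReal.ofReal (1 + Z ω))).map Φ) := by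
    intro Z hZ1
    have : IsFiniteMeasure (P.withDensity (fun ω => ENNReal.ofReal (1 + Z ω))) := by
      refine isFiniteMeasure_withDensity (ne_top_of_le_ne_top (b := ∫⁻ _, 2 ∂P) ?_ ?_)
      · rw [lintegral_const]
        exact ENNReal.mul_ne_top (by simp) (measure_ne_top _ _)
      · refine lintegral_mono (fun ω => ?_)
        have := (abs_le.1 (hZ1 ω)).2
        calc ENNReal.ofReal (1 + Z ω) ≤ ENNReal.ofReal 2 := ENNReal.ofReal_le_ofReal (by linarith)
          _ = 2 := by simp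
    infer_instance
  have f1 := fin hX1
  have f2 := fin hY1
  have hS : ∀ S ∈ 𝒞, ((P.withDensity (fun ω => ENNReal.ofReal (1 + X ω))).map Φ) S =
      ((P.withDensity (fun ω => ENNReal.ofReal (1 + Y ω))).map Φ) S := by
    intro S hS
    have hm : MeasurableSet S := by
      rw [hgen]; exact MeasurableSpace.measurableSet_generateFrom hS
    have hb : ∀ p, |S.indicator (fun _ => (1 : ℝ)) p| ≤ 1 := fun p => by
      by_cases hp : p ∈ S <;> simp [hp]
    have e1 := key hX hX1 (measurable_const.indicator hm) hb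
    have e2 := key hY hY1 (measurable_const.indicator hm) hb
    rw [h𝒞 S hS, ← e2, integral_indicator_const _ hm, integral_indicator_const _ hm] at e1
    simp only [smul_eq_mul, mul_one] at e1
    exact (measureReal_eq_measureReal_iff (measure_ne_top _ _) (measure_ne_top _ _)).1 e1
  have heq := ext_of_generate_finite 𝒞 hgen hpi hS (hS _ huniv)
  have e1 := key hX hX1 hg hC
  have e2 := key hY hY1 hg hC
  rw [heq, e2] at e1
  linarith

/-- Cauchy-Schwarz for bounded functions. -/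
theorem sq_integral_mul_le {Ω : Type*} [MeasurableSpace Ω] {P : Measure Ω} [IsFiniteMeasure P]
    {a b : Ω → ℝ} (ha : Measurable a) (hb : Measurable b) {A B : ℝ} (hA : ∀ ω, |a ω| ≤ A)
    (hB : ∀ ω, |b ω| ≤ B) :
    (∫ ω, a ω * b ω ∂P) ^ 2 ≤ (∫ ω, a ω ^ 2 ∂P) * ∫ ω, b ω ^ 2 ∂P := by
  have i1 : Integrable (fun ω => a ω ^ 2) P :=
    R168.integrable_of_abs_le (ha.pow_const 2) (A ^ 2) (fun ω => by
      rw [abs_pow]; exact pow_le_pow_left₀ (abs_nonneg _) (hA ω) 2)
  have i2 : Integrable (fun ω => b ω ^ 2) P :=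
    R168.integrable_of_abs_le (hb.pow_const 2) (B ^ 2) (fun ω => by
      rw [abs_pow]; exact pow_le_pow_left₀ (abs_nonneg _) (hB ω) 2)
  have i3 : Integrable (fun ω => a ω * b ω) P :=
    R168.integrable_of_abs_le (ha.mul hb) (A * B) (fun ω => by
      rw [abs_mul]
      exact mul_le_mul (hA ω) (hB ω) (abs_nonneg _) ((abs_nonneg _).trans (hA ω)))
  have h := discrim_le_zero (a := ∫ ω, a ω ^ 2 ∂P) (b := 2 * ∫ ω, a ω * b ω ∂P)
    (c := ∫ ω, b ω ^ 2 ∂P) (fun t => by
      have e : (∫ ω, a ω ^ 2 ∂P) * (t * t) + (2 * ∫ ω, a ω * b ω ∂P) * t + ∫ ω, b ω ^ 2 ∂P =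
          ∫ ω, (a ω * t + b ω) ^ 2 ∂P := by
        have e' : (fun ω => (a ω * t + b ω) ^ 2) =
            fun ω => ((t * t) * a ω ^ 2 + (2 * t) * (a ω * b ω)) + b ω ^ 2 := by
          funext ω; ring
        have i4 : Integrable (fun ω => (t * t) * a ω ^ 2 + (2 * t) * (a ω * b ω)) P :=
          (i1.const_mul _).add (i3.const_mul _)
        rw [e', integral_add i4 i2,
          integral_add (i1.const_mul _) (i3.const_mul _), integral_const_mul, integral_const_mul]
        ring
      rw [e]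
      exact integral_nonneg (fun ω => sq_nonneg _))
  unfold discrim at h
  nlinarith

omit [G.LocallyFinite] in
theorem indicator_Lm (A : Lb V → Set (Slot V)) (B : Set (Slot V)) (ω : Om V) :
    B.indicator (Lm A ω) = Lm (fun T => B ∩ A T) ω := by
  unfold Lm
  rw [Set.indicator_indicator]

omit [G.LocallyFinite] in
theorem meas_inter {A : Lb V → Set (Slot V)} (hA : ∀ z, MeasurableSet {T | z ∈ A T})
    (B : Set (Slot V)) (z : Slot V) : MeasurableSet {T | z ∈ B ∩ A T} := by
  by_cases hz : z ∈ B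
  · simpa [hz] using hA z
  · simp [hz]

omit [G.LocallyFinite] in
theorem measurable_magLm {A : Lb V → Set (Slot V)} (hA : ∀ z, MeasurableSet {T | z ∈ A T})
    (v : V) : Measurable (fun ω : Om V => mag G θ (Lm A ω) v) :=
  (measurable_mag v).comp (measurable_Lm hA)

omit [G.LocallyFinite] in
theorem abs_magLm_le (A : Lb V → Set (Slot V)) (v : V) (ω : Om V) :
    |mag G θ (Lm A ω) v| ≤ 1 := abs_mag_le (bd_Lm A ω) v

omit [G.LocallyFinite] in
theorem measurable_spinv (v : V) : Measurable (fun ω : Om V => spin (ω.2.1 v)) :=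
  measurable_spin.comp ((measurable_pi_apply v).comp (measurable_fst.comp measurable_snd))

/-- The information outside a large box is geometrically small. -/
theorem tail_le (h : RT G d) (hθ : Subc d θ) {A : Lb V → Set (Slot V)}
    (hA : ∀ z, MeasurableSet {T | z ∈ A T}) {K : ℕ} (hK : ∀ T z, z ∈ A T → z.2 < K) (v : V)
    {n : ℕ} (hn : K ≤ n) {D D' : Finset (Slot V)} (hD : box G v n ⊆ D) (hD' : D ⊆ D') :
    ∫ ω, (mag G θ (Lm (fun T => (D' : Set (Slot V)) ∩ A T) ω) v -
        mag G θ (Lm (fun T => (D : Set (Slot V)) ∩ A T) ω) v) ^ 2 ∂(Pw G θ) ≤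
      (K * (3 / 2) * (1 - ((d : ℝ) - 1) * θ ^ 2)⁻¹) * (((d : ℝ) - 1) * θ ^ 2) ^ n := by
  obtain ⟨q, hq⟩ : ∃ q : ℝ, q = ((d : ℝ) - 1) * θ ^ 2 := ⟨_, rfl⟩
  have hq1 : q < 1 := by rw [hq]; exact hθ.2
  have hq0 : 0 ≤ q := by
    rw [hq]; exact mul_nonneg (by linarith [h.two_le]) (sq_nonneg _)
  rw [← hq]
  refine (incr_le h hθ hA hD' v
    (fun z => if z.2 < K then (θ ^ G.dist v z.1) ^ 2 else 0) ?_).trans ?_
  · intro z _ D'' _ _
    have hb : ∀ ω : Om V, (if z ∈ A ω.1 then
        KK G θ (Lm (fun T => (D'' : Set (Slot V)) ∩ A T) ω) v z.1 ^ 2 else 0) ≤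
        (if z.2 < K then (θ ^ G.dist v z.1) ^ 2 else 0) := by
      intro ω
      by_cases hz : z ∈ A ω.1
      · rw [if_pos hz, if_pos (hK _ _ hz)]
        exact pow_le_pow_left₀ (KK_nonneg h hθ (bd_Lm _ ω) v z.1)
          (KK_le_pow h hθ (bd_Lm _ ω) v z.1) 2
      · rw [if_neg hz]
        split_ifs
        · positivity
        · exact le_rfl
    refine (integral_mono_of_nonneg (Eventually.of_forall (fun ω => ?_)) (integrable_const _)
      (Eventually.of_forall hb)).trans (by simp)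
    change (0 : ℝ) ≤ _
    split_ifs
    · positivity
    · exact le_rfl
  obtain ⟨N, hN⟩ := (eventually_subset_box h v D').exists
  let f : ℕ → ℝ := fun m => if n < m then (θ ^ m) ^ 2 else 0
  have hf : ∀ m, 0 ≤ f m := fun m => by
    simp only [f]
    split_ifs
    · positivity
    · exact le_rfl
  have h1 : ∑ z ∈ D' \ D, (if z.2 < K then (θ ^ G.dist v z.1) ^ 2 else 0) ≤
      ∑ z ∈ ball G v N ×ˢ Finset.range K, f (G.dist v z.1) := by
    rw [← Finset.sum_filter]
    have e : ∑ z ∈ (D' \ D).filter (fun z => z.2 < K), (θ ^ G.dist v z.1) ^ 2 =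
        ∑ z ∈ (D' \ D).filter (fun z => z.2 < K), f (G.dist v z.1) := by
      refine Finset.sum_congr rfl (fun z hz => ?_)
      rw [Finset.mem_filter, Finset.mem_sdiff] at hz
      have : n < G.dist v z.1 := by
        by_contra hh
        exact hz.1.2 (hD ((mem_box h).2 ⟨not_lt.1 hh, hz.2.trans_le hn⟩))
      simp only [f, if_pos this]
    rw [e]
    refine Finset.sum_le_sum_of_subset_of_nonneg (fun z hz => ?_) (fun z _ _ => hf _)
    rw [Finset.mem_filter, Finset.mem_sdiff] at hz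
    rw [Finset.mem_product, Finset.mem_range, mem_ball h]
    exact ⟨((mem_box h).1 (hN hz.1.1)).1, hz.2⟩
  refine h1.trans ?_
  rw [Finset.sum_product]
  simp only [Finset.sum_const, Finset.card_range, nsmul_eq_mul]
  rw [← Finset.mul_sum, mul_assoc, mul_assoc]
  refine mul_le_mul_of_nonneg_left ((sum_ball_radial_le h v N hf).trans ?_) (Nat.cast_nonneg K)
  refine mul_le_mul_of_nonneg_left ?_ (by norm_num)
  have h2 : ∀ m, ((d : ℝ) - 1) ^ m * f m = if n < m then q ^ m else 0 := by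
    intro m
    simp only [f]
    split_ifs
    · rw [hq, mul_pow, ← pow_mul, ← pow_mul, mul_comm m 2]
    · rw [mul_zero]
  simp only [h2]
  rw [← Finset.sum_filter]
  have h3 : ∑ m ∈ (Finset.range (N + 1)).filter (fun m => n < m), q ^ m ≤
      ∑ m ∈ Finset.Ico n (n + (N + 1)), q ^ m := by
    refine Finset.sum_le_sum_of_subset_of_nonneg (fun m hm => ?_) (fun m _ _ => pow_nonneg hq0 m)
    rw [Finset.mem_filter, Finset.mem_range] at hm
    rw [Finset.mem_Ico]
    omega
  refine h3.trans ?_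
  rw [Finset.sum_Ico_eq_sum_range, Nat.add_sub_cancel_left]
  simp only [pow_add]
  rw [← Finset.mul_sum, mul_comm]
  refine mul_le_mul_of_nonneg_right ?_ (pow_nonneg hq0 n)
  rw [← tsum_geometric_of_lt_one hq0 hq1]
  exact (summable_geometric_of_lt_one hq0 hq1).sum_le_tsum _ (fun m _ => pow_nonneg hq0 m)

theorem conv_ae (h : RT G d) (hθ : Subc d θ) {A : Lb V → Set (Slot V)} (hA : Mask A) :
    ∀ᵐ ω ∂(Pw G θ), Conv G θ (Lm A ω) := by
  have := h.countable
  obtain ⟨K, hK⟩ := hA.bdd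
  obtain ⟨q, hq⟩ : ∃ q : ℝ, q = ((d : ℝ) - 1) * θ ^ 2 := ⟨_, rfl⟩
  have hq1 : q < 1 := by rw [hq]; exact hθ.2
  have hq0 : 0 ≤ q := by
    rw [hq]; exact mul_nonneg (by linarith [h.two_le]) (sq_nonneg _)
  -- the basic summability statement
  have key : ∀ (v : V) (D' : ℕ → Finset (Slot V)), (∀ n, box G v (n + K) ⊆ D' n) →
      ∀ᵐ ω ∂(Pw G θ), Summable (fun n => |post G θ (D' n) (Lm A ω) v -
        post G θ (box G v (n + K)) (Lm A ω) v|) := by
    intro v D' hD'
    have h1 := ae_summable_of_sq (P := Pw G θ)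
      (f := fun n ω => mag G θ (Lm (fun T => (D' n : Set (Slot V)) ∩ A T) ω) v -
        mag G θ (Lm (fun T => (box G v (n + K) : Set (Slot V)) ∩ A T) ω) v)
      (fun n => (measurable_magLm (meas_inter hA.meas _) v).sub
        (measurable_magLm (meas_inter hA.meas _) v)) (B := 2)
      (fun n ω => (abs_sub _ _).trans (by
        have a1 := abs_magLm_le (G := G) (θ := θ) (fun T => (D' n : Set (Slot V)) ∩ A T) v ω
        have a2 := abs_magLm_le (G := G) (θ := θ)
          (fun T => (box G v (n + K) : Set (Slot V)) ∩ A T) v ω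
        linarith)) hq0 hq1 (C := (K * (3 / 2) * (1 - q)⁻¹) * q ^ K) (fun n => by
          have := tail_le h hθ hA.meas hK v (Nat.le_add_left K n) (Finset.Subset.refl _) (hD' n)
          rw [← hq] at this
          refine this.trans (le_of_eq ?_)
          rw [pow_add]; ring)
    filter_upwards [h1] with ω hω
    simpa only [← indicator_Lm, mag_indicator h] using hω
  have hbox : ∀ (c v : V) (n : ℕ), box G v (n + K) ⊆ box G c (n + K + G.dist c v) := by
    intro c v n z hz
    rw [mem_box h] at hz ⊢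
    have := h.tree.connected.dist_triangle (u := c) (v := v) (w := z.1)
    constructor <;> omega
  have hsucc : ∀ (v : V) (n : ℕ), box G v (n + K) ⊆ box G v (n + 1 + K) := by
    intro v n z hz
    rw [mem_box h] at hz ⊢
    constructor <;> omega
  have a1 := ae_all_iff.2 (fun v : V => key v (fun n => box G v (n + 1 + K)) (hsucc v))
  have a2 := ae_all_iff.2 (fun c : V => ae_all_iff.2 (fun v : V =>
    key v (fun n => box G c (n + K + G.dist c v)) (hbox c v)))
  filter_upwards [a1, a2] with ω h1 h2 c v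
  have hc : CauchySeq (fun n => post G θ (box G v (n + K)) (Lm A ω) v) := by
    refine cauchySeq_of_summable_dist ?_
    refine (h1 v).congr (fun n => ?_)
    rw [Real.dist_eq, abs_sub_comm]
  obtain ⟨L, hL⟩ := cauchySeq_tendsto_of_complete hc
  have hL' : Tendsto (fun R => post G θ (box G v R) (Lm A ω) v) atTop (𝓝 L) :=
    (tendsto_add_atTop_iff_nat K).1 hL
  have hmag : mag G θ (Lm A ω) v = L := by
    unfold mag
    rw [hL'.limsup_eq, hL'.liminf_eq]
    ring
  rw [hmag]
  have h3 : Tendsto (fun n => post G θ (box G c (n + K + G.dist c v)) (Lm A ω) v -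
      post G θ (box G v (n + K)) (Lm A ω) v) atTop (𝓝 0) :=
    (tendsto_zero_iff_abs_tendsto_zero _).2 (h2 c v).tendsto_atTop_zero
  have h4 := h3.add hL
  simp only [sub_add_cancel, zero_add, add_assoc] at h4
  exact (tendsto_add_atTop_iff_nat (K + G.dist c v)).1 h4

/-- Forget the signals outside the mask. -/
def mk (A : Lb V → Set (Slot V)) (p : Lb V × Lb V) : Lb V × Lb V :=
  (p.1, fun z => if z ∈ A p.1 then p.2 z else 0)

omit [G.LocallyFinite] in
theorem measurable_mk {A : Lb V → Set (Slot V)} (hA : ∀ z, MeasurableSet {T | z ∈ A T}) :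
    Measurable (mk A) := by
  refine measurable_fst.prodMk (measurable_pi_lambda _ (fun z => ?_))
  exact Measurable.ite (measurable_fst (hA z)) ((measurable_pi_apply z).comp measurable_snd)
    measurable_const

/-- Measurable sets that depend on finitely many signals. -/
def Cyl (V : Type u) : Set (Set (Lb V × Lb V)) :=
  {S | MeasurableSet S ∧ ∃ J : Finset (Slot V),
    ∀ T y y', (∀ z ∈ J, y z = y' z) → ((T, y) ∈ S ↔ (T, y') ∈ S)}

theorem isPiSystem_Cyl : IsPiSystem (Cyl V) := by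
  rintro S ⟨hS, J, hJ⟩ S' ⟨hS', J', hJ'⟩ -
  refine ⟨hS.inter hS', J ∪ J', fun T y y' hy => ?_⟩
  rw [Set.mem_inter_iff, Set.mem_inter_iff, hJ T y y' (fun z hz => hy z (by simp [hz])),
    hJ' T y y' (fun z hz => hy z (by simp [hz]))]

theorem generateFrom_Cyl : (inferInstance : MeasurableSpace (Lb V × Lb V)) =
    MeasurableSpace.generateFrom (Cyl V) := by
  refine le_antisymm ?_ (MeasurableSpace.generateFrom_le (fun S hS => hS.1))
  have h1 : Measurable[MeasurableSpace.generateFrom (Cyl V)] (fun p : Lb V × Lb V => p.1) :=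
    fun s hs => MeasurableSpace.measurableSet_generateFrom
      ⟨measurable_fst hs, ∅, fun _ _ _ _ => Iff.rfl⟩
  have h2 : Measurable[MeasurableSpace.generateFrom (Cyl V)] (fun p : Lb V × Lb V => p.2) := by
    refine @measurable_pi_lambda _ _ _ (MeasurableSpace.generateFrom (Cyl V)) _ _ (fun z => ?_)
    intro s hs
    refine MeasurableSpace.measurableSet_generateFrom
      ⟨((measurable_pi_apply z).comp measurable_snd) hs, {z}, fun T y y' hy => ?_⟩
    simp only [Set.mem_preimage]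
    rw [hy z (Finset.mem_singleton_self z)]
  exact fun s hs => (h1.prodMk h2) hs

omit [G.LocallyFinite] in
theorem measurable_maskField {A : Lb V → Set (Slot V)} (hA : ∀ z, MeasurableSet {T | z ∈ A T}) :
    Measurable (fun p : Lb V × (Slot V → ℝ) => (A p.1).indicator p.2) := by
  refine measurable_pi_lambda _ (fun z => ?_)
  simp only [Set.indicator_apply]
  exact Measurable.ite (measurable_fst (hA z)) ((measurable_pi_apply z).comp measurable_snd)
    measurable_const

theorem integrable_mul {Ω : Type*} [MeasurableSpace Ω] {P : Measure Ω} [IsFiniteMeasure P]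
    {a b : Ω → ℝ} (ha : Measurable a) (hb : Measurable b) {A B : ℝ} (hA : ∀ ω, |a ω| ≤ A)
    (hB : ∀ ω, |b ω| ≤ B) : Integrable (fun ω => a ω * b ω) P :=
  R168.integrable_of_abs_le (ha.mul hb) (A * B) (fun ω => by
    rw [abs_mul]
    exact mul_le_mul (hA ω) (hB ω) (abs_nonneg _) ((abs_nonneg _).trans (hA ω)))

end BayesAux

open BayesAux

theorem good_ae (h : RT G d) (hθ : Subc d θ) {A : Lb V → Set (Slot V)} (hA : Mask A) :
    ∀ᵐ ω ∂(Pw G θ), Good G θ (Lm A ω) := by
  have := h.countable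
  have a2 := ae_all_iff.2 (fun u : V => ae_all_iff.2 (fun p : V =>
    conv_ae h hθ (hA.inter (vm (half G u p)))))
  filter_upwards [conv_ae h hθ hA, a2] with ω h1 h2
  refine ⟨h1, fun u p _ => ?_⟩
  rw [indicator_Lm]
  exact h2 u p

theorem good_Lms_ae (h : RT G d) (hθ : Subc d θ) (A : Set (Slot V)) (s : ℝ) :
    ∀ᵐ ω ∂(Pw G θ), Good G θ (Lms A s ω) := by
  simp only [Lms_eq_Lm]
  exact good_ae h hθ ((mask_tm s).inter A)

/-- Bayes' formula. -/
theorem bayes (h : RT G d) (hθ : Subc d θ) {A : Lb V → Set (Slot V)} (hA : Mask A) (v : V)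
    {g : Lb V × Lb V → ℝ} (hg : Measurable g) {C : ℝ} (hC : ∀ p, |g p| ≤ C) (hl : DataLoc A g) :
    ∫ ω, spin (ω.2.1 v) * g (ω.1, Yw ω) ∂(Pw G θ) =
      ∫ ω, mag G θ (Lm A ω) v * g (ω.1, Yw ω) ∂(Pw G θ) := by
  have hΦ : Measurable (fun ω : Om V => mk A (ω.1, Yw ω)) :=
    (measurable_mk hA.meas).comp (measurable_fst.prodMk measurable_Yw)
  have e : ∀ ω : Om V, g (ω.1, Yw ω) = g (mk A (ω.1, Yw ω)) := fun ω =>
    hl _ _ _ (fun z hz => by simp only [if_pos hz])
  simp only [e]
  refine integral_mul_eq_of_piSystem (Pw G θ) hΦ (measurable_spinv v)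
    (measurable_magLm hA.meas v) (fun ω => (abs_spin _).le) (abs_magLm_le A v) (Cyl V)
    generateFrom_Cyl isPiSystem_Cyl ⟨MeasurableSet.univ, ∅, fun _ _ _ _ => Iff.rfl⟩ ?_ hg hC
  rintro S ⟨hS, J, hJ⟩
  have hb : ∀ p, |S.indicator (fun _ => (1 : ℝ)) p| ≤ 1 := fun p => by
    by_cases hp : p ∈ S <;> simp [hp]
  have hm : Measurable (fun p => S.indicator (fun _ => (1 : ℝ)) (mk A p)) :=
    (measurable_const.indicator hS).comp (measurable_mk hA.meas)
  have h1 : ∀ᶠ R in atTop,
      ∫ ω, spin (ω.2.1 v) * S.indicator (fun _ => (1 : ℝ)) (mk A (ω.1, Yw ω)) ∂(Pw G θ) =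
      ∫ ω, mag G θ (Lm (fun T => (box G v R : Set (Slot V)) ∩ A T) ω) v *
        S.indicator (fun _ => (1 : ℝ)) (mk A (ω.1, Yw ω)) ∂(Pw G θ) := by
    filter_upwards [eventually_subset_box h v J] with R hR
    refine bayes_fin h hθ (meas_inter hA.meas _) (D := box G v R)
      (fun T => Set.inter_subset_left) v
      (g := fun p => S.indicator (fun _ => (1 : ℝ)) (mk A p)) hm (fun p => hb _) ?_
    intro T y y' hy
    have : mk A (T, y) ∈ S ↔ mk A (T, y') ∈ S := by
      refine hJ T _ _ (fun z hz => ?_)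
      by_cases hzA : z ∈ A T
      · simp only [if_pos hzA]
        exact hy z ⟨hR hz, hzA⟩
      · simp only [if_neg hzA]
    simp only [Set.indicator_apply, this]
  have h2 : Tendsto (fun R => ∫ ω, mag G θ (Lm (fun T => (box G v R : Set (Slot V)) ∩ A T) ω) v *
        S.indicator (fun _ => (1 : ℝ)) (mk A (ω.1, Yw ω)) ∂(Pw G θ)) atTop
      (𝓝 (∫ ω, mag G θ (Lm A ω) v *
        S.indicator (fun _ => (1 : ℝ)) (mk A (ω.1, Yw ω)) ∂(Pw G θ))) := by
    refine tendsto_integral_of_dominated_convergence (fun _ => (1 : ℝ)) (fun R => ?_)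
      (integrable_const _) (fun R => Eventually.of_forall (fun ω => ?_)) ?_
    · exact ((measurable_magLm (meas_inter hA.meas _) v).mul
        ((measurable_const.indicator hS).comp hΦ)).aestronglyMeasurable
    · rw [Real.norm_eq_abs, abs_mul]
      exact mul_le_one₀ (abs_magLm_le _ v ω) (abs_nonneg _) (hb _)
    · filter_upwards [good_ae h hθ hA] with ω hω
      simp only [← indicator_Lm]
      exact (hω.tendsto_mag h v v).mul_const _
  exact tendsto_nhds_unique (tendsto_const_nhds.congr' h1) h2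

/-- Bayes' formula for functions of the masked field. -/
theorem bayes_L (h : RT G d) (hθ : Subc d θ) {A : Lb V → Set (Slot V)} (hA : Mask A) (v : V)
    {g : Lb V × (Slot V → ℝ) → ℝ} (hg : Measurable g) {C : ℝ}
    (hC : ∀ T ℓ, Bd ℓ → |g (T, ℓ)| ≤ C) :
    ∫ ω, spin (ω.2.1 v) * g (ω.1, Lm A ω) ∂(Pw G θ) =
      ∫ ω, mag G θ (Lm A ω) v * g (ω.1, Lm A ω) ∂(Pw G θ) := by
  exact bayes h hθ hA v (g := fun p => g (p.1, (A p.1).indicator (Ly p.1 p.2)))
    (hg.comp (measurable_fst.prodMk ((measurable_maskField hA.meas).comp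
      (measurable_fst.prodMk measurable_Ly)))) (C := C)
    (fun p => hC _ _ ((bd_Ly _ _).indicator _)) (fun T y y' hy => by
      have : (A T).indicator (Ly T y) = (A T).indicator (Ly T y') :=
        Set.indicator_congr (fun z hz => by simp only [Ly, hy z hz])
      simp only [this])

/-- Orthogonality of the increment between nested masks. -/
theorem incr_orth (h : RT G d) (hθ : Subc d θ) {A A' : Lb V → Set (Slot V)} (hA : Mask A)
    (hA' : Mask A') (hAA : ∀ T, A T ⊆ A' T) (v : V)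
    {g : Lb V × (Slot V → ℝ) → ℝ} (hg : Measurable g) {C : ℝ}
    (hC : ∀ T ℓ, Bd ℓ → |g (T, ℓ)| ≤ C) :
    ∫ ω, (mag G θ (Lm A' ω) v - mag G θ (Lm A ω) v) * g (ω.1, Lm A ω) ∂(Pw G θ) = 0 := by
  have e1 := bayes_L h hθ hA v hg hC
  have e2 := bayes_L h hθ hA' v (g := fun p => g (p.1, (A p.1).indicator p.2))
    (hg.comp (measurable_fst.prodMk (measurable_maskField hA.meas))) (C := C)
    (fun T ℓ hℓ => hC _ _ (hℓ.indicator _))
  have e3 : ∀ ω : Om V, (A ω.1).indicator (Lm A' ω) = Lm A ω := fun ω => by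
    unfold Lm
    rw [Set.indicator_indicator, Set.inter_eq_left.2 (hAA _)]
  simp only [e3] at e2
  have hm : Measurable (fun ω : Om V => g (ω.1, Lm A ω)) :=
    hg.comp (measurable_fst.prodMk (measurable_Lm hA.meas))
  have hb : ∀ ω : Om V, |g (ω.1, Lm A ω)| ≤ C := fun ω => hC _ _ (bd_Lm A ω)
  simp only [sub_mul]
  rw [integral_sub (integrable_mul (measurable_magLm hA'.meas v) hm (abs_magLm_le A' v) hb)
    (integrable_mul (measurable_magLm hA.meas v) hm (abs_magLm_le A v) hb), ← e1, ← e2, sub_self]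

theorem pyth (h : RT G d) (hθ : Subc d θ) {A A' : Lb V → Set (Slot V)} (hA : Mask A)
    (hA' : Mask A') (hAA : ∀ T, A T ⊆ A' T) (v : V) :
    ∫ ω, (mag G θ (Lm A' ω) v - mag G θ (Lm A ω) v) ^ 2 ∂(Pw G θ) =
      ∫ ω, mag G θ (Lm A' ω) v ^ 2 ∂(Pw G θ) - ∫ ω, mag G θ (Lm A ω) v ^ 2 ∂(Pw G θ) := by
  have e1 := incr_orth h hθ hA hA' hAA v (g := fun p => mag G θ p.2 v)
    ((measurable_mag v).comp measurable_snd) (C := 1) (fun T ℓ hℓ => abs_mag_le hℓ v)
  have m1 := measurable_magLm (G := G) (θ := θ) hA.meas v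
  have m2 := measurable_magLm (G := G) (θ := θ) hA'.meas v
  have b1 := abs_magLm_le (G := G) (θ := θ) A v
  have b2 := abs_magLm_le (G := G) (θ := θ) A' v
  have i11 := integrable_mul (P := Pw G θ) m1 m1 b1 b1
  have i22 := integrable_mul (P := Pw G θ) m2 m2 b2 b2
  have i21 := integrable_mul (P := Pw G θ) m2 m1 b2 b1
  simp only [sub_mul] at e1
  rw [integral_sub i21 i11] at e1
  have e2 : (fun ω => (mag G θ (Lm A' ω) v - mag G θ (Lm A ω) v) ^ 2) = fun ω =>
      (mag G θ (Lm A' ω) v * mag G θ (Lm A' ω) v -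
        2 * (mag G θ (Lm A' ω) v * mag G θ (Lm A ω) v)) +
        mag G θ (Lm A ω) v * mag G θ (Lm A ω) v := by
    funext ω; ring
  have i4 : Integrable (fun ω => mag G θ (Lm A' ω) v * mag G θ (Lm A' ω) v -
      2 * (mag G θ (Lm A' ω) v * mag G θ (Lm A ω) v)) (Pw G θ) := i22.sub (i21.const_mul 2)
  rw [e2, integral_add i4 i11, integral_sub i22 (i21.const_mul 2), integral_const_mul]
  simp only [sq]
  linarith

theorem integral_spin_sub_sq (h : RT G d) (hθ : Subc d θ) {A : Lb V → Set (Slot V)}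
    (hA : Mask A) (v : V) :
    ∫ ω, (spin (ω.2.1 v) - mag G θ (Lm A ω) v) ^ 2 ∂(Pw G θ) =
      1 - ∫ ω, mag G θ (Lm A ω) v ^ 2 ∂(Pw G θ) := by
  have e1 := bayes_L h hθ hA v (g := fun p => mag G θ p.2 v)
    ((measurable_mag v).comp measurable_snd) (C := 1) (fun T ℓ hℓ => abs_mag_le hℓ v)
  have m1 := measurable_magLm (G := G) (θ := θ) hA.meas v
  have b1 := abs_magLm_le (G := G) (θ := θ) A v
  have i11 := integrable_mul (P := Pw G θ) m1 m1 b1 b1
  have i21 := integrable_mul (P := Pw G θ) (measurable_spinv v) m1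
    (fun ω => (abs_spin (ω.2.1 v)).le) b1
  have e2 : (fun ω : Om V => (spin (ω.2.1 v) - mag G θ (Lm A ω) v) ^ 2) = fun ω =>
      (1 - 2 * (spin (ω.2.1 v) * mag G θ (Lm A ω) v)) +
        mag G θ (Lm A ω) v * mag G θ (Lm A ω) v := by
    funext ω
    have := spin_sq (ω.2.1 v)
    nlinarith
  have i4 : Integrable (fun ω : Om V => 1 - 2 * (spin (ω.2.1 v) * mag G θ (Lm A ω) v)) (Pw G θ) :=
    (integrable_const _).sub (i21.const_mul 2)
  rw [e2, integral_add i4 i11,
    integral_sub (integrable_const _) (i21.const_mul 2), integral_const_mul]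
  simp only [sq, integral_const, probReal_univ, smul_eq_mul, mul_one]
  simp only at e1
  linarith

/-- Any estimator built from the masked field bounds the information from below. -/
theorem sq_le_mag_sq_mul (h : RT G d) (hθ : Subc d θ) {A : Lb V → Set (Slot V)} (hA : Mask A)
    (v : V) {g : (Slot V → ℝ) → ℝ} (hg : Measurable g) {C : ℝ} (hC : ∀ ℓ, Bd ℓ → |g ℓ| ≤ C) :
    (∫ ω, spin (ω.2.1 v) * g (Lm A ω) ∂(Pw G θ)) ^ 2 ≤
      (∫ ω, mag G θ (Lm A ω) v ^ 2 ∂(Pw G θ)) * ∫ ω, g (Lm A ω) ^ 2 ∂(Pw G θ) := by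
  have e1 := bayes_L h hθ hA v (g := fun p => g p.2) (hg.comp measurable_snd) (C := C)
    (fun T ℓ hℓ => hC ℓ hℓ)
  simp only at e1
  rw [e1]
  exact sq_integral_mul_le (measurable_magLm hA.meas v) (hg.comp (measurable_Lm hA.meas))
    (abs_magLm_le A v) (fun ω => hC _ (bd_Lm A ω))

/-- Mean square convergence of the boxes. -/
theorem tendsto_box_sq (h : RT G d) (hθ : Subc d θ) {A : Lb V → Set (Slot V)} (hA : Mask A)
    (c v : V) :
    Tendsto (fun R => ∫ ω, (mag G θ (Lm A ω) v -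
      mag G θ (Lm (fun T => (box G c R : Set (Slot V)) ∩ A T) ω) v) ^ 2 ∂(Pw G θ)) atTop (𝓝 0) := by
  have h0 : (0 : ℝ) = ∫ _ω, (0 : ℝ) ∂(Pw G θ) := by simp
  rw [h0]
  refine tendsto_integral_of_dominated_convergence (fun _ => (4 : ℝ)) (fun R => ?_)
    (integrable_const _) (fun R => Eventually.of_forall (fun ω => ?_)) ?_
  · exact (((measurable_magLm hA.meas v).sub
      (measurable_magLm (meas_inter hA.meas _) v)).pow_const 2).aestronglyMeasurable
  · have a1 := abs_le.1 (abs_magLm_le (G := G) (θ := θ) A v ω)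
    have a2 := abs_le.1 (abs_magLm_le (G := G) (θ := θ)
      (fun T => (box G c R : Set (Slot V)) ∩ A T) v ω)
    rw [Real.norm_eq_abs, abs_of_nonneg (sq_nonneg _)]
    nlinarith
  · filter_upwards [good_ae h hθ hA] with ω hω
    simp only [← indicator_Lm]
    have := ((hω.tendsto_mag h c v).const_sub (mag G θ (Lm A ω) v)).pow 2
    simpa using this

end Crest.Agent.R160

end
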