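import Crest.Agent.R160.Equiv

/-!
Bayes' formula in finite volume and the size of increments.
-/

set_option autoImplicit false

open MeasureTheory unitInterval Filter Topology
open Crest.ProbabilityR Crest.ProbabilityR.Labels Crest.ProbabilityR.TreeIsing
open scoped Classical

noncomputable section

namespace Crest.Agent.R160

universe u

variable {V : Type u} {G : SimpleGraph V} [G.LocallyFinite] {d : ℕ}

variable {θ : ℝ}

namespace BayesFinAux

/-- The map that transforms the coordinates in `J`. -/
def mapJ {X : Type*} (f : X → I → I) (J : Finset X) (W : X → I) : X → I :=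
  fun z => if z ∈ J then f z (W z) else W z

theorem abs_prod_le {X : Type*} (J : Finset X) (r : X → ℝ) (hr : ∀ z, |r z| ≤ 2) :
    |∏ z ∈ J, r z| ≤ 2 ^ J.card := by
  rw [Finset.abs_prod]
  exact (Finset.prod_le_prod (fun _ _ => abs_nonneg _) fun z _ => hr z).trans (by simp)

theorem integral_mapJ {X : Type*} (f : X → I → I) (ρ : X → I → ℝ) (hf : ∀ z, Measurable (f z))
    (hρ : ∀ z, Measurable (ρ z)) (hb : ∀ z y, |ρ z y| ≤ 2)
    (hfρ : ∀ z (g : I → ℝ), ∫ u, g (f z u) = ∫ y, g y * ρ z y) (J : Finset X)
    {φ : (X → I) → ℝ} (hφ : Measurable φ) {C : ℝ} (hC : ∀ y, |φ y| ≤ C) :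
    ∫ W, φ (mapJ f J W) ∂(labelMeasure X) =
      ∫ y, φ y * ∏ z ∈ J, ρ z (y z) ∂(labelMeasure X) := by
  induction J using Finset.induction_on generalizing φ with
  | empty => simp only [Finset.prod_empty, mul_one]; rfl
  | insert a J ha ih =>
    have hC0 : 0 ≤ C := (abs_nonneg _).trans (hC fun _ => 0)
    have hm : Measurable fun y : X → I => φ (Function.update y a (f a (y a))) :=
      have := hf a
      hφ.comp (by fun_prop)
    have hP : ∀ J : Finset X, Measurable fun y : X → I => ∏ z ∈ J, ρ z (y z) := fun J =>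
      Finset.measurable_prod _ fun z _ => (hρ z).comp (measurable_pi_apply z)
    have h1 : ∀ W, mapJ f (insert a J) W =
        Function.update (mapJ f J W) a (f a (mapJ f J W a)) := by
      intro W
      ext z
      by_cases hz : z = a
      · subst hz; simp [mapJ, ha]
      · simp [mapJ, hz]
    have h2 : ∀ (s : X → I) (y : I), ∏ z ∈ J, ρ z (Function.update s a y z) =
        ∏ z ∈ J, ρ z (s z) := fun s y =>
      Finset.prod_congr rfl fun z hz => by
        rw [Function.update_of_ne (by rintro rfl; exact ha hz)]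
    simp only [h1]
    rw [ih hm fun y => hC _,
      R168.integral_eq_integral_update a (hm.fun_mul (hP J)) (C * 2 ^ J.card) (fun y => by
        rw [abs_mul]
        exact mul_le_mul (hC _) (abs_prod_le J _ fun z => hb z _) (abs_nonneg _) hC0),
      R168.integral_eq_integral_update a (hφ.fun_mul (hP (insert a J))) (C * 2 ^ (insert a J).card)
        (fun y => by
          rw [abs_mul]
          exact mul_le_mul (hC _) (abs_prod_le _ _ fun z => hb z _) (abs_nonneg _) hC0)]
    refine integral_congr_ae (Eventually.of_forall fun s => ?_)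
    simp only [Function.update_idem, Function.update_self, Finset.prod_insert ha, h2]
    rw [hfρ a fun y => φ (Function.update s a y) * ∏ z ∈ J, ρ z (s z)]
    refine integral_congr_ae (Eventually.of_forall fun y => ?_)
    ring

omit [G.LocallyFinite] in
theorem abs_wt_le {ℓ : Slot V → ℝ} (hℓ : Bd ℓ) (J : Finset (Slot V)) (η : V → Bool) :
    |wt J ℓ η| ≤ 2 ^ J.card := by
  refine abs_prod_le J _ fun z => (abs_add_le _ _).trans ?_
  rw [abs_mul, abs_spin]
  have := hℓ z
  simp only [abs_one]
  linarith

omit [G.LocallyFinite] in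
theorem measurable_wt (J : Finset (Slot V)) (T : Lb V) :
    Measurable fun p : (V → Bool) × Lb V => wt J (Ly T p.2) p.1 := by
  refine Finset.measurable_prod _ fun z _ => measurable_const.add (Measurable.mul ?_ ?_)
  · exact measurable_spin.comp ((measurable_pi_apply z.1).comp measurable_fst)
  · exact (measurable_pi_apply z).comp (measurable_Ly.comp (measurable_const.prodMk measurable_snd))

omit [G.LocallyFinite] in
theorem integral_wt_pos {ℓ : Slot V → ℝ} (hℓ : Bd ℓ) (J : Finset (Slot V)) :
    0 < ∫ η, wt J ℓ η ∂(ising G θ) := by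
  have hm : Measurable fun η : V → Bool => wt J ℓ η :=
    Finset.measurable_prod _ fun z _ => measurable_const.add
      ((measurable_spin.comp (measurable_pi_apply z.1)).mul measurable_const)
  rw [integral_pos_iff_support_of_nonneg (fun η => (wt_pos hℓ J η).le)
    (R168.integrable_of_abs_le hm _ (abs_wt_le hℓ J))]
  have : Function.support (fun η => wt J ℓ η) = Set.univ :=
    Set.eq_univ_of_forall fun η => (wt_pos hℓ J η).ne'
  simp [this]

omit [G.LocallyFinite] in
theorem integral_Yw (T : Lb V) (η : V → Bool) (J : Finset (Slot V)) {φ : Lb V → ℝ}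
    (hφ : Measurable φ) {C : ℝ} (hC : ∀ y, |φ y| ≤ C)
    (hl : ∀ y y', (∀ z ∈ J, y z = y' z) → φ y = φ y') :
    ∫ W, φ (Yw (T, (η, W))) ∂(nu V) = ∫ y, φ y * wt J (Ly T y) η ∂(nu V) := by
  have he : ∀ z, |epsf (tim T z)| ≤ 1 / 2 := fun z => by
    rw [abs_of_nonneg (epsf_nonneg _)]; exact epsf_le _
  have := integral_mapJ
    (fun z u => if η z.1 = true then qt (epsf (tim T z)) u else symm (qt (epsf (tim T z)) u))
    (fun z y => 1 + spin (η z.1) * lk (epsf (tim T z)) y) (fun z => ?_) (fun z => ?_)
    (fun z y => ?_) (fun z g => ?_) J hφ hC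
  · refine Eq.trans (integral_congr_ae (Eventually.of_forall fun W => hl _ _ fun z hz => ?_)) this
    simp [Yw, mapJ, hz]
  · have hq : Measurable (qt (epsf (tim T z))) :=
      measurable_qt.comp (measurable_const.prodMk measurable_id)
    split_ifs
    · exact hq
    · exact continuous_symm.measurable.comp hq
  · exact measurable_const.add (measurable_const.mul
      (measurable_lk.comp (measurable_const.prodMk measurable_id)))
  · refine (abs_add_le _ _).trans ?_
    rw [abs_mul, abs_spin]
    have h1 := abs_lk_le (epsf_nonneg (tim T z)) y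
    have h2 := epsf_le (tim T z)
    simp only [abs_one]
    linarith
  · by_cases hz : η z.1 = true
    · simp only [hz, if_true, integral_qt (he z), spin, lk, one_mul]
    · simp only [hz, integral_symm_qt (he z), spin, lk, Bool.false_eq_true, if_false, neg_mul,
        one_mul, sub_eq_add_neg]

omit [G.LocallyFinite] in
theorem integral_fibre (T : Lb V) (J : Finset (Slot V)) {a : (V → Bool) → ℝ} (ha : Measurable a)
    (ha1 : ∀ η, |a η| ≤ 1) {φ : Lb V → ℝ} (hφ : Measurable φ) {C : ℝ} (hC : ∀ y, |φ y| ≤ C)
    (hl : ∀ y y', (∀ z ∈ J, y z = y' z) → φ y = φ y') :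
    ∫ p, a p.1 * φ (Yw (T, p)) ∂((ising G θ).prod (nu V)) =
      ∫ y, φ y * ∫ η, a η * wt J (Ly T y) η ∂(ising G θ) ∂(nu V) := by
  have hC0 : 0 ≤ C := (abs_nonneg _).trans (hC fun _ => 0)
  have h1 : Integrable (fun p : (V → Bool) × Lb V => a p.1 * φ (Yw (T, p)))
      ((ising G θ).prod (nu V)) :=
    R168.integrable_of_abs_le ((ha.comp measurable_fst).mul
      (hφ.comp (measurable_Yw.comp (measurable_const.prodMk measurable_id)))) (1 * C) fun p => by
      rw [abs_mul]; exact mul_le_mul (ha1 _) (hC _) (abs_nonneg _) zero_le_one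
  have h2 : Integrable (fun p : (V → Bool) × Lb V => φ p.2 * (a p.1 * wt J (Ly T p.2) p.1))
      ((ising G θ).prod (nu V)) :=
    R168.integrable_of_abs_le ((hφ.comp measurable_snd).mul
      ((ha.comp measurable_fst).mul (measurable_wt J T))) (C * (1 * 2 ^ J.card)) fun p => by
      rw [abs_mul, abs_mul]
      exact mul_le_mul (hC _) (mul_le_mul (ha1 _) (abs_wt_le (bd_Ly _ _) J _) (abs_nonneg _)
        zero_le_one) (by positivity) hC0
  rw [integral_prod _ h1]
  simp only [← integral_const_mul]
  rw [← integral_prod_symm _ h2, integral_prod _ h2]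
  refine integral_congr_ae (Eventually.of_forall fun η => ?_)
  simp only
  rw [integral_const_mul, integral_Yw T η J hφ hC hl, ← integral_const_mul]
  refine integral_congr_ae (Eventually.of_forall fun y => ?_)
  ring

end BayesFinAux

open BayesFinAux

/-- Bayes' formula when the mask stays inside a finite set. -/
theorem bayes_fin (h : RT G d) (hθ : Subc d θ) {A : Lb V → Set (Slot V)}
    (hA : ∀ z, MeasurableSet {T | z ∈ A T}) {D : Finset (Slot V)} (hD : ∀ T, A T ⊆ D) (v : V)
    {g : Lb V × Lb V → ℝ} (hg : Measurable g) {C : ℝ} (hC : ∀ p, |g p| ≤ C) (hl : DataLoc A g) :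
    ∫ ω, spin (ω.2.1 v) * g (ω.1, Yw ω) ∂(Pw G θ) =
      ∫ ω, mag G θ (Lm A ω) v * g (ω.1, Yw ω) ∂(Pw G θ) := by
  have hC0 : 0 ≤ C := (abs_nonneg _).trans (hC (fun _ => 0, fun _ => 0))
  have hgm : Measurable fun ω : Om V => g (ω.1, Yw ω) :=
    hg.comp (measurable_fst.prodMk measurable_Yw)
  have h1 : Integrable (fun ω : Om V => spin (ω.2.1 v) * g (ω.1, Yw ω)) (Pw G θ) :=
    R168.integrable_of_abs_le ((measurable_spin.comp ((measurable_pi_apply v).comp
      (measurable_fst.comp measurable_snd))).mul hgm) (1 * C) fun ω => by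
      rw [abs_mul, abs_spin]; exact mul_le_mul_of_nonneg_left (hC _) zero_le_one
  have h2 : Integrable (fun ω : Om V => mag G θ (Lm A ω) v * g (ω.1, Yw ω)) (Pw G θ) :=
    R168.integrable_of_abs_le (((measurable_mag v).comp (measurable_Lm hA)).mul hgm) (1 * C)
      fun ω => by
        rw [abs_mul]; exact mul_le_mul (abs_mag_le (bd_Lm _ _) v) (hC _) (abs_nonneg _) zero_le_one
  rw [integral_prod _ h1, integral_prod _ h2]
  refine integral_congr_ae (Eventually.of_forall fun T => ?_)
  set J : Finset (Slot V) := D.filter (· ∈ A T) with hJ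
  have hJA : (J : Set (Slot V)) = A T := by
    ext z
    simp only [hJ, Finset.coe_filter, Set.mem_ofPred_eq, and_iff_right_iff_imp]
    exact fun hz => hD T hz
  have hgT : Measurable fun y : Lb V => g (T, y) := hg.comp (measurable_const.prodMk measurable_id)
  have hloc : ∀ y y' : Lb V, (∀ z ∈ J, y z = y' z) → g (T, y) = g (T, y') := fun y y' hy =>
    hl T y y' fun z hz => hy z (by rw [← hJA] at hz; exact hz)
  have hmag : ∀ p : (V → Bool) × Lb V,
      mag G θ (Lm A (T, p)) v = post G θ J (Ly T (Yw (T, p))) v := fun p => by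
    rw [← mag_indicator h, hJA]; rfl
  have e1 := integral_fibre (G := G) (θ := θ) T J (a := fun η => spin (η v))
    (measurable_spin.comp (measurable_pi_apply v)) (fun η => (abs_spin _).le) hgT
    (fun y => hC _) hloc
  have e2 := integral_fibre (G := G) (θ := θ) T J (a := fun _ => 1) measurable_const
    (fun _ => by simp) (φ := fun y => post G θ J (Ly T y) v * g (T, y))
    (((measurable_post J v).comp
      (measurable_Ly.comp (measurable_const.prodMk measurable_id))).mul hgT) (C := 1 * C)
    (fun y => by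
      rw [abs_mul]
      exact mul_le_mul (abs_post_le (bd_Ly _ _) J v) (hC _) (abs_nonneg _) zero_le_one)
    (fun y y' hy => by
      rw [hloc y y' hy, post_congr (ℓ' := Ly T y') fun z hz => by simp [Ly, hy z hz]])
  simp only [one_mul] at e2
  simp only [hmag]
  rw [e1, e2]
  refine integral_congr_ae (Eventually.of_forall fun y => ?_)
  have hpos := integral_wt_pos (G := G) (θ := θ) (bd_Ly T y) J
  simp only [post]
  field_simp

/-- Adding finitely many slots one at a time. -/
theorem incr_le (h : RT G d) (hθ : Subc d θ) {A : Lb V → Set (Slot V)}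
    (hA : ∀ z, MeasurableSet {T | z ∈ A T}) {D D' : Finset (Slot V)} (hD : D ⊆ D') (v : V)
    (β : Slot V → ℝ)
    (hβ : ∀ z ∈ D' \ D, ∀ D'' : Finset (Slot V), D ⊆ D'' → D'' ⊆ D' →
      ∫ ω, (if z ∈ A ω.1 then KK G θ (Lm (fun T => (D'' : Set (Slot V)) ∩ A T) ω) v z.1 ^ 2
        else 0) ∂(Pw G θ) ≤ β z) :
    ∫ ω, (mag G θ (Lm (fun T => (D' : Set (Slot V)) ∩ A T) ω) v -
        mag G θ (Lm (fun T => (D : Set (Slot V)) ∩ A T) ω) v) ^ 2 ∂(Pw G θ) ≤
      ∑ z ∈ D' \ D, β z := by
  set M : Finset (Slot V) → Om V → ℝ :=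
    fun E ω => mag G θ (Lm (fun T => (E : Set (Slot V)) ∩ A T) ω) v with hM
  have hAm : ∀ (E : Finset (Slot V)) z, MeasurableSet {T | z ∈ (E : Set (Slot V)) ∩ A T} := by
    intro E z
    by_cases hz : z ∈ E
    · simpa [hz] using hA z
    · simp [hz]
  have hMm : ∀ E, Measurable (M E) := fun E => (measurable_mag v).comp (measurable_Lm (hAm E))
  have hM1 : ∀ E ω, |M E ω| ≤ 1 := fun E ω => abs_mag_le (bd_Lm _ _) v
  have hM2 : ∀ E E' ω, |M E ω - M E' ω| ≤ 2 := fun E E' ω =>
    (abs_sub _ _).trans (by linarith [hM1 E ω, hM1 E' ω])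
  have hint : ∀ E₁ E₂ E₃ E₄, Integrable (fun ω => (M E₁ ω - M E₂ ω) * (M E₃ ω - M E₄ ω)) (Pw G θ) :=
    fun E₁ E₂ E₃ E₄ => R168.integrable_of_abs_le
      (((hMm _).sub (hMm _)).mul ((hMm _).sub (hMm _))) (2 * 2) fun ω => by
        rw [abs_mul]; exact mul_le_mul (hM2 _ _ _) (hM2 _ _ _) (abs_nonneg _) (by norm_num)
  have hint' : ∀ E₁ E₃ E₄, Integrable (fun ω => M E₁ ω * (M E₃ ω - M E₄ ω)) (Pw G θ) :=
    fun E₁ E₃ E₄ => R168.integrable_of_abs_le
      ((hMm _).mul ((hMm _).sub (hMm _))) (1 * 2) fun ω => by
        rw [abs_mul]; exact mul_le_mul (hM1 _ _) (hM2 _ _ _) (abs_nonneg _) (by norm_num)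
  -- the posterior mean as a function of the data
  set m : Finset (Slot V) → Lb V × Lb V → ℝ :=
    fun E p => mag G θ (((E : Set (Slot V)) ∩ A p.1).indicator (Ly p.1 p.2)) v with hm
  have hmm : ∀ E, Measurable (m E) := by
    intro E
    refine (measurable_mag v).comp (measurable_pi_lambda _ fun z => ?_)
    exact Measurable.ite (measurable_fst (hAm E z)) ((measurable_pi_apply z).comp measurable_Ly)
      measurable_const
  have hm1 : ∀ E p, |m E p| ≤ 1 := fun E p => abs_mag_le ((bd_Ly _ _).indicator _) v
  have hml : ∀ E E' : Finset (Slot V), E ⊆ E' →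
      DataLoc (fun T => (E' : Set (Slot V)) ∩ A T) (m E) := by
    intro E E' hE T y y' hy
    simp only [hm]
    congr 1
    refine Set.indicator_congr fun z hz => ?_
    simp [Ly, hy z ⟨hE hz.1, hz.2⟩]
  have horth : ∀ E E' : Finset (Slot V), D ⊆ E → E ⊆ E' →
      ∫ ω, M E' ω * (M E ω - M D ω) ∂(Pw G θ) =
        ∫ ω, spin (ω.2.1 v) * (M E ω - M D ω) ∂(Pw G θ) := by
    intro E E' hE hE'
    exact (bayes_fin h hθ (hAm E') (D := E') (fun T => Set.inter_subset_left) v
      (g := fun p => m E p - m D p) ((hmm E).sub (hmm D)) (C := 2)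
      (fun p => (abs_sub _ _).trans (by linarith [hm1 E p, hm1 D p]))
      (fun T y y' hy => by
        simp only
        rw [hml E E' hE' T y y' hy, hml D E' (hE.trans hE') T y y' hy])).symm
  have hjump : ∀ (E : Finset (Slot V)) z, z ∉ E → ∀ ω, (M (insert z E) ω - M E ω) ^ 2 ≤
      if z ∈ A ω.1 then KK G θ (Lm (fun T => (E : Set (Slot V)) ∩ A T) ω) v z.1 ^ 2 else 0 := by
    intro E z hz ω
    split_ifs with hzA
    · have h1 : Lm (fun T => ((insert z E : Finset (Slot V)) : Set (Slot V)) ∩ A T) ω =
          Function.update (Lm (fun T => (E : Set (Slot V)) ∩ A T) ω) z (Lw ω z) := by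
        ext x
        by_cases hx : x = z
        · subst hx; simp [Lm, hzA]
        · simp [Lm, hx, Set.indicator]
      have hb := bd_Lm (fun T => (E : Set (Slot V)) ∩ A T) ω
      have ha := bd_Lw ω z
      simp only [hM]
      rw [h1, mag_update h hθ (J := E) hb (fun x hx => by simp [Lm, hx]) (by simp [Lm, hz]) ha,
        add_sub_cancel_left, mul_pow]
      refine mul_le_of_le_one_right (sq_nonneg _) ?_
      have h2 := abs_mag_le (G := G) (θ := θ) hb z.1
      set t := mag G θ (Lm (fun T => (E : Set (Slot V)) ∩ A T) ω) z.1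
      have h3 : |Lw ω z * t| ≤ 1 / 2 * 1 := by
        rw [abs_mul]; exact mul_le_mul ha h2 (abs_nonneg _) (by norm_num)
      have h4 : 1 / 2 ≤ 1 + Lw ω z * t := by linarith [(abs_le.1 h3).1]
      rw [sq_le_one_iff_abs_le_one, abs_div, div_le_one (abs_pos.2 (by linarith))]
      exact ha.trans (h4.trans (le_abs_self _))
    · have h1 : Lm (fun T => ((insert z E : Finset (Slot V)) : Set (Slot V)) ∩ A T) ω =
          Lm (fun T => (E : Set (Slot V)) ∩ A T) ω := by
        ext x
        by_cases hx : x = z
        · subst hx; simp [Lm, hzA]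
        · simp [Lm, hx, Set.indicator]
      simp only [hM, h1, sub_self]
      norm_num
  have key : ∀ S : Finset (Slot V), S ⊆ D' \ D →
      ∫ ω, (M (D ∪ S) ω - M D ω) ^ 2 ∂(Pw G θ) ≤ ∑ z ∈ S, β z := by
    intro S
    induction S using Finset.induction_on with
    | empty => simp
    | insert z S hz ih =>
      intro hS
      have hzD := hS (Finset.mem_insert_self _ _)
      have hS' : S ⊆ D' \ D := (Finset.subset_insert _ _).trans hS
      have hzE : z ∉ D ∪ S := by
        simp only [Finset.mem_union, not_or]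
        exact ⟨(Finset.mem_sdiff.1 hzD).2, hz⟩
      have hE : D ∪ S ⊆ D' := Finset.union_subset hD (hS'.trans Finset.sdiff_subset)
      rw [Finset.union_insert, Finset.sum_insert hz]
      set E := D ∪ S
      have h1 : ∀ ω, (M (insert z E) ω - M D ω) ^ 2 =
          (M (insert z E) ω - M E ω) * (M (insert z E) ω - M E ω) +
            (M E ω - M D ω) * (M E ω - M D ω) +
            2 * (M (insert z E) ω * (M E ω - M D ω) - M E ω * (M E ω - M D ω)) := fun ω => by ring
      simp only [h1]
      have i1 : Integrable (fun ω => (M (insert z E) ω - M E ω) * (M (insert z E) ω - M E ω) +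
          (M E ω - M D ω) * (M E ω - M D ω)) (Pw G θ) := (hint _ _ _ _).add (hint _ _ _ _)
      have i2 : Integrable (fun ω => 2 * (M (insert z E) ω * (M E ω - M D ω) -
          M E ω * (M E ω - M D ω))) (Pw G θ) := ((hint' _ _ _).sub (hint' _ _ _)).const_mul 2
      rw [integral_add i1 i2,
        integral_add (hint _ _ _ _) (hint _ _ _ _), integral_const_mul,
        integral_sub (hint' _ _ _) (hint' _ _ _),
        horth E _ Finset.subset_union_left (Finset.subset_insert _ _),
        horth E _ Finset.subset_union_left subset_rfl, sub_self, mul_zero, add_zero]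
      refine add_le_add (le_trans ?_ (hβ z hzD E Finset.subset_union_left hE)) ?_
      · refine integral_mono (hint _ _ _ _) (R168.integrable_of_abs_le
          (Measurable.ite (measurable_fst (hA z))
            (((measurable_KK v z.1).comp (measurable_Lm (hAm E))).pow_const 2) measurable_const)
          1 fun ω => ?_) fun ω => ?_
        · split_ifs
          · rw [abs_of_nonneg (sq_nonneg _)]
            have hb := bd_Lm (fun T => (E : Set (Slot V)) ∩ A T) ω
            have hd : (3 : ℝ) ≤ d := by exact_mod_cast h.three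
            refine (KK_sq_le h hθ hb v z.1).trans (mul_le_one₀ (pow_le_one₀ ?_ ?_)
              (PP_nonneg h hθ hb _ _) (PP_le_one h hθ hb _ _))
            · exact div_nonneg zero_le_one (by linarith)
            · rw [div_le_one (by linarith)]; linarith
          · simp
        · simpa only [← sq] using hjump E z hzE ω
      · simpa only [← sq] using ih hS'
  have := key (D' \ D) subset_rfl
  rwa [Finset.union_sdiff_of_subset hD] at this

end Crest.Agent.R160

end
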