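import Crest.Agent.R160.PostEdge

/-!
Deterministic comparison of the covariances of two fields.
-/

set_option autoImplicit false

open MeasureTheory unitInterval Filter Topology
open Crest.ProbabilityR Crest.ProbabilityR.Labels Crest.ProbabilityR.TreeIsing
open scoped Classical

noncomputable section

namespace Crest.Agent.R160

universe u

variable {V : Type u} {G : SimpleGraph V} [G.LocallyFinite] {d : ℕ}

namespace DiffAux

lemma theta_le {θ : ℝ} (hθ : θ ^ 2 ≤ 1 / 2) : θ ≤ 3 / 4 := by nlinarith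

lemma sq_le_one {a : ℝ} (ha : |a| ≤ 1) : a ^ 2 ≤ 1 := by
  rw [← sq_abs]; exact pow_le_one₀ (abs_nonneg _) ha

lemma den {θ a b : ℝ} (h0 : 0 ≤ θ) (hθ : θ ^ 2 ≤ 1 / 2) (ha : |a| ≤ 1) (hb : |b| ≤ 1) :
    1 / 4 ≤ 1 + θ * a * b ∧ 1 + θ * a * b ≤ 2 := by
  have h1 : |θ * a * b| ≤ 3 / 4 := by
    rw [abs_mul, abs_mul, abs_of_nonneg h0]
    have h2 : θ * |a| ≤ 3 / 4 := (mul_le_of_le_one_right h0 ha).trans (theta_le hθ)
    exact (mul_le_of_le_one_right (mul_nonneg h0 (abs_nonneg _)) hb).trans h2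
  constructor <;> linarith [(abs_le.1 h1).1, (abs_le.1 h1).2]

lemma F_theta {θ θ' a b : ℝ} (h0 : 0 ≤ θ) (h0' : 0 ≤ θ') (hθ : θ ^ 2 ≤ 1 / 2)
    (hθ' : θ' ^ 2 ≤ 1 / 2) (ha : |a| ≤ 1) (hb : |b| ≤ 1) :
    |(a + θ * b) / (1 + θ * a * b) - (a + θ' * b) / (1 + θ' * a * b)| ≤ 16 * |θ - θ'| := by
  have h1 := (den h0 hθ ha hb).1
  have h2 := (den h0' hθ' ha hb).1
  have e : (a + θ * b) / (1 + θ * a * b) - (a + θ' * b) / (1 + θ' * a * b)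
      = (θ - θ') * (b * (1 - a ^ 2)) / ((1 + θ * a * b) * (1 + θ' * a * b)) := by
    rw [div_sub_div _ _ (by linarith) (by linarith)]
    congr 1
    ring
  have h3 : 1 / 16 ≤ (1 + θ * a * b) * (1 + θ' * a * b) := by nlinarith
  have h4 : |b * (1 - a ^ 2)| ≤ 1 := by
    rw [abs_mul, abs_of_nonneg (by linarith [sq_le_one ha] : 0 ≤ 1 - a ^ 2)]
    exact (mul_le_of_le_one_right (abs_nonneg _) (by nlinarith [sq_nonneg a])).trans hb
  rw [e, abs_div, abs_mul, abs_of_pos (by linarith : 0 < (1 + θ * a * b) * (1 + θ' * a * b)),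
    div_le_iff₀ (by linarith)]
  have h5 := abs_nonneg (θ - θ')
  calc |θ - θ'| * |b * (1 - a ^ 2)| ≤ |θ - θ'| * 1 := by gcongr
    _ = 16 * |θ - θ'| * (1 / 16) := by ring
    _ ≤ _ := by gcongr

lemma same_theta {θ a b a' b' : ℝ} (h0 : 0 ≤ θ) (hθ : θ ^ 2 ≤ 1 / 2) (ha : |a| ≤ 1)
    (hb : |b| ≤ 1) (ha' : |a'| ≤ 1) (hb' : |b'| ≤ 1) :
    |a - a'| ≤ 16 * (|(a + θ * b) / (1 + θ * a * b) - (a' + θ * b') / (1 + θ * a' * b')| +
      |(b + θ * a) / (1 + θ * b * a) - (b' + θ * a') / (1 + θ * b' * a')|) := by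
  obtain ⟨h1, h1'⟩ := den h0 hθ ha hb
  obtain ⟨h2, -⟩ := den h0 hθ ha' hb'
  obtain ⟨h3, h3'⟩ := den h0 hθ ha' hb
  set M := (a + θ * b) / (1 + θ * a * b) - (a' + θ * b') / (1 + θ * a' * b') with hM
  set N := (b + θ * a) / (1 + θ * b * a) - (b' + θ * a') / (1 + θ * b' * a') with hN
  have e : (1 - θ ^ 2) * (1 - θ ^ 2 * (a' ^ 2 * b ^ 2)) * (a - a')
      = ((1 - θ ^ 2 * a' ^ 2) * M - θ * (1 - a' ^ 2) * N) *
        ((1 + θ * a * b) * (1 + θ * a' * b)) := by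
    have key : ∀ Z Z' : ℝ, Z ≠ 0 → Z' ≠ 0 → Z = 1 + θ * a * b → Z' = 1 + θ * a' * b' →
        (1 - θ ^ 2) * (1 - θ ^ 2 * (a' ^ 2 * b ^ 2)) * (a - a')
          = ((1 - θ ^ 2 * a' ^ 2) * ((a + θ * b) / Z - (a' + θ * b') / Z') - θ * (1 - a' ^ 2) *
            ((b + θ * a) / Z - (b' + θ * a') / Z')) * (Z * (1 + θ * a' * b)) := by
      intro Z Z' z1 z2 e1 e2
      field_simp
      subst e1 e2
      ring
    rw [hM, hN, show 1 + θ * b * a = 1 + θ * a * b by ring,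
      show 1 + θ * b' * a' = 1 + θ * a' * b' by ring]
    exact key _ _ (by linarith) (by linarith) rfl rfl
  have ha2 := sq_le_one ha'
  have hb2 := sq_le_one hb
  have hab : a' ^ 2 * b ^ 2 ≤ 1 := by nlinarith [sq_nonneg a', sq_nonneg b]
  have hab0 : 0 ≤ a' ^ 2 * b ^ 2 := by positivity
  have hd : 1 / 4 ≤ (1 - θ ^ 2) * (1 - θ ^ 2 * (a' ^ 2 * b ^ 2)) := by
    have : θ ^ 2 * (a' ^ 2 * b ^ 2) ≤ 1 / 2 := (mul_le_of_le_one_right (sq_nonneg θ) hab).trans hθ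
    nlinarith
  have hz : (1 + θ * a * b) * (1 + θ * a' * b) ≤ 4 := by nlinarith
  have hz0 : 0 ≤ (1 + θ * a * b) * (1 + θ * a' * b) := by positivity
  have c1 : |1 - θ ^ 2 * a' ^ 2| ≤ 1 := by
    have : θ ^ 2 * a' ^ 2 ≤ 1 / 2 := (mul_le_of_le_one_right (sq_nonneg θ) ha2).trans hθ
    have : 0 ≤ θ ^ 2 * a' ^ 2 := by positivity
    rw [abs_le]; constructor <;> linarith
  have c2 : |θ * (1 - a' ^ 2)| ≤ 1 := by
    have := theta_le hθ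
    rw [abs_of_nonneg (mul_nonneg h0 (by linarith))]
    nlinarith [sq_nonneg a']
  have h5 : |(1 - θ ^ 2 * a' ^ 2) * M - θ * (1 - a' ^ 2) * N| ≤ |M| + |N| := by
    refine (abs_sub _ _).trans (add_le_add ?_ ?_)
    · rw [abs_mul]; exact mul_le_of_le_one_left (abs_nonneg _) c1
    · rw [abs_mul]; exact mul_le_of_le_one_left (abs_nonneg _) c2
  have h6 := congrArg abs e
  rw [abs_mul, abs_mul _ (_ * _), abs_of_nonneg hz0, abs_of_nonneg (by linarith)] at h6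
  have h7 : 1 / 4 * |a - a'| ≤ (|M| + |N|) * 4 := by
    calc 1 / 4 * |a - a'| ≤ _ := mul_le_mul_of_nonneg_right hd (abs_nonneg _)
      _ = _ := h6
      _ ≤ _ := by gcongr
  linarith

lemma kap_sub {θ θ' a a' δ : ℝ} (h0 : 0 ≤ θ) (h0' : 0 ≤ θ') (hθ : θ ^ 2 ≤ 1 / 2)
    (hθ' : θ' ^ 2 ≤ 1 / 2) (ha : |a| ≤ 1) (ha' : |a'| ≤ 1) (hδ : 0 < δ)
    (h1 : δ ≤ 1 - θ ^ 2 * a ^ 2) (h2 : δ ≤ 1 - θ' ^ 2 * a' ^ 2) :
    |kap θ a - kap θ' a'| * δ ^ 2 ≤ 3 / 2 * ((|a| + |a'|) * (|a - a'| + |θ - θ'|)) := by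
  have e : kap θ a - kap θ' a' = ((a' - a) * (a' + a) * (1 - θ ^ 2)
      + (θ - θ') * (θ + θ') * (a' * (a' * (1 - a ^ 2)))) /
      ((1 - θ ^ 2 * a ^ 2) * (1 - θ' ^ 2 * a' ^ 2)) := by
    unfold kap
    rw [div_sub_div _ _ (by linarith) (by linarith)]
    congr 1
    ring
  have h3 : δ ^ 2 ≤ (1 - θ ^ 2 * a ^ 2) * (1 - θ' ^ 2 * a' ^ 2) := by
    rw [sq]; exact mul_le_mul h1 h2 hδ.le (by linarith)
  have h4 : 0 < (1 - θ ^ 2 * a ^ 2) * (1 - θ' ^ 2 * a' ^ 2) := lt_of_lt_of_le (by positivity) h3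
  have ha2 := sq_le_one ha
  have t1 : |(a' - a) * (a' + a) * (1 - θ ^ 2)| ≤ |a - a'| * (|a| + |a'|) := by
    rw [abs_mul, abs_mul, abs_sub_comm a' a, abs_of_nonneg (by linarith : 0 ≤ 1 - θ ^ 2)]
    refine (mul_le_of_le_one_right (by positivity) (by nlinarith [sq_nonneg θ])).trans ?_
    gcongr
    rw [add_comm a' a]
    exact abs_add_le _ _
  have t2 : |(θ - θ') * (θ + θ') * (a' * (a' * (1 - a ^ 2)))| ≤
      |θ - θ'| * (3 / 2) * (|a| + |a'|) := by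
    rw [abs_mul, abs_mul, abs_mul, abs_mul, abs_of_nonneg (by linarith : 0 ≤ θ + θ'),
      abs_of_nonneg (by linarith : 0 ≤ 1 - a ^ 2)]
    have s1 : |a'| * (1 - a ^ 2) ≤ 1 :=
      (mul_le_of_le_one_right (abs_nonneg _) (by nlinarith [sq_nonneg a])).trans ha'
    have s2 : |a'| * (|a'| * (1 - a ^ 2)) ≤ |a| + |a'| :=
      (mul_le_of_le_one_right (abs_nonneg _) s1).trans (by linarith [abs_nonneg a])
    have s3 : θ + θ' ≤ 3 / 2 := by linarith [theta_le hθ, theta_le hθ']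
    have s4 : 0 ≤ 1 - a ^ 2 := by linarith
    gcongr
  have h5 : |kap θ a - kap θ' a'| * ((1 - θ ^ 2 * a ^ 2) * (1 - θ' ^ 2 * a' ^ 2)) ≤
      |a - a'| * (|a| + |a'|) + |θ - θ'| * (3 / 2) * (|a| + |a'|) := by
    rw [e, abs_div, abs_of_pos h4, div_mul_cancel₀ _ h4.ne']
    exact (abs_add_le _ _).trans (add_le_add t1 t2)
  have h6 : 0 ≤ |a - a'| * (|a| + |a'|) := by positivity
  calc _ ≤ _ := mul_le_mul_of_nonneg_left h3 (abs_nonneg _)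
    _ ≤ _ := h5
    _ ≤ _ := by nlinarith

lemma abs_clip_le (a : ℝ) : |clip a| ≤ 1 / 2 := by
  unfold clip
  rw [abs_le]
  exact ⟨le_max_left _ _, max_le (by norm_num) (min_le_right _ _)⟩

lemma clip_eq {a : ℝ} (ha : |a| ≤ 1 / 2) : clip a = a := by
  unfold clip
  rw [min_eq_left (abs_le.1 ha).2, max_eq_right (abs_le.1 ha).1]

lemma abs_clip_sub (a a' : ℝ) : |clip a - clip a'| ≤ |a - a'| := by
  unfold clip
  refine (abs_max_sub_max_le_max _ _ _ _).trans ?_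
  rw [sub_self, abs_zero]
  refine max_le (abs_nonneg _) ((abs_min_sub_min_le_max _ _ _ _).trans ?_)
  rw [sub_self, abs_zero]
  exact max_le le_rfl (abs_nonneg _)

lemma abs_clip_le_abs (a : ℝ) : |clip a| ≤ |a| := by
  have := abs_clip_sub a 0
  rwa [clip_eq (a := 0) (by norm_num), sub_zero, sub_zero] at this

lemma den_small {θ c : ℝ} (hθ : θ ^ 2 ≤ 1 / 2) (hc : |c| ≤ 1 / 2) :
    7 / 8 ≤ 1 - θ ^ 2 * c ^ 2 := by
  have h1 : c ^ 2 ≤ 1 / 4 := by nlinarith [sq_abs c, abs_nonneg c]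
  nlinarith [sq_nonneg θ, sq_nonneg c]

lemma kap_ge {θ c : ℝ} (hθ : θ ^ 2 ≤ 1 / 2) (hc : |c| ≤ 1 / 2) : 3 / 4 ≤ kap θ c := by
  have h1 : c ^ 2 ≤ 1 / 4 := by nlinarith [sq_abs c, abs_nonneg c]
  have h2 := den_small hθ hc
  unfold kap
  rw [le_div_iff₀ (by linarith)]
  nlinarith [mul_nonneg (sq_nonneg θ) (sq_nonneg c)]

lemma log_sub_le {k k' : ℝ} (hk : 3 / 4 ≤ k) (hk' : 3 / 4 ≤ k') :
    Real.log k - Real.log k' ≤ 4 / 3 * |k - k'| := by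
  rw [← Real.log_div (by linarith) (by linarith)]
  refine (Real.log_le_sub_one_of_pos (by positivity)).trans ?_
  rw [div_sub_one (by linarith), div_le_iff₀ (by linarith)]
  nlinarith [le_abs_self (k - k'), abs_nonneg (k - k')]

lemma lam_sub {θ θ' : ℝ} (h0 : 0 ≤ θ) (h0' : 0 ≤ θ') (hθ : θ ^ 2 ≤ 1 / 2)
    (hθ' : θ' ^ 2 ≤ 1 / 2) (a a' : ℝ) :
    |lam θ a - lam θ' a'| ≤ 4 * (|clip a| + |clip a'|) * (|a - a'| + |θ - θ'|) := by
  have c1 := abs_clip_le a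
  have c2 := abs_clip_le a'
  have k1 := kap_ge hθ c1
  have k2 := kap_ge hθ' c2
  have h1 := kap_sub h0 h0' hθ hθ' (a := clip a) (a' := clip a') (by linarith) (by linarith)
    (by norm_num : (0 : ℝ) < 7 / 8) (den_small hθ c1) (den_small hθ' c2)
  have h2 : |lam θ a - lam θ' a'| ≤ 4 / 3 * |kap θ (clip a) - kap θ' (clip a')| := by
    unfold lam
    rw [abs_le]
    have s1 := log_sub_le k1 k2
    have s2 := log_sub_le k2 k1
    rw [abs_sub_comm] at s2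
    constructor <;> linarith
  have h3 : (|clip a| + |clip a'|) * (|clip a - clip a'| + |θ - θ'|) ≤
      (|clip a| + |clip a'|) * (|a - a'| + |θ - θ'|) :=
    mul_le_mul_of_nonneg_left (by linarith [abs_clip_sub a a']) (by positivity)
  have h4 : 0 ≤ (|clip a| + |clip a'|) * (|a - a'| + |θ - θ'|) := by positivity
  nlinarith

lemma tele (x y : ℕ → ℝ) (p p' : ℝ) (n : ℕ) :
    p * ∏ i ∈ Finset.range n, x i - p' * ∏ i ∈ Finset.range n, y i =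
      (p - p') * ∏ i ∈ Finset.range n, y i + ∑ i ∈ Finset.range n,
        (p * ∏ j ∈ Finset.range i, x j) * (∏ j ∈ Finset.Ico (i + 1) n, y j) * (x i - y i) := by
  induction n with
  | zero => simp
  | succ n ih =>
    rw [Finset.prod_range_succ, Finset.prod_range_succ, Finset.sum_range_succ, Finset.Ico_self,
      Finset.prod_empty]
    have : ∑ i ∈ Finset.range n, (p * ∏ j ∈ Finset.range i, x j) *
        (∏ j ∈ Finset.Ico (i + 1) (n + 1), y j) * (x i - y i) = (∑ i ∈ Finset.range n,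
        (p * ∏ j ∈ Finset.range i, x j) * (∏ j ∈ Finset.Ico (i + 1) n, y j) * (x i - y i)) * y n := by
      rw [Finset.sum_mul]
      refine Finset.sum_congr rfl fun i hi => ?_
      rw [Finset.prod_Ico_succ_top (Finset.mem_range.1 hi)]
      ring
    rw [this]
    linear_combination y n * ih

lemma tele_sq (x y a a' e : ℕ → ℝ) (p p' : ℝ) (n : ℕ) (hp0 : 0 ≤ p) (hp1 : p ≤ 1)
    (hx0 : ∀ i, 0 ≤ x i) (hx1 : ∀ i, x i ≤ 1 - a i ^ 2 / 2) (hy0 : ∀ i, 0 ≤ y i)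
    (hy1 : ∀ i, y i ≤ 1 - a' i ^ 2 / 2)
    (he : ∀ i < n, |x i - y i| ≤ (|a i| + |a' i|) * e i) :
    (p * ∏ i ∈ Finset.range n, x i - p' * ∏ i ∈ Finset.range n, y i) ^ 2 ≤
      2 * (p - p') ^ 2 * ∏ i ∈ Finset.range n, y i + 16 * ∑ i ∈ Finset.range n,
        (p * ∏ j ∈ Finset.range i, x j) * (∏ j ∈ Finset.Ico (i + 1) n, y j) * e i ^ 2 := by
  have hx2 : ∀ i, x i ≤ 1 := fun i => by nlinarith [hx1 i, sq_nonneg (a i)]
  have hy2 : ∀ i, y i ≤ 1 := fun i => by nlinarith [hy1 i, sq_nonneg (a' i)]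
  set P : ℕ → ℝ := fun i => p * ∏ j ∈ Finset.range i, x j with hP
  set Q : ℕ → ℝ := fun i => ∏ j ∈ Finset.Ico i n, y j with hQ
  have hP0 : ∀ i, 0 ≤ P i := fun i => mul_nonneg hp0 (Finset.prod_nonneg fun j _ => hx0 j)
  have hP1 : ∀ i, P i ≤ 1 := fun i =>
    (mul_le_of_le_one_right hp0 (Finset.prod_le_one (fun j _ => hx0 j) fun j _ => hx2 j)).trans hp1
  have hQ0 : ∀ i, 0 ≤ Q i := fun i => Finset.prod_nonneg fun j _ => hy0 j
  have hQ1 : ∀ i, Q i ≤ 1 := fun i => Finset.prod_le_one (fun j _ => hy0 j) fun j _ => hy2 j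
  have s1 : ∑ i ∈ Finset.range n, P i * a i ^ 2 ≤ 2 := by
    calc _ ≤ ∑ i ∈ Finset.range n, 2 * (P i - P (i + 1)) := by
          refine Finset.sum_le_sum fun i _ => ?_
          have : P (i + 1) = P i * x i := by
            simp only [hP, Finset.prod_range_succ, mul_assoc]
          rw [this]
          nlinarith [mul_le_mul_of_nonneg_left (hx1 i) (hP0 i)]
      _ = 2 * (P 0 - P n) := by rw [← Finset.mul_sum, Finset.sum_range_sub']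
      _ ≤ 2 := by linarith [hP1 0, hP0 n]
  have s2 : ∑ i ∈ Finset.range n, Q (i + 1) * a' i ^ 2 ≤ 2 := by
    calc _ ≤ ∑ i ∈ Finset.range n, 2 * (Q (i + 1) - Q i) := by
          refine Finset.sum_le_sum fun i hi => ?_
          have : Q i = y i * Q (i + 1) :=
            Finset.prod_eq_prod_Ico_succ_bot (Finset.mem_range.1 hi) y
          rw [this]
          nlinarith [mul_le_mul_of_nonneg_left (hy1 i) (hQ0 (i + 1))]
      _ = 2 * (Q n - Q 0) := by rw [← Finset.mul_sum, Finset.sum_range_sub]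
      _ ≤ 2 := by linarith [hQ1 n, hQ0 0]
  have s3 : ∑ i ∈ Finset.range n, P i * Q (i + 1) * (|a i| + |a' i|) ^ 2 ≤ 8 := by
    calc _ ≤ ∑ i ∈ Finset.range n, (2 * (P i * a i ^ 2) + 2 * (Q (i + 1) * a' i ^ 2)) := by
          refine Finset.sum_le_sum fun i _ => ?_
          have t1 : (|a i| + |a' i|) ^ 2 ≤ 2 * a i ^ 2 + 2 * a' i ^ 2 := by
            nlinarith [sq_abs (a i), sq_abs (a' i), sq_nonneg (|a i| - |a' i|)]
          have t2 : P i * Q (i + 1) ≤ P i := mul_le_of_le_one_right (hP0 i) (hQ1 _)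
          have t3 : P i * Q (i + 1) ≤ Q (i + 1) := mul_le_of_le_one_left (hQ0 _) (hP1 i)
          have t4 := mul_le_mul_of_nonneg_left t1 (mul_nonneg (hP0 i) (hQ0 (i + 1)))
          have t5 := mul_le_mul_of_nonneg_right t2 (sq_nonneg (a i))
          have t6 := mul_le_mul_of_nonneg_right t3 (sq_nonneg (a' i))
          linarith
      _ ≤ 8 := by
          rw [Finset.sum_add_distrib, ← Finset.mul_sum, ← Finset.mul_sum]
          linarith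
  have s4 : (∑ i ∈ Finset.range n, P i * Q (i + 1) * (x i - y i)) ^ 2 ≤
      (∑ i ∈ Finset.range n, P i * Q (i + 1) * (|a i| + |a' i|) ^ 2) *
        ∑ i ∈ Finset.range n, P i * Q (i + 1) * e i ^ 2 := by
    refine Finset.sum_sq_le_sum_mul_sum_of_sq_le_mul _
      (fun i _ => mul_nonneg (mul_nonneg (hP0 i) (hQ0 _)) (sq_nonneg _))
      (fun i _ => mul_nonneg (mul_nonneg (hP0 i) (hQ0 _)) (sq_nonneg _)) fun i hi => ?_
    have t1 : (x i - y i) ^ 2 ≤ ((|a i| + |a' i|) * e i) ^ 2 := by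
      rw [← sq_abs]
      exact pow_le_pow_left₀ (abs_nonneg _) (he i (Finset.mem_range.1 hi)) 2
    calc _ = (P i * Q (i + 1)) ^ 2 * (x i - y i) ^ 2 := by ring
      _ ≤ (P i * Q (i + 1)) ^ 2 * ((|a i| + |a' i|) * e i) ^ 2 := by gcongr
      _ = _ := by ring
  have s5 : 0 ≤ ∑ i ∈ Finset.range n, P i * Q (i + 1) * e i ^ 2 :=
    Finset.sum_nonneg fun i _ => mul_nonneg (mul_nonneg (hP0 i) (hQ0 _)) (sq_nonneg _)
  have s6 := s4.trans (mul_le_mul_of_nonneg_right s3 s5)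
  have y0 : 0 ≤ ∏ i ∈ Finset.range n, y i := Finset.prod_nonneg fun j _ => hy0 j
  have y1 : ∏ i ∈ Finset.range n, y i ≤ 1 :=
    Finset.prod_le_one (fun j _ => hy0 j) fun j _ => hy2 j
  have s7 : ((p - p') * ∏ i ∈ Finset.range n, y i) ^ 2 ≤
      (p - p') ^ 2 * ∏ i ∈ Finset.range n, y i := by
    rw [mul_pow]
    gcongr
    nlinarith
  rw [tele]
  change (_ + ∑ i ∈ Finset.range n, P i * Q (i + 1) * (x i - y i)) ^ 2 ≤
    _ + 16 * ∑ i ∈ Finset.range n, P i * Q (i + 1) * e i ^ 2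
  nlinarith [sq_nonneg ((p - p') * ∏ i ∈ Finset.range n, y i -
    ∑ i ∈ Finset.range n, P i * Q (i + 1) * (x i - y i))]

lemma sq_three (a b c : ℝ) : (|a| + |b| + |c|) ^ 2 ≤ 3 * (a ^ 2 + b ^ 2 + c ^ 2) := by
  nlinarith [sq_abs a, sq_abs b, sq_abs c, sq_nonneg (|a| - |b|), sq_nonneg (|a| - |c|),
    sq_nonneg (|b| - |c|)]

lemma one_sub_sq {m m' : ℝ} (hm : |m| ≤ 1) (hm' : |m'| ≤ 1) :
    ((1 - m ^ 2) - (1 - m' ^ 2)) ^ 2 ≤ 4 * (m - m') ^ 2 := by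
  have h1 : (m + m') ^ 2 ≤ 4 := by
    have := abs_le.1 hm
    have := abs_le.1 hm'
    nlinarith
  calc _ = (m + m') ^ 2 * (m - m') ^ 2 := by ring
    _ ≤ _ := by gcongr

lemma pow_sub_sq {θ θ' q : ℝ} (h0 : 0 ≤ θ) (h0' : 0 ≤ θ') (hθ : θ ^ 2 ≤ q) (hθ' : θ' ^ 2 ≤ q)
    (n : ℕ) : q * (θ ^ n - θ' ^ n) ^ 2 ≤ q ^ n * ((n : ℝ) ^ 2 * (θ - θ') ^ 2) := by
  have hq : 0 ≤ q := (sq_nonneg θ).trans hθ
  cases n with
  | zero => simp
  | succ n =>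
    have h1 := abs_pow_sub_pow_le θ θ' (n + 1)
    rw [Nat.add_sub_cancel, abs_of_nonneg h0, abs_of_nonneg h0'] at h1
    have h2 : max θ θ' ^ 2 ≤ q := by
      rcases max_choice θ θ' with h | h <;> rw [h] <;> assumption
    have h3 : (θ ^ (n + 1) - θ' ^ (n + 1)) ^ 2 ≤ (|θ - θ'| * ((n + 1 : ℕ) : ℝ) * max θ θ' ^ n) ^ 2 := by
      rw [← sq_abs]
      exact pow_le_pow_left₀ (abs_nonneg _) h1 2
    have h4 : (max θ θ' ^ 2) ^ n ≤ q ^ n := pow_le_pow_left₀ (sq_nonneg _) h2 n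
    calc _ ≤ q * (|θ - θ'| * ((n + 1 : ℕ) : ℝ) * max θ θ' ^ n) ^ 2 := by gcongr
      _ = q * (max θ θ' ^ 2) ^ n * (((n + 1 : ℕ) : ℝ) ^ 2 * |θ - θ'| ^ 2) := by ring
      _ ≤ q * q ^ n * (((n + 1 : ℕ) : ℝ) ^ 2 * |θ - θ'| ^ 2) := by gcongr
      _ = _ := by rw [sq_abs]; ring

lemma exp_neg_sub {x y : ℝ} (hx : 0 ≤ x) (hy : 0 ≤ y) :
    (Real.exp (-x) - Real.exp (-y)) ^ 2 ≤ (x - y) ^ 2 := by
  have key : ∀ x y : ℝ, 0 ≤ x → x ≤ y →
      0 ≤ Real.exp (-x) - Real.exp (-y) ∧ Real.exp (-x) - Real.exp (-y) ≤ y - x := by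
    intro x y hx hxy
    refine ⟨sub_nonneg.2 (Real.exp_le_exp.2 (by linarith)), ?_⟩
    have h1 : Real.exp (-y) = Real.exp (-x) * Real.exp (x - y) := by
      rw [← Real.exp_add]; congr 1; ring
    have h2 := Real.add_one_le_exp (x - y)
    have h3 : Real.exp (-x) ≤ 1 := Real.exp_le_one_iff.2 (by linarith)
    have h4 := Real.exp_pos (-x)
    rw [h1]
    nlinarith
  rcases le_total x y with h | h
  · obtain ⟨h1, h2⟩ := key x y hx h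
    nlinarith
  · obtain ⟨h1, h2⟩ := key y x hy h
    nlinarith

end DiffAux

open DiffAux

/-- The cavity fields of an edge are Lipschitz functions of the two posterior means. -/
theorem exists_cav_lip : ∃ C : ℝ, 0 < C ∧ ∀ θ θ' a b a' b' : ℝ, 0 ≤ θ → 0 ≤ θ' →
    θ ^ 2 ≤ 1 / 2 → θ' ^ 2 ≤ 1 / 2 → |a| ≤ 1 → |b| ≤ 1 → |a'| ≤ 1 → |b'| ≤ 1 →
    |a - a'| ≤ C * (|(a + θ * b) / (1 + θ * a * b) - (a' + θ' * b') / (1 + θ' * a' * b')| +
      |(b + θ * a) / (1 + θ * b * a) - (b' + θ' * a') / (1 + θ' * b' * a')| + |θ - θ'|) := by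
  refine ⟨512, by norm_num, fun θ θ' a b a' b' h0 h0' hθ hθ' ha hb ha' hb' => ?_⟩
  have h1 := same_theta h0 hθ ha hb ha' hb'
  have h2 := F_theta h0' h0 hθ' hθ ha' hb'
  have h3 := F_theta h0' h0 hθ' hθ hb' ha'
  rw [abs_sub_comm θ' θ] at h2 h3
  have h4 := abs_sub_le ((a + θ * b) / (1 + θ * a * b)) ((a' + θ' * b') / (1 + θ' * a' * b'))
    ((a' + θ * b') / (1 + θ * a' * b'))
  have h5 := abs_sub_le ((b + θ * a) / (1 + θ * b * a)) ((b' + θ' * a') / (1 + θ' * b' * a'))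
    ((b' + θ * a') / (1 + θ * b' * a'))
  have h6 := abs_nonneg ((a + θ * b) / (1 + θ * a * b) - (a' + θ' * b') / (1 + θ' * a' * b'))
  have h7 := abs_nonneg ((b + θ * a) / (1 + θ * b * a) - (b' + θ' * a') / (1 + θ' * b' * a'))
  linarith

theorem abs_kap_sub_le {θ θ' a a' : ℝ} (h0 : 0 ≤ θ) (h0' : 0 ≤ θ') (hθ : θ ^ 2 ≤ 1 / 2)
    (hθ' : θ' ^ 2 ≤ 1 / 2) (ha : |a| ≤ 1) (ha' : |a'| ≤ 1) :
    |kap θ a - kap θ' a'| ≤ 8 * (|a| + |a'|) * (|a - a'| + |θ - θ'|) := by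
  have h1 := kap_sub h0 h0' hθ hθ' ha ha' (by norm_num : (0 : ℝ) < 1 / 2)
    (by linarith [mul_le_of_le_one_right (sq_nonneg θ) (sq_le_one ha)])
    (by linarith [mul_le_of_le_one_right (sq_nonneg θ') (sq_le_one ha')])
  have h4 : 0 ≤ (|a| + |a'|) * (|a - a'| + |θ - θ'|) := by positivity
  nlinarith

theorem lam_nonneg {θ : ℝ} (hθ : θ ^ 2 ≤ 1 / 2) (a : ℝ) : 0 ≤ lam θ a := by
  have c1 := abs_clip_le a
  have k1 := kap_ge hθ c1
  have k2 := kap_le_one hθ (a := clip a) (by linarith)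
  unfold lam
  linarith [Real.log_nonpos (by linarith) k2]

theorem lam_le_one {θ : ℝ} (hθ : θ ^ 2 ≤ 1 / 2) (a : ℝ) : lam θ a ≤ 1 := by
  have c1 := abs_clip_le a
  have k1 := kap_ge hθ c1
  have k2 := kap_le_one hθ (a := clip a) (by linarith)
  have h1 := log_sub_le (k := 1) (by norm_num) k1
  rw [Real.log_one, abs_of_nonneg (by linarith)] at h1
  unfold lam
  linarith

theorem abs_lam_sub_le {θ θ' : ℝ} (h0 : 0 ≤ θ) (h0' : 0 ≤ θ') (hθ : θ ^ 2 ≤ 1 / 2)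
    (hθ' : θ' ^ 2 ≤ 1 / 2) (a a' : ℝ) :
    |lam θ a - lam θ' a'| ≤ 4 * (|a| + |a'|) * (|a - a'| + |θ - θ'|) := by
  refine (lam_sub h0 h0' hθ hθ' a a').trans ?_
  exact mul_le_mul_of_nonneg_right (by linarith [abs_clip_le_abs a, abs_clip_le_abs a'])
    (by positivity)

theorem abs_lam_sub_le' {θ θ' : ℝ} (h0 : 0 ≤ θ) (h0' : 0 ≤ θ') (hθ : θ ^ 2 ≤ 1 / 2)
    (hθ' : θ' ^ 2 ≤ 1 / 2) (a a' : ℝ) :
    |lam θ a - lam θ' a'| ≤ 4 * (|a - a'| + |θ - θ'|) := by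
  refine (lam_sub h0 h0' hθ hθ' a a').trans ?_
  have h1 : |clip a| + |clip a'| ≤ 1 := by linarith [abs_clip_le a, abs_clip_le a']
  calc _ ≤ 4 * 1 * (|a - a'| + |θ - θ'|) := by gcongr
    _ = _ := by ring

namespace DiffAux

lemma exists_edge (h : RT G d) : ∃ C : ℝ, 0 < C ∧ ∀ θ θ', Subc d θ → Subc d θ' →
    ∀ ℓ ℓ' : Slot V → ℝ, Bd ℓ → Bd ℓ' → Good G θ ℓ → Good G θ' ℓ' → ∀ y x : V, G.Adj y x →
    (|cav G θ ℓ y x - cav G θ' ℓ' y x| + |θ - θ'|) ^ 2 ≤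
      C * ((mag G θ ℓ x - mag G θ' ℓ' x) ^ 2 + (mag G θ ℓ y - mag G θ' ℓ' y) ^ 2 +
          (θ - θ') ^ 2) := by
  obtain ⟨C, hC, H⟩ := exists_cav_lip
  refine ⟨3 * (C + 1) ^ 2, by positivity, fun θ θ' hθ hθ' ℓ ℓ' hℓ hℓ' hg hg' y x hyx => ?_⟩
  have h1 := H θ θ' _ _ _ _ hθ.1 hθ'.1 (hθ.sq_le h) (hθ'.sq_le h)
    (abs_cav_le (G := G) (θ := θ) hℓ y x) (abs_cav_le (G := G) (θ := θ) hℓ x y)
    (abs_cav_le (G := G) (θ := θ') hℓ' y x) (abs_cav_le (G := G) (θ := θ') hℓ' x y)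
  rw [← mag_edge h hθ hℓ hg hyx, ← mag_edge h hθ hℓ hg hyx.symm, ← mag_edge h hθ' hℓ' hg' hyx,
    ← mag_edge h hθ' hℓ' hg' hyx.symm] at h1
  have h2 : |cav G θ ℓ y x - cav G θ' ℓ' y x| + |θ - θ'| ≤ (C + 1) *
      (|mag G θ ℓ x - mag G θ' ℓ' x| + |mag G θ ℓ y - mag G θ' ℓ' y| + |θ - θ'|) := by
    have := abs_nonneg (mag G θ ℓ x - mag G θ' ℓ' x)
    have := abs_nonneg (mag G θ ℓ y - mag G θ' ℓ' y)
    linarith
  calc _ ≤ _ := pow_le_pow_left₀ (by positivity) h2 2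
    _ = (C + 1) ^ 2 * (|mag G θ ℓ x - mag G θ' ℓ' x| + |mag G θ ℓ y - mag G θ' ℓ' y|
          + |θ - θ'|) ^ 2 := by ring
    _ ≤ _ := mul_le_mul_of_nonneg_left (sq_three _ _ _) (by positivity)
    _ = _ := by ring

lemma PP_left (h : RT G d) (θ : ℝ) (ℓ : Slot V → ℝ) (o z : V) {i : ℕ} (hi : i ≤ G.dist o z) :
    PP G θ ℓ o (geo G o z i) =
      ∏ j ∈ Finset.range i, kap θ (cav G θ ℓ (geo G o z (j + 1)) (geo G o z j)) := by
  unfold PP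
  rw [(geo_spec h o z hi).1]
  refine Finset.prod_congr rfl fun j hj => ?_
  have := Finset.mem_range.1 hj
  rw [geo_geo_left h o z (by omega) hi, geo_geo_left h o z (by omega) hi]

lemma PP_right (h : RT G d) (θ : ℝ) (ℓ : Slot V → ℝ) (o z : V) {i : ℕ} (hi : i ≤ G.dist o z) :
    PP G θ ℓ (geo G o z i) z =
      ∏ j ∈ Finset.Ico i (G.dist o z), kap θ (cav G θ ℓ (geo G o z (j + 1)) (geo G o z j)) := by
  unfold PP
  have h1 := (geo_spec h o z hi).2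
  rw [Finset.prod_Ico_eq_prod_range, show G.dist o z - i = G.dist (geo G o z i) z by omega]
  refine Finset.prod_congr rfl fun j hj => ?_
  have := Finset.mem_range.1 hj
  rw [geo_geo_right h o z (by omega), geo_geo_right h o z (by omega), add_assoc]

lemma exists_core (h : RT G d) : ∃ C : ℝ, 0 < C ∧ ∀ θ θ', Subc d θ → Subc d θ' →
    ∀ ℓ ℓ' : Slot V → ℝ, Bd ℓ → Bd ℓ' → Good G θ ℓ → Good G θ' ℓ' → ∀ o z : V,
    ((1 - mag G θ ℓ o ^ 2) * PP G θ ℓ o z - (1 - mag G θ' ℓ' o ^ 2) * PP G θ' ℓ' o z) ^ 2 ≤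
      C * ((mag G θ ℓ o - mag G θ' ℓ' o) ^ 2 * PP G θ' ℓ' o z +
        ∑ i ∈ Finset.range (G.dist o z),
          PP G θ ℓ (geo G o z i) o * PP G θ' ℓ' (geo G o z (i + 1)) z *
            ((mag G θ ℓ (geo G o z i) - mag G θ' ℓ' (geo G o z i)) ^ 2 +
              (mag G θ ℓ (geo G o z (i + 1)) - mag G θ' ℓ' (geo G o z (i + 1))) ^ 2 +
              (θ - θ') ^ 2)) := by
  obtain ⟨C, hC, H⟩ := exists_edge h
  refine ⟨8 + 1024 * C, by positivity, fun θ θ' hθ hθ' ℓ ℓ' hℓ hℓ' hg hg' o z => ?_⟩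
  have hm := abs_mag_le (G := G) (θ := θ) hℓ
  have hm' := abs_mag_le (G := G) (θ := θ') hℓ'
  have hc := abs_cav_le (G := G) (θ := θ) hℓ
  have hc' := abs_cav_le (G := G) (θ := θ') hℓ'
  have h1 := tele_sq (fun i => kap θ (cav G θ ℓ (geo G o z (i + 1)) (geo G o z i)))
    (fun i => kap θ' (cav G θ' ℓ' (geo G o z (i + 1)) (geo G o z i)))
    (fun i => cav G θ ℓ (geo G o z (i + 1)) (geo G o z i))
    (fun i => cav G θ' ℓ' (geo G o z (i + 1)) (geo G o z i))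
    (fun i => 8 * (|cav G θ ℓ (geo G o z (i + 1)) (geo G o z i) -
      cav G θ' ℓ' (geo G o z (i + 1)) (geo G o z i)| + |θ - θ'|))
    (1 - mag G θ ℓ o ^ 2) (1 - mag G θ' ℓ' o ^ 2) (G.dist o z)
    (by linarith [sq_le_one (hm o)]) (by linarith [sq_nonneg (mag G θ ℓ o)])
    (fun i => kap_nonneg (hθ.sq_le h) (hc _ _)) (fun i => kap_le (hθ.sq_le h) (hc _ _))
    (fun i => kap_nonneg (hθ'.sq_le h) (hc' _ _)) (fun i => kap_le (hθ'.sq_le h) (hc' _ _))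
    (fun i _ => (abs_kap_sub_le hθ.1 hθ'.1 (hθ.sq_le h) (hθ'.sq_le h) (hc _ _) (hc' _ _)).trans
      (le_of_eq (by ring)))
  refine h1.trans ?_
  have p0 := PP_nonneg h hθ' hℓ' o z
  have h2 : ((1 - mag G θ ℓ o ^ 2) - (1 - mag G θ' ℓ' o ^ 2)) ^ 2 * PP G θ' ℓ' o z ≤
      4 * (mag G θ ℓ o - mag G θ' ℓ' o) ^ 2 * PP G θ' ℓ' o z :=
    mul_le_mul_of_nonneg_right (one_sub_sq (hm o) (hm' o)) p0
  set S := ∑ i ∈ Finset.range (G.dist o z),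
          PP G θ ℓ (geo G o z i) o * PP G θ' ℓ' (geo G o z (i + 1)) z *
            ((mag G θ ℓ (geo G o z i) - mag G θ' ℓ' (geo G o z i)) ^ 2 +
              (mag G θ ℓ (geo G o z (i + 1)) - mag G θ' ℓ' (geo G o z (i + 1))) ^ 2 +
              (θ - θ') ^ 2) with hS
  have hS0 : 0 ≤ S := Finset.sum_nonneg fun i _ =>
    mul_nonneg (mul_nonneg (PP_nonneg h hθ hℓ _ _) (PP_nonneg h hθ' hℓ' _ _)) (by positivity)
  have h3 : ∑ i ∈ Finset.range (G.dist o z), ((1 - mag G θ ℓ o ^ 2) *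
      ∏ j ∈ Finset.range i, kap θ (cav G θ ℓ (geo G o z (j + 1)) (geo G o z j))) *
      (∏ j ∈ Finset.Ico (i + 1) (G.dist o z),
        kap θ' (cav G θ' ℓ' (geo G o z (j + 1)) (geo G o z j))) *
      (8 * (|cav G θ ℓ (geo G o z (i + 1)) (geo G o z i) -
        cav G θ' ℓ' (geo G o z (i + 1)) (geo G o z i)| + |θ - θ'|)) ^ 2 ≤ 64 * C * S := by
    rw [hS, Finset.mul_sum]
    refine Finset.sum_le_sum fun i hi => ?_
    have hi' := Finset.mem_range.1 hi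
    rw [← PP_left h θ ℓ o z hi'.le, ← PP_right h θ' ℓ' o z hi', PP_symm h hθ hℓ hg]
    have t1 := H θ θ' hθ hθ' ℓ ℓ' hℓ hℓ' hg hg' _ _ (geo_adj h o z hi')
    have t2 := PP_nonneg h hθ hℓ (geo G o z i) o
    have t3 := PP_nonneg h hθ' hℓ' (geo G o z (i + 1)) z
    have t4 : (1 - mag G θ ℓ (geo G o z i) ^ 2) * PP G θ ℓ (geo G o z i) o ≤
        PP G θ ℓ (geo G o z i) o :=
      mul_le_of_le_one_left t2 (by linarith [sq_nonneg (mag G θ ℓ (geo G o z i))])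
    rw [mul_pow]
    calc _ ≤ PP G θ ℓ (geo G o z i) o * PP G θ' ℓ' (geo G o z (i + 1)) z * (8 ^ 2 * (C *
          ((mag G θ ℓ (geo G o z i) - mag G θ' ℓ' (geo G o z i)) ^ 2 +
              (mag G θ ℓ (geo G o z (i + 1)) - mag G θ' ℓ' (geo G o z (i + 1))) ^ 2 +
              (θ - θ') ^ 2))) := by gcongr
      _ = _ := by ring
  have h4 : 0 ≤ C * ((mag G θ ℓ o - mag G θ' ℓ' o) ^ 2 * PP G θ' ℓ' o z) := by positivity
  change 2 * _ * PP G θ' ℓ' o z + _ ≤ _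
  nlinarith

lemma KK_sub_sq (h : RT G d) {θ θ' : ℝ} (hθ : Subc d θ) (hθ' : Subc d θ') {ℓ ℓ' : Slot V → ℝ}
    (hℓ' : Bd ℓ') (o z : V) :
    (KK G θ ℓ o z - KK G θ' ℓ' o z) ^ 2 ≤ (1 / ((d : ℝ) - 1)) ^ G.dist o z *
      (2 * ((1 - mag G θ ℓ o ^ 2) * PP G θ ℓ o z - (1 - mag G θ' ℓ' o ^ 2) * PP G θ' ℓ' o z) ^ 2
        + 2 * ((d : ℝ) - 1) * ((G.dist o z : ℝ) ^ 2 * (θ - θ') ^ 2 * PP G θ' ℓ' o z)) := by
  have h2 := h.two_le
  set q : ℝ := 1 / ((d : ℝ) - 1) with hq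
  set n := G.dist o z with hn
  set A := (1 - mag G θ ℓ o ^ 2) * PP G θ ℓ o z with hA
  set A' := (1 - mag G θ' ℓ' o ^ 2) * PP G θ' ℓ' o z with hA'
  have e : KK G θ ℓ o z - KK G θ' ℓ' o z = θ ^ n * (A - A') + (θ ^ n - θ' ^ n) * A' := by
    unfold KK
    rw [hA, hA']
    ring
  have p0 := PP_nonneg h hθ' hℓ' o z
  have p1 := PP_le_one h hθ' hℓ' o z
  have m1 := sq_le_one (abs_mag_le (G := G) (θ := θ') hℓ' o)
  have a0 : 0 ≤ A' := mul_nonneg (by linarith) p0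
  have a1 : A' ≤ PP G θ' ℓ' o z :=
    mul_le_of_le_one_left p0 (by linarith [sq_nonneg (mag G θ' ℓ' o)])
  have a2 : A' ^ 2 ≤ PP G θ' ℓ' o z := by nlinarith
  have t1 : (θ ^ n) ^ 2 ≤ q ^ n := by
    rw [← pow_mul, mul_comm, pow_mul]
    exact pow_le_pow_left₀ (sq_nonneg _) (hθ.sq_le_inv h) n
  have t2 := pow_sub_sq hθ.1 hθ'.1 (hθ.sq_le_inv h) (hθ'.sq_le_inv h) n
  rw [← hq] at t2
  have t3 : (θ ^ n - θ' ^ n) ^ 2 ≤ ((d : ℝ) - 1) * (q ^ n * ((n : ℝ) ^ 2 * (θ - θ') ^ 2)) := by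
    have : (θ ^ n - θ' ^ n) ^ 2 = ((d : ℝ) - 1) * (q * (θ ^ n - θ' ^ n) ^ 2) := by
      rw [hq]
      have : (d : ℝ) - 1 ≠ 0 := by linarith
      field_simp
    rw [this]
    gcongr
  have q0 : 0 ≤ q := by positivity
  have t4 : (θ ^ n * (A - A')) ^ 2 ≤ q ^ n * (A - A') ^ 2 := by
    rw [mul_pow]; gcongr
  have t5 : ((θ ^ n - θ' ^ n) * A') ^ 2 ≤
      ((d : ℝ) - 1) * (q ^ n * ((n : ℝ) ^ 2 * (θ - θ') ^ 2)) * PP G θ' ℓ' o z := by
    rw [mul_pow]; gcongr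
  rw [e]
  nlinarith [sq_nonneg (θ ^ n * (A - A') - (θ ^ n - θ' ^ n) * A')]

lemma PP_eq_exp (h : RT G d) {θ : ℝ} (hθ : Subc d θ) (ℓ : Slot V → ℝ) (o z : V)
    (hc : ∀ i ∈ Finset.range (G.dist o z), |cav G θ ℓ (geo G o z (i + 1)) (geo G o z i)| ≤ 1 / 2) :
    PP G θ ℓ o z = Real.exp (-∑ i ∈ Finset.range (G.dist o z),
      lam θ (cav G θ ℓ (geo G o z (i + 1)) (geo G o z i))) := by
  rw [← Finset.sum_neg_distrib, Real.exp_sum]
  refine Finset.prod_congr rfl fun i hi => ?_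
  have := kap_ge (hθ.sq_le h) (hc i hi)
  rw [lam, neg_neg, clip_eq (hc i hi), Real.exp_log (by linarith)]

end DiffAux

/-- Crude comparison at equal temperatures. -/
theorem exists_kd0 (h : RT G d) : ∃ C : ℝ, 0 < C ∧ ∀ θ, Subc d θ → ∀ ℓ ℓ' : Slot V → ℝ,
    Bd ℓ → Bd ℓ' → Good G θ ℓ → Good G θ ℓ' → ∀ o z : V,
    (KK G θ ℓ o z - KK G θ ℓ' o z) ^ 2 ≤ C * (θ ^ 2) ^ G.dist o z * (G.dist o z + 1) *
      ∑ i ∈ Finset.range (G.dist o z + 1),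
        (mag G θ ℓ (geo G o z i) - mag G θ ℓ' (geo G o z i)) ^ 2 := by
  obtain ⟨C, hC, H⟩ := exists_core h
  refine ⟨2 * C, by positivity, fun θ hθ ℓ ℓ' hℓ hℓ' hg hg' o z => ?_⟩
  have h1 := H θ θ hθ hθ ℓ ℓ' hℓ hℓ' hg hg' o z
  set f : ℕ → ℝ := fun i => (mag G θ ℓ (geo G o z i) - mag G θ ℓ' (geo G o z i)) ^ 2 with hf
  have f0 : ∀ i, 0 ≤ f i := fun i => sq_nonneg _
  have h2 : (mag G θ ℓ o - mag G θ ℓ' o) ^ 2 * PP G θ ℓ' o z ≤ f 0 := by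
    simp only [hf, geo_zero h]
    exact mul_le_of_le_one_right (sq_nonneg _) (PP_le_one h hθ hℓ' o z)
  have h3 : ∑ i ∈ Finset.range (G.dist o z),
      PP G θ ℓ (geo G o z i) o * PP G θ ℓ' (geo G o z (i + 1)) z *
        ((mag G θ ℓ (geo G o z i) - mag G θ ℓ' (geo G o z i)) ^ 2 +
          (mag G θ ℓ (geo G o z (i + 1)) - mag G θ ℓ' (geo G o z (i + 1))) ^ 2 +
          (θ - θ) ^ 2) ≤ ∑ i ∈ Finset.range (G.dist o z), (f i + f (i + 1)) := by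
    refine Finset.sum_le_sum fun i _ => ?_
    have t1 : PP G θ ℓ (geo G o z i) o * PP G θ ℓ' (geo G o z (i + 1)) z ≤ 1 :=
      (mul_le_of_le_one_right (PP_nonneg h hθ hℓ _ _) (PP_le_one h hθ hℓ' _ _)).trans
        (PP_le_one h hθ hℓ _ _)
    rw [sub_self θ, zero_pow two_ne_zero, add_zero]
    exact mul_le_of_le_one_left (add_nonneg (f0 i) (f0 (i + 1))) t1
  rw [Finset.sum_add_distrib] at h3
  have h4 := Finset.sum_range_succ f (G.dist o z)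
  have h5 := Finset.sum_range_succ' f (G.dist o z)
  have h6 : 0 ≤ ∑ i ∈ Finset.range (G.dist o z + 1), f i := Finset.sum_nonneg fun i _ => f0 i
  have h7 := h1.trans (mul_le_mul_of_nonneg_left (add_le_add h2 h3) hC.le)
  have h8 : f 0 + (∑ i ∈ Finset.range (G.dist o z), f i +
      ∑ i ∈ Finset.range (G.dist o z), f (i + 1)) ≤
      2 * ∑ i ∈ Finset.range (G.dist o z + 1), f i := by linarith [f0 (G.dist o z)]
  have h9 := h7.trans (mul_le_mul_of_nonneg_left h8 hC.le)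
  have e : (KK G θ ℓ o z - KK G θ ℓ' o z) ^ 2 = (θ ^ 2) ^ G.dist o z *
      ((1 - mag G θ ℓ o ^ 2) * PP G θ ℓ o z - (1 - mag G θ ℓ' o ^ 2) * PP G θ ℓ' o z) ^ 2 := by
    unfold KK
    ring
  have n1 : (1 : ℝ) ≤ G.dist o z + 1 := by linarith [Nat.cast_nonneg (α := ℝ) (G.dist o z)]
  rw [e]
  calc _ ≤ (θ ^ 2) ^ G.dist o z * (C * (2 * ∑ i ∈ Finset.range (G.dist o z + 1), f i)) :=
        mul_le_mul_of_nonneg_left h9 (by positivity)
    _ = 2 * C * (θ ^ 2) ^ G.dist o z * 1 * ∑ i ∈ Finset.range (G.dist o z + 1), f i := by ring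
    _ ≤ _ := mul_le_mul_of_nonneg_right (mul_le_mul_of_nonneg_left n1 (by positivity)) h6

/-- Telescoping comparison that keeps the damping factors of both fields. -/
theorem exists_kd1 (h : RT G d) : ∃ C : ℝ, 0 < C ∧ ∀ θ θ', Subc d θ → Subc d θ' →
    ∀ ℓ ℓ' : Slot V → ℝ, Bd ℓ → Bd ℓ' → Good G θ ℓ → Good G θ' ℓ' → ∀ o z : V,
    (KK G θ ℓ o z - KK G θ' ℓ' o z) ^ 2 ≤ C * (1 / ((d : ℝ) - 1)) ^ G.dist o z *
      ((G.dist o z : ℝ) ^ 2 * (θ - θ') ^ 2 * PP G θ' ℓ' o z +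
        (mag G θ ℓ o - mag G θ' ℓ' o) ^ 2 * PP G θ' ℓ' o z +
        ∑ i ∈ Finset.range (G.dist o z),
          PP G θ ℓ (geo G o z i) o * PP G θ' ℓ' (geo G o z (i + 1)) z *
            ((mag G θ ℓ (geo G o z i) - mag G θ' ℓ' (geo G o z i)) ^ 2 +
              (mag G θ ℓ (geo G o z (i + 1)) - mag G θ' ℓ' (geo G o z (i + 1))) ^ 2 +
              (θ - θ') ^ 2)) := by
  obtain ⟨C, hC, H⟩ := exists_core h
  have h2 := h.two_le
  refine ⟨2 * C + 2 * ((d : ℝ) - 1), by positivity,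
    fun θ θ' hθ hθ' ℓ ℓ' hℓ hℓ' hg hg' o z => ?_⟩
  have h1 := H θ θ' hθ hθ' ℓ ℓ' hℓ hℓ' hg hg' o z
  refine (KK_sub_sq h hθ hθ' hℓ' o z).trans ?_
  rw [mul_comm (2 * C + 2 * ((d : ℝ) - 1)), mul_assoc ((1 / ((d : ℝ) - 1)) ^ G.dist o z)]
  refine mul_le_mul_of_nonneg_left ?_ (pow_nonneg (by positivity) _)
  rw [add_assoc ((G.dist o z : ℝ) ^ 2 * _ * _)]
  have p0 := PP_nonneg h hθ' hℓ' o z
  have a0 : 0 ≤ (G.dist o z : ℝ) ^ 2 * (θ - θ') ^ 2 * PP G θ' ℓ' o z := by positivity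
  have b0 := nonneg_of_mul_nonneg_right ((sq_nonneg _).trans h1) hC
  nlinarith [mul_nonneg hC.le a0, mul_nonneg (by linarith : (0 : ℝ) ≤ (d : ℝ) - 1) b0]

/-- Logarithmic comparison. -/
theorem exists_kd2 (h : RT G d) : ∃ C : ℝ, 0 < C ∧ ∀ θ θ', Subc d θ → Subc d θ' →
    ∀ ℓ ℓ' : Slot V → ℝ, Bd ℓ → Bd ℓ' → ∀ o z : V,
    (KK G θ ℓ o z - KK G θ' ℓ' o z) ^ 2 ≤ C * (1 / ((d : ℝ) - 1)) ^ G.dist o z *
      ((G.dist o z : ℝ) ^ 2 * (θ - θ') ^ 2 + (mag G θ ℓ o - mag G θ' ℓ' o) ^ 2 +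
        (∑ i ∈ Finset.range (G.dist o z),
          (lam θ (cav G θ ℓ (geo G o z (i + 1)) (geo G o z i)) -
            lam θ' (cav G θ' ℓ' (geo G o z (i + 1)) (geo G o z i)))) ^ 2 +
        ∑ i ∈ Finset.range (G.dist o z),
          ((if 1 / 2 < |cav G θ ℓ (geo G o z (i + 1)) (geo G o z i)| then 1 else 0) +
            (if 1 / 2 < |cav G θ' ℓ' (geo G o z (i + 1)) (geo G o z i)| then 1 else 0))) := by
  have h2 := h.two_le
  refine ⟨16 + 2 * ((d : ℝ) - 1), by positivity, fun θ θ' hθ hθ' ℓ ℓ' hℓ hℓ' o z => ?_⟩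
  refine (KK_sub_sq h hθ hθ' hℓ' o z).trans ?_
  rw [mul_comm (16 + 2 * ((d : ℝ) - 1)), mul_assoc ((1 / ((d : ℝ) - 1)) ^ G.dist o z)]
  refine mul_le_mul_of_nonneg_left ?_ (pow_nonneg (by positivity) _)
  set L := (∑ i ∈ Finset.range (G.dist o z),
          (lam θ (cav G θ ℓ (geo G o z (i + 1)) (geo G o z i)) -
            lam θ' (cav G θ' ℓ' (geo G o z (i + 1)) (geo G o z i)))) ^ 2 with hL
  set g : ℕ → ℝ := fun i =>
    (if 1 / 2 < |cav G θ ℓ (geo G o z (i + 1)) (geo G o z i)| then 1 else 0) +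
      (if 1 / 2 < |cav G θ' ℓ' (geo G o z (i + 1)) (geo G o z i)| then 1 else 0) with hg
  have g0 : ∀ i ∈ Finset.range (G.dist o z), 0 ≤ g i := fun i _ => by
    simp only [hg]; positivity
  have L0 : 0 ≤ L := sq_nonneg _
  have I0 := Finset.sum_nonneg g0
  have p0 := PP_nonneg h hθ hℓ o z
  have p1 := PP_le_one h hθ hℓ o z
  have p0' := PP_nonneg h hθ' hℓ' o z
  have p1' := PP_le_one h hθ' hℓ' o z
  have h3 : (PP G θ ℓ o z - PP G θ' ℓ' o z) ^ 2 ≤ L + ∑ i ∈ Finset.range (G.dist o z), g i := by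
    by_cases hc : ∀ i ∈ Finset.range (G.dist o z),
        |cav G θ ℓ (geo G o z (i + 1)) (geo G o z i)| ≤ 1 / 2 ∧
          |cav G θ' ℓ' (geo G o z (i + 1)) (geo G o z i)| ≤ 1 / 2
    · rw [PP_eq_exp h hθ ℓ o z fun i hi => (hc i hi).1, PP_eq_exp h hθ' ℓ' o z fun i hi => (hc i hi).2]
      refine (exp_neg_sub (Finset.sum_nonneg fun i _ => lam_nonneg (hθ.sq_le h) _)
        (Finset.sum_nonneg fun i _ => lam_nonneg (hθ'.sq_le h) _)).trans ?_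
      rw [← Finset.sum_sub_distrib]
      linarith
    · push Not at hc
      obtain ⟨i, hi, hc⟩ := hc
      have t1 := Finset.single_le_sum g0 hi
      have t2 : 1 ≤ g i := by
        simp only [hg]
        by_cases t : |cav G θ ℓ (geo G o z (i + 1)) (geo G o z i)| ≤ 1 / 2
        · rw [if_pos (hc t), if_neg (not_lt.2 t), zero_add]
        · rw [if_pos (not_le.1 t)]
          split_ifs <;> norm_num
      nlinarith
  have m0 := sq_nonneg (mag G θ ℓ o)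
  have m1 := sq_le_one (abs_mag_le (G := G) (θ := θ) hℓ o)
  have h4 := one_sub_sq (abs_mag_le (G := G) (θ := θ) hℓ o) (abs_mag_le (G := G) (θ := θ') hℓ' o)
  have h5 : (((1 - mag G θ ℓ o ^ 2) - (1 - mag G θ' ℓ' o ^ 2)) * PP G θ' ℓ' o z) ^ 2 ≤
      4 * (mag G θ ℓ o - mag G θ' ℓ' o) ^ 2 := by
    rw [mul_pow]
    exact (mul_le_of_le_one_right (sq_nonneg _) (pow_le_one₀ p0' p1')).trans h4
  have h6 : ((1 - mag G θ ℓ o ^ 2) * (PP G θ ℓ o z - PP G θ' ℓ' o z)) ^ 2 ≤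
      L + ∑ i ∈ Finset.range (G.dist o z), g i := by
    rw [mul_pow]
    exact (mul_le_of_le_one_left (sq_nonneg _) (pow_le_one₀ (by linarith) (by linarith))).trans h3
  have h7 : ((1 - mag G θ ℓ o ^ 2) * PP G θ ℓ o z - (1 - mag G θ' ℓ' o ^ 2) * PP G θ' ℓ' o z) ^ 2
      ≤ 8 * (mag G θ ℓ o - mag G θ' ℓ' o) ^ 2
        + 2 * (L + ∑ i ∈ Finset.range (G.dist o z), g i) := by
    nlinarith [sq_nonneg (((1 - mag G θ ℓ o ^ 2) - (1 - mag G θ' ℓ' o ^ 2)) * PP G θ' ℓ' o z -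
      (1 - mag G θ ℓ o ^ 2) * (PP G θ ℓ o z - PP G θ' ℓ' o z))]
  have a0 : 0 ≤ (G.dist o z : ℝ) ^ 2 * (θ - θ') ^ 2 := by positivity
  have a1 : (G.dist o z : ℝ) ^ 2 * (θ - θ') ^ 2 * PP G θ' ℓ' o z ≤
      (G.dist o z : ℝ) ^ 2 * (θ - θ') ^ 2 := mul_le_of_le_one_right a0 p1'
  have d0 : (0 : ℝ) ≤ (d : ℝ) - 1 := by linarith
  have a2 := mul_le_mul_of_nonneg_left a1 d0
  have a3 := mul_nonneg d0 (sq_nonneg (mag G θ ℓ o - mag G θ' ℓ' o))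
  have a4 := mul_nonneg d0 L0
  have a5 := mul_nonneg d0 I0
  have a6 := sq_nonneg (mag G θ ℓ o - mag G θ' ℓ' o)
  change _ ≤ _ * (_ + ∑ i ∈ Finset.range (G.dist o z), g i)
  nlinarith

/-- The logarithmic damping of one edge, at the level `L`. -/
theorem exists_psi_sq_le (h : RT G d) : ∃ C : ℝ, 0 < C ∧ ∀ θ θ', Subc d θ → Subc d θ' →
    ∀ ℓ ℓ' : Slot V → ℝ, Bd ℓ → Bd ℓ' → Good G θ ℓ → Good G θ' ℓ' → ∀ y x : V, G.Adj y x →
    ∀ L : ℝ, 0 ≤ L →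
    (lam θ (cav G θ ℓ y x) - lam θ' (cav G θ' ℓ' y x)) ^ 2 ≤
      C * (L ^ 2 * ((mag G θ ℓ x - mag G θ' ℓ' x) ^ 2 + (mag G θ ℓ y - mag G θ' ℓ' y) ^ 2 +
          (θ - θ') ^ 2) +
        (if L < |cav G θ ℓ y x| then 1 else 0) + (if L < |cav G θ' ℓ' y x| then 1 else 0)) := by
  obtain ⟨C, hC, H⟩ := exists_edge h
  refine ⟨64 * C + 1, by positivity, fun θ θ' hθ hθ' ℓ ℓ' hℓ hℓ' hg hg' y x hyx L hL => ?_⟩
  have h1 := H θ θ' hθ hθ' ℓ ℓ' hℓ hℓ' hg hg' y x hyx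
  set M := (mag G θ ℓ x - mag G θ' ℓ' x) ^ 2 + (mag G θ ℓ y - mag G θ' ℓ' y) ^ 2 + (θ - θ') ^ 2
    with hM
  have M0 : 0 ≤ L ^ 2 * M := by positivity
  have h2 : (lam θ (cav G θ ℓ y x) - lam θ' (cav G θ' ℓ' y x)) ^ 2 ≤ 1 := by
    have := lam_nonneg (hθ.sq_le h) (cav G θ ℓ y x)
    have := lam_le_one (hθ.sq_le h) (cav G θ ℓ y x)
    have := lam_nonneg (hθ'.sq_le h) (cav G θ' ℓ' y x)
    have := lam_le_one (hθ'.sq_le h) (cav G θ' ℓ' y x)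
    nlinarith
  have CM := mul_nonneg hC.le M0
  split_ifs with t1 t2 t2
  · nlinarith
  · nlinarith
  · nlinarith
  · have h3 := abs_lam_sub_le hθ.1 hθ'.1 (hθ.sq_le h) (hθ'.sq_le h) (cav G θ ℓ y x)
      (cav G θ' ℓ' y x)
    have h4 : |lam θ (cav G θ ℓ y x) - lam θ' (cav G θ' ℓ' y x)| ≤
        8 * L * (|cav G θ ℓ y x - cav G θ' ℓ' y x| + |θ - θ'|) := by
      refine h3.trans ?_
      have : 4 * (|cav G θ ℓ y x| + |cav G θ' ℓ' y x|) ≤ 8 * L := by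
        linarith [not_lt.1 t1, not_lt.1 t2]
      gcongr
    rw [← sq_abs]
    calc _ ≤ _ := pow_le_pow_left₀ (abs_nonneg _) h4 2
      _ = 64 * L ^ 2 * (|cav G θ ℓ y x - cav G θ' ℓ' y x| + |θ - θ'|) ^ 2 := by ring
      _ ≤ 64 * L ^ 2 * (C * M) := by gcongr
      _ ≤ _ := by nlinarith

end Crest.Agent.R160

end
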