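import Crest.Agent.R160.Tail
import Crest.Agent.R160.Diff

/-!
Continuity in the temperature of the mean logarithmic damping.
-/

set_option autoImplicit false

open MeasureTheory unitInterval Filter Topology
open Crest.ProbabilityR Crest.ProbabilityR.Labels Crest.ProbabilityR.TreeIsing
open scoped Classical

noncomputable section

namespace Crest.Agent.R160

universe u

variable {V : Type u} {G : SimpleGraph V} [G.LocallyFinite] {d : ℕ}

namespace ContAux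

theorem rad_anti {s s' : ℝ} (hs : 0 < s) (h : s ≤ s') : rad s' ≤ rad s := by
  unfold rad
  refine Nat.ceil_mono ?_
  have h1 := tt_pos hs
  have h2 := tt_mono hs.le h
  exact one_div_le_one_div_of_le (Real.sqrt_pos.2 h1) (Real.sqrt_le_sqrt h2)

theorem abs_lam_le {θ : ℝ} (hθ : θ ^ 2 ≤ 1 / 2) (a : ℝ) : |lam θ a| ≤ 1 := by
  rw [abs_of_nonneg (lam_nonneg hθ a)]
  exact lam_le_one hθ a

theorem abs_le_add_sq {ε : ℝ} (hε : 0 < ε) (x : ℝ) : |x| ≤ ε + x ^ 2 / ε := by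
  rw [← sq_abs x]
  have h0 := abs_nonneg x
  generalize |x| = y at h0
  have : ε + y ^ 2 / ε - y = ((y - ε) ^ 2 + ε * y) / ε := by field_simp; ring
  have h2 : 0 ≤ ((y - ε) ^ 2 + ε * y) / ε := by positivity
  linarith

/-- Replacing the argument of `lam` by a mean square approximation. -/
theorem approx {Ω : Type*} [MeasurableSpace Ω] {μ : Measure Ω} [IsProbabilityMeasure μ] {θ ε : ℝ}
    (h0 : 0 ≤ θ) (hθ : θ ^ 2 ≤ 1 / 2) (hε : 0 < ε) {a b : Ω → ℝ} (ha : Measurable a)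
    (hb : Measurable b) (ha1 : ∀ ω, |a ω| ≤ 1) (hb1 : ∀ ω, |b ω| ≤ 1)
    (hab : ∫ ω, (a ω - b ω) ^ 2 ∂μ ≤ ε ^ 2) :
    |∫ ω, lam θ (a ω) ∂μ - ∫ ω, lam θ (b ω) ∂μ| ≤ 8 * ε := by
  have ia : Integrable (fun ω => lam θ (a ω)) μ :=
    R168.integrable_of_abs_le ((measurable_lam θ).comp ha) 1 fun ω => abs_lam_le hθ _
  have ib : Integrable (fun ω => lam θ (b ω)) μ :=
    R168.integrable_of_abs_le ((measurable_lam θ).comp hb) 1 fun ω => abs_lam_le hθ _
  have iab : Integrable (fun ω => (a ω - b ω) ^ 2) μ := by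
    refine R168.integrable_of_abs_le ((ha.sub hb).pow_const 2) 4 fun ω => ?_
    have h1 := abs_le.1 (ha1 ω)
    have h2 := abs_le.1 (hb1 ω)
    rw [abs_of_nonneg (sq_nonneg _)]
    nlinarith
  rw [← integral_sub ia ib]
  calc _ ≤ ∫ ω, |lam θ (a ω) - lam θ (b ω)| ∂μ := abs_integral_le_integral_abs
    _ ≤ ∫ ω, 4 * (ε + (a ω - b ω) ^ 2 / ε) ∂μ := by
        refine integral_mono (ia.sub ib).abs
          (((integrable_const ε).add (iab.div_const ε)).const_mul 4) fun ω => ?_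
        have h1 := abs_lam_sub_le' h0 h0 hθ hθ (a ω) (b ω)
        have h2 := abs_le_add_sq hε (a ω - b ω)
        simp only [sub_self, abs_zero, add_zero] at h1
        dsimp only
        linarith
    _ = 4 * (ε + (∫ ω, (a ω - b ω) ^ 2 ∂μ) / ε) := by
        rw [integral_const_mul, integral_add (integrable_const ε) (iab.div_const ε), integral_div]
        simp
    _ ≤ 4 * (ε + ε ^ 2 / ε) := by gcongr
    _ = 8 * ε := by field_simp; ring

omit [G.LocallyFinite] in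
theorem dependsOn_wt {J : Finset (Slot V)} {E : Set V} (hJ : ∀ z ∈ J, z.1 ∈ E) (ℓ : Slot V → ℝ) :
    DependsOn (wt J ℓ) E := by
  intro η η' hη
  unfold wt
  exact Finset.prod_congr rfl fun z hz => by rw [hη _ (hJ z hz)]

theorem post_le (h : RT G d) {θ θ' : ℝ} (hθ : Subc d θ) (hθ' : Subc d θ') (c : V) (R : ℕ)
    {J : Finset (Slot V)} (hJ : ∀ z ∈ J, z.1 ∈ (ball G c R : Set V)) {ℓ : Slot V → ℝ} (hℓ : Bd ℓ)
    {Γ : ℝ} (hΓ : (1 + 4 * |θ - θ'|) ^ ((d + 1) ^ (2 * R)) ≤ Γ) :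
    post G θ J ℓ c ≤ post G θ' J ℓ c + 2 * (Γ ^ 2 - 1) := by
  have hΓ1 : 1 ≤ Γ := (one_le_pow₀ (by have := abs_nonneg (θ - θ'); linarith)).trans hΓ
  have hc : c ∈ (ball G c R : Set V) := by simp [mem_ball h]
  have hw := dependsOn_wt hJ ℓ
  have hs : ∀ b, 0 ≤ 1 + spin b := fun b => by cases b <;> simp [spin]
  have hF0 : ∀ η : V → Bool, 0 ≤ wt J ℓ η + spin (η c) * wt J ℓ η := fun η => by
    have := mul_nonneg (hs (η c)) (wt_pos hℓ J η).le
    linarith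
  have hFd : DependsOn (fun η : V → Bool => wt J ℓ η + spin (η c) * wt J ℓ η)
      (ball G c R : Set V) := fun η η' hη => by
    dsimp only
    rw [hw hη, hη c hc]
  have e : ∀ t : ℝ, ∫ η, (wt J ℓ η + spin (η c) * wt J ℓ η) ∂(ising G t) =
      (∫ η, wt J ℓ η ∂(ising G t)) * (1 + post G t J ℓ c) := fun t => by
    have hp := PostEdgeAux.integral_wt_pos (G := G) (θ := t) hℓ J
    rw [integral_add
      (PostEdgeAux.integrable_bdd (PostEdgeAux.measurable_wt J ℓ) (PostEdgeAux.abs_wt_le hℓ J))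
      (PostEdgeAux.integrable_bdd
        (PostEdgeAux.measurable_spin_mul (PostEdgeAux.measurable_wt J ℓ) c)
        (PostEdgeAux.abs_spin_mul_le (PostEdgeAux.abs_wt_le hℓ J) c)), post]
    field_simp
  have h1 := ising_ratio h hθ hθ' c R hF0 hFd
  have h2 := ising_ratio h hθ' hθ c R (fun η => (wt_pos hℓ J η).le) hw
  rw [abs_sub_comm] at h2
  rw [e, e] at h1
  have hD := PostEdgeAux.integral_wt_pos (G := G) (θ := θ) hℓ J
  have hD' := PostEdgeAux.integral_wt_pos (G := G) (θ := θ') hℓ J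
  have hp' := abs_le.1 (abs_post_le (G := G) (θ := θ') hℓ J c)
  generalize ∫ η, wt J ℓ η ∂(ising G θ) = D at h1 h2 hD
  generalize ∫ η, wt J ℓ η ∂(ising G θ') = D' at h1 h2 hD'
  generalize post G θ J ℓ c = m at h1
  generalize post G θ' J ℓ c = m' at h1 hp'
  have hm' : 0 ≤ 1 + m' := by linarith
  have h3 : D' ≤ Γ * D := h2.trans (by gcongr)
  have h4 : D * (1 + m) ≤ D * (Γ ^ 2 * (1 + m')) :=
    calc D * (1 + m) ≤ Γ * (D' * (1 + m')) := h1.trans (by gcongr)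
      _ ≤ Γ * ((Γ * D) * (1 + m')) := by gcongr
      _ = _ := by ring
  have h5 := le_of_mul_le_mul_left h4 hD
  have h6 : 0 ≤ Γ ^ 2 - 1 := by nlinarith
  nlinarith

theorem integral_le (h : RT G d) {θ θ' : ℝ} (hθ : Subc d θ) (hθ' : Subc d θ') (c : V) (R : ℕ)
    {F : Om V → ℝ} (hF : Measurable F) (hF0 : ∀ ω, 0 ≤ F ω) (hF1 : ∀ ω, F ω ≤ 1)
    (hFl : LocOm (ball G c R : Set V) F)
    {Γ : ℝ} (hΓ : (1 + 4 * |θ - θ'|) ^ ((d + 1) ^ (2 * R)) ≤ Γ) :
    ∫ ω, F ω ∂(Pw G θ) ≤ ∫ ω, F ω ∂(Pw G θ') + (Γ - 1) := by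
  have hΓ1 : 1 ≤ Γ := (one_le_pow₀ (by have := abs_nonneg (θ - θ'); linarith)).trans hΓ
  have hb : ∀ ω, |F ω| ≤ 1 := fun ω => by rw [abs_of_nonneg (hF0 ω)]; exact hF1 ω
  have h1 := ising_ratio h hθ hθ' c R (F := IsingOmAux.av F)
    (fun η => integral_nonneg fun T => integral_nonneg fun W => hF0 _) (IsingOmAux.av_dep hFl)
  rw [← IsingOmAux.integral_Pw θ hF hb, ← IsingOmAux.integral_Pw θ' hF hb] at h1
  have h2 : 0 ≤ ∫ ω, F ω ∂(Pw G θ') := integral_nonneg hF0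
  have h3 : ∫ ω, F ω ∂(Pw G θ') ≤ 1 := (le_abs_self _).trans (IsingOmAux.abs_integral_le hb)
  have h4 : ∫ ω, F ω ∂(Pw G θ) ≤ Γ * ∫ ω, F ω ∂(Pw G θ') := h1.trans (by gcongr)
  nlinarith

theorem exists_gamma (K : ℕ) {δ : ℝ} (hδ : 0 < δ) :
    ∃ γ : ℝ, 0 < γ ∧ ∀ x, 0 ≤ x → x ≤ γ → (1 + 4 * x) ^ K ≤ 1 + δ := by
  have hc : ContinuousAt (fun x : ℝ => (1 + 4 * x) ^ K) 0 := by fun_prop
  have hev : ∀ᶠ x in 𝓝 (0 : ℝ), (1 + 4 * x) ^ K < 1 + δ :=
    hc.eventually_lt continuousAt_const (by simp [hδ])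
  obtain ⟨γ, hγ, hb⟩ := Metric.eventually_nhds_iff.1 hev
  refine ⟨γ / 2, by positivity, fun x h0 h1 => (hb ?_).le⟩
  rw [Real.dist_eq, sub_zero, abs_of_nonneg h0]
  linarith

end ContAux

open ContAux in
theorem cont (h : RT G d) {s₁ η : ℝ} (hs₁ : 0 < s₁) (hη : 0 < η) :
    ∃ γ : ℝ, 0 < γ ∧ ∀ θ θ' : ℝ, Near d θ s₁ → Near d θ' s₁ → |θ - θ'| ≤ γ →
      ∀ s, s₁ ≤ s → s ≤ 1 → ∀ u p : V, G.Adj u p →
      |∫ ω, lam θ (cav G θ (Lms Set.univ s ω) u p) ∂(Pw G θ) -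
        ∫ ω, lam θ' (cav G θ' (Lms Set.univ s ω) u p) ∂(Pw G θ')| ≤ η := by
  have hp₁ := pp_pos h.three hs₁
  obtain ⟨m, hm⟩ := exists_pow_lt_of_lt_one (x := (η / 48) ^ 2 * pp d s₁) (y := 1 - pp d s₁)
    (by positivity) (by linarith)
  set n := rad s₁ + 1 + m with hn
  obtain ⟨δ, hδ0, hδ1, hδη⟩ : ∃ δ : ℝ, 0 < δ ∧ δ ≤ 1 ∧ δ ≤ η / 75 :=
    ⟨min 1 (η / 75), by positivity, min_le_left _ _, min_le_right _ _⟩
  obtain ⟨γ, hγ, hΓ⟩ := exists_gamma ((d + 1) ^ (2 * n)) hδ0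
  refine ⟨min γ (η / 12), by positivity, fun θ θ' hθ hθ' hd s hs hs1 u p hup => ?_⟩
  have hs0 : 0 < s := hs₁.trans_le hs
  have hΓ1 := hΓ _ (abs_nonneg (θ - θ')) (hd.trans (min_le_left _ _))
  have hΓ2 := hΓ1
  rw [abs_sub_comm] at hΓ2
  have hd2 : |θ - θ'| ≤ η / 12 := hd.trans (min_le_right _ _)
  have hbd := fun ω : Om V => bd_Lms Set.univ s ω
  have hJ : ∀ z ∈ hbox G u p n, z.1 ∈ (ball G u n : Set V) := fun z hz =>
    (mem_ball h).2 ((mem_hbox h).1 hz).1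
  have hmp : ∀ t : ℝ, Measurable fun ω : Om V => post G t (hbox G u p n) (Lms Set.univ s ω) u :=
    fun t => (measurable_post _ u).comp (measurable_Lms _ s)
  have hA : ∀ t, Near d t s₁ → |∫ ω, lam t (cav G t (Lms Set.univ s ω) u p) ∂(Pw G t) -
      ∫ ω, lam t (post G t (hbox G u p n) (Lms Set.univ s ω) u) ∂(Pw G t)| ≤ 8 * (η / 48) := by
    intro t ht
    refine approx ht.1.1 (ht.1.sq_le h) (by positivity)
      ((measurable_cav u p).comp (measurable_Lms _ s)) (hmp t)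
      (fun ω => abs_cav_le (hbd ω) u p) (fun ω => abs_post_le (hbd ω) _ u) ?_
    have hr := rad_anti hs₁ hs
    have hpm := pp_mono h.three hs₁.le hs
    have hpl := pp_le h.three s
    refine (tail1 h hs0 hs1 (ht.mono h.three hs₁ hs) hup (by omega)).trans ?_
    calc (1 - pp d s) ^ (n - rad s - 1) / pp d s ≤ (1 - pp d s) ^ m / pp d s₁ := by
          have h1 : 0 ≤ 1 - pp d s := by linarith
          exact div_le_div₀ (pow_nonneg h1 _)
            (pow_le_pow_of_le_one h1 (by linarith) (by omega)) hp₁ hpm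
      _ ≤ (1 - pp d s₁) ^ m / pp d s₁ := by
          gcongr
          linarith
      _ ≤ (η / 48) ^ 2 := by
          rw [div_le_iff₀ hp₁]
          exact hm.le
  have hsq := hθ.1.sq_le h
  have hsq' := hθ'.1.sq_le h
  have hB : |∫ ω, lam θ (post G θ (hbox G u p n) (Lms Set.univ s ω) u) ∂(Pw G θ) -
      ∫ ω, lam θ' (post G θ' (hbox G u p n) (Lms Set.univ s ω) u) ∂(Pw G θ)| ≤
      4 * (6 * δ + η / 12) := by
    have hi : ∀ t, t ^ 2 ≤ 1 / 2 → Integrable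
        (fun ω => lam t (post G t (hbox G u p n) (Lms Set.univ s ω) u)) (Pw G θ) := fun t ht =>
      R168.integrable_of_abs_le ((measurable_lam t).comp (hmp t)) 1 fun ω => abs_lam_le ht _
    rw [← integral_sub (hi θ hsq) (hi θ' hsq')]
    refine IsingOmAux.abs_integral_le fun ω => ?_
    refine (abs_lam_sub_le' hθ.1.1 hθ'.1.1 hsq hsq' _ _).trans ?_
    have h1 := post_le h hθ.1 hθ'.1 u n hJ (hbd ω) hΓ1
    have h2 := post_le h hθ'.1 hθ.1 u n hJ (hbd ω) hΓ2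
    have h3 : (1 + δ) ^ 2 - 1 ≤ 3 * δ := by nlinarith
    have h4 : |post G θ (hbox G u p n) (Lms Set.univ s ω) u -
        post G θ' (hbox G u p n) (Lms Set.univ s ω) u| ≤ 6 * δ := abs_le.2 ⟨by linarith, by linarith⟩
    linarith
  have hC : |∫ ω, lam θ' (post G θ' (hbox G u p n) (Lms Set.univ s ω) u) ∂(Pw G θ) -
      ∫ ω, lam θ' (post G θ' (hbox G u p n) (Lms Set.univ s ω) u) ∂(Pw G θ')| ≤ δ := by
    have hl : LocOm (ball G u n : Set V)
        fun ω => lam θ' (post G θ' (hbox G u p n) (Lms Set.univ s ω) u) := by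
      intro ω ω' h1 h2
      dsimp only
      rw [post_congr (fun z hz => Lms_congr h1 h2 _ s z (hJ z hz))]
    have h1 := integral_le h hθ.1 hθ'.1 u n ((measurable_lam θ').comp (hmp θ'))
      (fun ω => lam_nonneg hsq' _) (fun ω => lam_le_one hsq' _) hl hΓ1
    have h2 := integral_le h hθ'.1 hθ.1 u n ((measurable_lam θ').comp (hmp θ'))
      (fun ω => lam_nonneg hsq' _) (fun ω => lam_le_one hsq' _) hl hΓ2
    simp only [Function.comp_def] at h1 h2
    exact abs_le.2 ⟨by linarith, by linarith⟩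
  have h1 := abs_le.1 (hA θ hθ)
  have h2 := abs_le.1 (hA θ' hθ')
  have h3 := abs_le.1 hB
  have h4 := abs_le.1 hC
  exact abs_le.2 ⟨by linarith, by linarith⟩

end Crest.Agent.R160

end
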