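import Crest.Agent.R160.Contr

/-!
Finite-depth approximation and tails of the cavity fields at small times.
-/

set_option autoImplicit false

open MeasureTheory unitInterval Filter Topology
open Crest.ProbabilityR Crest.ProbabilityR.Labels Crest.ProbabilityR.TreeIsing
open scoped Classical

noncomputable section

namespace Crest.Agent.R160

universe u

variable {V : Type u} {G : SimpleGraph V} [G.LocallyFinite] {d : ℕ}

variable {θ : ℝ}

namespace TailAux

theorem post_eq (h : RT G d) (D : Finset (Slot V)) (s : ℝ) (ω : Om V) (u : V) :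
    post G θ D (Lms Set.univ s ω) u =
      mag G θ (Lm (fun T => (D : Set (Slot V)) ∩ tm s T) ω) u := by
  rw [← mag_indicator h, indicator_Lms, Set.inter_univ, Lms_eq_Lm]

omit [G.LocallyFinite] in
theorem cav_eq (s : ℝ) (ω : Om V) (u p : V) :
    cav G θ (Lms Set.univ s ω) u p =
      mag G θ (Lm (fun T => vm (half G u p) ∩ tm s T) ω) u := by
  rw [cav, indicator_Lms, Set.inter_univ, Lms_eq_Lm]

omit [G.LocallyFinite] in
theorem sum_hbox (u p : V) (n : ℕ) (F : V → ℝ) :
    ∑ z ∈ hbox G u p n, F z.1 = ∑ w ∈ (ball G u n).filter (· ∈ half G u p), F w := by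
  rw [hbox, Finset.sum_product]
  simp

theorem hbox_mono (h : RT G d) (u p : V) {m n : ℕ} (hmn : m ≤ n) :
    hbox G u p m ⊆ hbox G u p n := by
  intro z hz
  rw [mem_hbox h] at hz ⊢
  exact ⟨hz.1.trans hmn, hz.2⟩

theorem incr (h : RT G d) {s : ℝ} (hs : 0 < s) (hθ : Near d θ s) {u p : V}
    (hup : G.Adj u p) {m : ℕ} (hm : rad s + 1 ≤ m) :
    ∫ ω, (mag G θ (Lm (fun T => (hbox G u p (m + 1) : Set (Slot V)) ∩ tm s T) ω) u -
      mag G θ (Lm (fun T => (hbox G u p m : Set (Slot V)) ∩ tm s T) ω) u) ^ 2 ∂(Pw G θ) ≤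
      (1 - pp d s) ^ (m - rad s - 1) := by
  have h2 := h.two_le
  have hp : 0 ≤ 1 - pp d s := by linarith [pp_le (d := d) h.three s]
  let f : ℕ → ℝ := fun n =>
    if n = m + 1 then (1 / ((d : ℝ) - 1)) ^ (m + 1) * (1 - pp d s) ^ (m - rad s - 1) else 0
  have hf : ∀ n, 0 ≤ f n := by
    intro n
    have : 0 ≤ 1 / ((d : ℝ) - 1) := div_nonneg zero_le_one (by linarith)
    simp only [f]
    split_ifs
    · positivity
    · exact le_rfl
  refine (incr_le h hθ.1 (mask_tm s).meas (hbox_mono h u p (Nat.le_succ m)) u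
    (fun z => f (G.dist u z.1)) ?_).trans ?_
  · intro z hz D hD _
    rw [Finset.mem_sdiff, mem_hbox h, mem_hbox h] at hz
    obtain ⟨⟨hz1, hz2, hz3⟩, hz4⟩ := hz
    have hdist : G.dist u z.1 = m + 1 := by
      by_contra hne
      exact hz4 ⟨by omega, hz2, hz3⟩
    have han := an_gen h hs hθ (D : Set (Slot V)) u z.1 (j := m - rad s - 1) (by omega) (by
      intro i hi1 hi2 b hb hb1 _ y hy
      refine Finset.mem_coe.2 (hD ?_)
      rw [Finset.mem_coe, mem_hbox h] at hy
      rw [mem_hbox h]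
      obtain ⟨k, rfl⟩ : ∃ k, i = k + 1 := ⟨i - 1, by omega⟩
      rw [Nat.add_sub_cancel] at hb1
      refine ⟨?_, half_geo_subset_half h hup hz2 (i := k) (by omega)
        (half_subset h hb (geo_adj h u z.1 (by omega)) hb1 hy.2.1), hy.2.2⟩
      have t1 := h.tree.connected.dist_triangle (u := u) (v := geo G u z.1 (k + 1)) (w := y.1)
      have t2 : G.dist (geo G u z.1 (k + 1)) y.1 = G.dist b y.1 + 1 := hy.2.1
      have t3 := (geo_spec h u z.1 (i := k + 1) (by omega)).1
      have t4 := hy.1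
      omega)
    have hc : 0 ≤ (1 / ((d : ℝ) - 1)) ^ (m + 1) :=
      pow_nonneg (div_nonneg zero_le_one (by linarith)) _
    simp only [f, hdist, if_true]
    refine le_trans ?_ (mul_le_mul_of_nonneg_left han hc)
    rw [← integral_const_mul]
    refine integral_mono_of_nonneg (Eventually.of_forall fun ω => ?_) ?_
      (Eventually.of_forall fun ω => ?_)
    · simp only
      split_ifs
      · exact sq_nonneg _
      · exact le_rfl
    · refine Integrable.const_mul (R168.integrable_of_abs_le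
        ((measurable_PP u z.1).comp (measurable_Lms _ s)) 1 fun ω => ?_) _
      rw [Function.comp_apply, abs_of_nonneg (PP_nonneg h hθ.1 (bd_Lms _ _ _) _ _)]
      exact PP_le_one h hθ.1 (bd_Lms _ _ _) _ _
    · simp only
      split_ifs
      · rw [← Lms_eq_Lm, ← hdist]
        exact KK_sq_le h hθ.1 (bd_Lms _ _ _) _ _
      · exact mul_nonneg hc (PP_nonneg h hθ.1 (bd_Lms _ _ _) _ _)
  · refine (Finset.sum_le_sum_of_subset_of_nonneg Finset.sdiff_subset
      fun z _ _ => hf _).trans (le_of_eq ?_)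
    rw [sum_hbox u p (m + 1) fun w => f (G.dist u w), sum_half_radial h hup,
      Finset.sum_eq_single (m + 1)]
    · simp only [f, if_true]
      rw [← mul_assoc, ← mul_pow, mul_one_div_cancel (by linarith), one_pow, one_mul]
    · intro n _ hn
      simp only [f, if_neg hn, mul_zero]
    · intro hn
      exact absurd (Finset.mem_range.2 (by omega)) hn

theorem exp_le {x b : ℝ} (hx : |x| ≤ b) (l : ℝ) :
    Real.exp (l * x) ≤ Real.cosh (l * b) + Real.sinh (l * b) / b * x := by
  rcases (abs_nonneg x).trans hx |>.eq_or_lt with hb | hb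
  · subst hb
    have : x = 0 := abs_nonpos_iff.1 hx
    simp [this]
  · have := Real.exp_mul_le_cosh_add_mul_sinh (t := x / b)
      (by rw [abs_div, abs_of_pos hb]; exact (div_le_one hb).2 hx) (l * b)
    rw [show x / b * (l * b) = l * x by field_simp] at this
    refine this.trans (le_of_eq ?_)
    ring

theorem jump_le (h : RT G d) (hθ : Subc d θ) {s : ℝ} (hs : 0 < s) (hs1 : s ≤ 1 / 2) (u : V)
    {D : Finset (Slot V)} {w : Slot V} (hw : w ∉ D) (ω : Om V) :
    |mag G θ (Lm (fun T => ((insert w D : Finset (Slot V)) : Set (Slot V)) ∩ tm s T) ω) u -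
      mag G θ (Lm (fun T => (D : Set (Slot V)) ∩ tm s T) ω) u| ≤
      2 * s ^ 7 * θ ^ G.dist u w.1 := by
  set a := (tm s ω.1).indicator (Lw ω) w with ha
  have ha1 : |a| ≤ s ^ 7 := by
    rw [ha, Set.indicator_apply]
    split_ifs with hm
    · exact (abs_Lw_le ω w).trans (epsf_le_pow hm hs.le hs1)
    · rw [abs_zero]
      positivity
  have ha2 : |a| ≤ 1 / 2 := (bd_Lw ω).indicator _ w
  have hupd : Lm (fun T => ((insert w D : Finset (Slot V)) : Set (Slot V)) ∩ tm s T) ω =
      Function.update (Lm (fun T => (D : Set (Slot V)) ∩ tm s T) ω) w a := by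
    funext z
    by_cases hz : z = w
    · subst hz
      simp [Lm, ha, Set.indicator_apply]
    · simp [Lm, Set.indicator_apply, hz]
  have hbd := bd_Lm (fun T => (D : Set (Slot V)) ∩ tm s T) ω
  rw [hupd, mag_update h hθ (J := D) hbd (fun z hz => by simp [Lm, hz]) (by simp [Lm, hw]) ha2,
    add_sub_cancel_left, abs_mul, abs_of_nonneg (KK_nonneg h hθ hbd _ _), mul_comm (2 * s ^ 7)]
  refine mul_le_mul (KK_le_pow h hθ hbd _ _) ?_ (abs_nonneg _) (pow_nonneg hθ.1 _)
  have hm := abs_mag_le (G := G) (θ := θ) hbd w.1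
  generalize mag G θ (Lm (fun T => (D : Set (Slot V)) ∩ tm s T) ω) w.1 = m at hm
  have h1 : |a * m| ≤ 1 / 2 := by
    rw [abs_mul]
    nlinarith [abs_nonneg a, abs_nonneg m]
  have h2 : 1 / 2 ≤ 1 + a * m := by linarith [neg_abs_le (a * m)]
  rw [abs_div, abs_of_pos (by linarith : 0 < 1 + a * m), div_le_iff₀ (by linarith)]
  nlinarith [pow_pos hs 7]

omit [G.LocallyFinite] in
theorem abs_exp_le (l : ℝ) {ℓ : Slot V → ℝ} (hℓ : Bd ℓ) (u : V) :
    |Real.exp (l * mag G θ ℓ u)| ≤ Real.exp |l| := by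
  rw [abs_of_pos (Real.exp_pos _)]
  refine Real.exp_le_exp.2 ((le_abs_self _).trans ?_)
  rw [abs_mul]
  exact mul_le_of_le_one_right (abs_nonneg _) (abs_mag_le hℓ u)

omit [G.LocallyFinite] in
theorem integrable_exp (l : ℝ) {A : Lb V → Set (Slot V)} (hA : Mask A) (u : V) :
    Integrable (fun ω => Real.exp (l * mag G θ (Lm A ω) u)) (Pw G θ) :=
  R168.integrable_of_abs_le
    (Real.measurable_exp.comp (((measurable_mag u).comp (measurable_Lm hA.meas)).const_mul l))
    (Real.exp |l|) fun ω => abs_exp_le l (bd_Lm A ω) u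

theorem mgf_le (h : RT G d) (hθ : Subc d θ) {s : ℝ} (hs : 0 < s) (hs1 : s ≤ 1 / 2) (u : V)
    (l : ℝ) (D : Finset (Slot V)) :
    ∫ ω, Real.exp (l * mag G θ (Lm (fun T => (D : Set (Slot V)) ∩ tm s T) ω) u) ∂(Pw G θ) ≤
      Real.exp (l ^ 2 / 2 * ∑ z ∈ D, (2 * s ^ 7 * θ ^ G.dist u z.1) ^ 2) := by
  induction D using Finset.induction_on with
  | empty =>
    have : ∀ ω : Om V, Lm (fun T => ((∅ : Finset (Slot V)) : Set (Slot V)) ∩ tm s T) ω = 0 := by
      intro ω
      funext z
      simp [Lm]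
    simp only [this, mag_zero h hθ]
    simp
  | insert w D hw ih =>
    have hA := (mask_tm (V := V) s).inter (D : Set (Slot V))
    have hA' := (mask_tm (V := V) s).inter ((insert w D : Finset (Slot V)) : Set (Slot V))
    have horth := incr_orth h hθ hA hA'
      (fun T => Set.inter_subset_inter_left _ (by simp)) u
      (g := fun q => Real.exp (l * mag G θ q.2 u))
      (Real.measurable_exp.comp (((measurable_mag u).comp measurable_snd).const_mul l))
      (C := Real.exp |l|) fun _ ℓ hℓ => abs_exp_le l hℓ u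
    set b := 2 * s ^ 7 * θ ^ G.dist u w.1 with hb
    have hi1 := integrable_exp (G := G) (θ := θ) l hA u
    have hi2 : Integrable (fun ω =>
        (mag G θ (Lm (fun T => ((insert w D : Finset (Slot V)) : Set (Slot V)) ∩ tm s T) ω) u -
          mag G θ (Lm (fun T => (D : Set (Slot V)) ∩ tm s T) ω) u) *
        Real.exp (l * mag G θ (Lm (fun T => (D : Set (Slot V)) ∩ tm s T) ω) u)) (Pw G θ) :=
      hi1.bdd_mul (c := b) (((measurable_mag u).comp (measurable_Lm hA'.meas)).sub
        ((measurable_mag u).comp (measurable_Lm hA.meas))).aestronglyMeasurable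
        (Eventually.of_forall fun ω => jump_le h hθ hs hs1 u hw ω)
    refine (integral_mono (integrable_exp l hA' u)
      ((hi1.const_mul (Real.cosh (l * b))).add (hi2.const_mul (Real.sinh (l * b) / b)))
      fun ω => ?_).trans ?_
    · have h1 := mul_le_mul_of_nonneg_right (exp_le (jump_le h hθ hs hs1 u hw ω) l)
        (Real.exp_pos (l * mag G θ (Lm (fun T => (D : Set (Slot V)) ∩ tm s T) ω) u)).le
      rw [← Real.exp_add, ← mul_add, sub_add_cancel, ← hb, add_mul, mul_assoc] at h1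
      exact h1
    · rw [integral_add' (hi1.const_mul _) (hi2.const_mul _), integral_const_mul,
        integral_const_mul, horth, mul_zero, add_zero, Finset.sum_insert hw, mul_add,
        Real.exp_add]
      refine mul_le_mul ((Real.cosh_le_exp_half_sq _).trans (le_of_eq ?_)) ih
        (integral_nonneg fun ω => (Real.exp_pos _).le) (Real.exp_pos _).le
      congr 1
      ring

end TailAux

/-- Mean square error of the depth-`n` cavity field. -/
theorem tail1 (h : RT G d) {s : ℝ} (hs : 0 < s) (hs1 : s ≤ 1) (hθ : Near d θ s) {u p : V}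
    (hup : G.Adj u p) {n : ℕ} (hn : rad s + 1 ≤ n) :
    ∫ ω, (cav G θ (Lms Set.univ s ω) u p - post G θ (hbox G u p n) (Lms Set.univ s ω) u) ^ 2
      ∂(Pw G θ) ≤ (1 - pp d s) ^ (n - rad s - 1) / pp d s := by
  have hp0 := pp_pos (d := d) h.three hs
  have hp : 0 ≤ 1 - pp d s := by linarith [pp_le (d := d) h.three s]
  have hA := (mask_tm (V := V) s).inter (vm (half G u p))
  have hB := fun m => (mask_tm (V := V) s).inter (hbox G u p m : Set (Slot V))
  let e : ℕ → ℝ := fun m =>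
    ∫ ω, mag G θ (Lm (fun T => (hbox G u p m : Set (Slot V)) ∩ tm s T) ω) u ^ 2 ∂(Pw G θ)
  have h1 : ∀ k, e (n + k) - e n ≤
      ((1 - pp d s) ^ (n - rad s - 1) - (1 - pp d s) ^ (n - rad s - 1 + k)) / pp d s := by
    intro k
    induction k with
    | zero => simp
    | succ k ih =>
      have h2 := TailAux.incr h hs hθ hup (m := n + k) (by omega)
      rw [pyth h hθ.1 (hB _) (hB _) (fun T => Set.inter_subset_inter_left _
        (Finset.coe_subset.2 (TailAux.hbox_mono h u p (Nat.le_succ _)))),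
        show n + k - rad s - 1 = n - rad s - 1 + k by omega] at h2
      have h3 : ((1 - pp d s) ^ (n - rad s - 1) - (1 - pp d s) ^ (n - rad s - 1 + (k + 1))) /
          pp d s = ((1 - pp d s) ^ (n - rad s - 1) - (1 - pp d s) ^ (n - rad s - 1 + k)) / pp d s +
            (1 - pp d s) ^ (n - rad s - 1 + k) := by
        rw [← add_assoc, pow_succ]
        field_simp
        ring
      rw [h3]
      change e (n + k + 1) - e (n + k) ≤ _ at h2
      rw [← add_assoc]
      linarith
  have h4 : ∀ m, ∫ ω, (mag G θ (Lm (fun T => vm (half G u p) ∩ tm s T) ω) u -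
      mag G θ (Lm (fun T => (hbox G u p m : Set (Slot V)) ∩ tm s T) ω) u) ^ 2 ∂(Pw G θ) =
      ∫ ω, mag G θ (Lm (fun T => vm (half G u p) ∩ tm s T) ω) u ^ 2 ∂(Pw G θ) - e m :=
    fun m => pyth h hθ.1 (hB m) hA (fun T => Set.inter_subset_inter_left _
      fun z hz => ((mem_hbox h).1 (Finset.mem_coe.1 hz)).2.1) u
  have h5 := (tendsto_box_sq h hθ.1 hA u u).add_const ((1 - pp d s) ^ (n - rad s - 1) / pp d s)
  rw [zero_add] at h5
  simp only [TailAux.post_eq h, TailAux.cav_eq]
  refine ge_of_tendsto h5 ?_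
  filter_upwards [eventually_ge_atTop n] with R hR
  have h6 : (fun T => (box G u R : Set (Slot V)) ∩ (vm (half G u p) ∩ tm s T)) =
      fun T => (hbox G u p R : Set (Slot V)) ∩ tm s T := by
    funext T
    ext z
    simp only [Set.mem_inter_iff, Finset.mem_coe, mem_box h, mem_hbox h, vm, tm,
      Set.mem_ofPred_eq, tim]
    constructor
    · rintro ⟨⟨a1, -⟩, a2, a3⟩
      refine ⟨⟨a1, a2, ?_⟩, a3⟩
      have : (z.2 : ℝ) < 1 := by linarith [(T z).2.1]
      have : z.2 < 1 := by exact_mod_cast this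
      omega
    · rintro ⟨⟨a1, a2, a3⟩, a4⟩
      exact ⟨⟨a1, by omega⟩, a2, a4⟩
  rw [h6, h4, h4]
  obtain ⟨k, rfl⟩ := Nat.exists_eq_add_of_le hR
  have h7 := h1 k
  rw [sub_div] at h7
  have h8 : 0 ≤ (1 - pp d s) ^ (n - rad s - 1 + k) / pp d s := by positivity
  linarith

/-- Sub-Gaussian tail of the depth-`n` cavity field. -/
theorem tail2 (h : RT G d) (hθ : Subc d θ) {s : ℝ} (hs : 0 < s) (hs1 : s ≤ 1 / 2) {u p : V}
    (hup : G.Adj u p) (n : ℕ) {L : ℝ} (hL : 0 ≤ L) :
    (Pw G θ).real {ω | L < |post G θ (hbox G u p n) (Lms Set.univ s ω) u|} ≤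
      2 * Real.exp (-(L ^ 2 / (8 * s ^ 14 * (n + 1)))) := by
  have hA := (mask_tm (V := V) s).inter (hbox G u p n : Set (Slot V))
  simp only [TailAux.post_eq h]
  set v : ℝ := 4 * s ^ 14 * (n + 1) with hv
  have hv0 : 0 < v := by positivity
  have hsum : ∑ z ∈ hbox G u p n, (2 * s ^ 7 * θ ^ G.dist u z.1) ^ 2 ≤ v := by
    rw [TailAux.sum_hbox u p n fun w => (2 * s ^ 7 * θ ^ G.dist u w) ^ 2,
      sum_half_radial h hup n fun k => (2 * s ^ 7 * θ ^ k) ^ 2]
    calc ∑ k ∈ Finset.range (n + 1), ((d : ℝ) - 1) ^ k * (2 * s ^ 7 * θ ^ k) ^ 2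
        ≤ ∑ k ∈ Finset.range (n + 1), 4 * s ^ 14 := by
          refine Finset.sum_le_sum fun k _ => ?_
          have h1 : (((d : ℝ) - 1) * θ ^ 2) ^ k ≤ 1 :=
            pow_le_one₀ (mul_nonneg (by linarith [h.two_le]) (sq_nonneg _)) hθ.2.le
          calc ((d : ℝ) - 1) ^ k * (2 * s ^ 7 * θ ^ k) ^ 2
              = 4 * s ^ 14 * (((d : ℝ) - 1) * θ ^ 2) ^ k := by rw [mul_pow ((d : ℝ) - 1)]; ring
            _ ≤ _ := mul_le_of_le_one_right (by positivity) h1
      _ = v := by
          rw [Finset.sum_const, Finset.card_range, nsmul_eq_mul, hv]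
          push_cast
          ring
  have hm : ∀ l : ℝ, ProbabilityTheory.mgf (fun ω => mag G θ
      (Lm (fun T => (hbox G u p n : Set (Slot V)) ∩ tm s T) ω) u) (Pw G θ) l ≤
      Real.exp (l ^ 2 / 2 * v) := fun l =>
    (TailAux.mgf_le h hθ hs hs1 u l _).trans
      (Real.exp_le_exp.2 (mul_le_mul_of_nonneg_left hsum (by positivity)))
  have hl : 0 ≤ L / v := by positivity
  have h1 := (ProbabilityTheory.measure_ge_le_exp_mul_mgf L hl
    (TailAux.integrable_exp (G := G) (θ := θ) (L / v) hA u)).trans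
    (mul_le_mul_of_nonneg_left (hm _) (Real.exp_pos _).le)
  have h2 := (ProbabilityTheory.measure_le_le_exp_mul_mgf (-L) (neg_nonpos.2 hl)
    (TailAux.integrable_exp (G := G) (θ := θ) (-(L / v)) hA u)).trans
    (mul_le_mul_of_nonneg_left (hm _) (Real.exp_pos _).le)
  have h3 : -(L ^ 2 / (8 * s ^ 14 * (n + 1))) = -(L / v) * L + (L / v) ^ 2 / 2 * v := by
    rw [show 8 * s ^ 14 * ((n : ℝ) + 1) = 2 * v by rw [hv]; ring]
    field_simp
    ring
  rw [← Real.exp_add] at h1 h2
  rw [show - -(L / v) * -L + (-(L / v)) ^ 2 / 2 * v = -(L / v) * L + (L / v) ^ 2 / 2 * v by ring]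
    at h2
  rw [h3, two_mul]
  refine le_trans ((measureReal_mono fun ω hω => ?_).trans (measureReal_union_le _ _))
    (add_le_add h1 h2)
  rw [Set.mem_ofPred_eq] at hω
  rcases lt_abs.1 hω with h4 | h4
  · exact Or.inl h4.le
  · exact Or.inr (le_neg.1 h4.le)

/-- The cavity fields are of order at most `s^2` at time `s`. -/
theorem tail3 (h : RT G d) : ∃ c C : ℝ, 0 < c ∧ 0 < C ∧ ∀ θ s : ℝ, 0 < s → s ≤ 1 / 20 →
    Near d θ s → ∀ u p : V, G.Adj u p →
    (Pw G θ).real {ω | s ^ 2 < |cav G θ (Lms Set.univ s ω) u p|} ≤ C * Real.exp (-(c / s)) := by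
  have h2 := h.two_le
  obtain ⟨a, ha⟩ : ∃ a : ℝ, a = 1 / (24000 * ((d : ℝ) - 1)) := ⟨_, rfl⟩
  have ha0 : 0 < a := by
    rw [ha]
    exact one_div_pos.2 (by linarith)
  have ha1 : a ≤ 1 / 16 := by
    rw [ha]
    exact one_div_le_one_div_of_le (by norm_num) (by linarith)
  refine ⟨a / 4, 4 / a * ((Nat.factorial 12 : ℝ) * (4 / a) ^ 12) + 2, by positivity, by positivity,
    ?_⟩
  intro θ s hs hs1 hθ u p hup
  obtain ⟨x, hx⟩ : ∃ x : ℝ, x = 1 / s := ⟨_, rfl⟩
  have hx20 : 20 ≤ x := by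
    rw [hx, le_div_iff₀ hs]
    linarith
  have hsx : s * x = 1 := by
    rw [hx]
    field_simp
  have hx0 : 0 < x := by linarith
  have hsq : s ^ 8 / 4 ≤ Real.sqrt (tt s) := by
    refine Real.le_sqrt_of_sq_le ?_
    rw [tt, min_eq_left (by linarith)]
    have : (s ^ 8 / 4) ^ 2 = s ^ 15 * (s / 16) := by ring
    rw [this]
    nlinarith [pow_pos hs 15]
  have h8 : s ^ 8 * x ^ 8 = 1 := by rw [← mul_pow, hsx, one_pow]
  have hrad : (rad s : ℝ) ≤ 8 * x ^ 8 := by
    have h1 : (rad s : ℝ) * (s ^ 8 / 4) ≤ 2 :=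
      (mul_le_mul_of_nonneg_left hsq (Nat.cast_nonneg _)).trans (rad_mul_sqrt hs).2
    have h3 := mul_le_mul_of_nonneg_right h1 (pow_pos hx0 8).le
    calc (rad s : ℝ) = 4 * ((rad s : ℝ) * (s ^ 8 / 4) * x ^ 8) := by
          linear_combination (-(rad s : ℝ)) * h8
      _ ≤ _ := by linarith
  have hpp : a * s ^ 8 ≤ pp d s := by
    rw [pp, ha, le_div_iff₀ (by linarith)]
    refine le_trans (le_of_eq ?_) hsq
    have : (d : ℝ) - 1 ≠ 0 := by linarith
    field_simp
    ring
  have hx8 : 1 ≤ x ^ 8 := one_le_pow₀ (by linarith)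
  have hx9 : 20 * x ^ 8 ≤ x ^ 9 := by
    rw [pow_succ x 8]
    nlinarith
  set n := ⌈x ^ 9⌉₊ with hn
  have hn1 : x ^ 9 ≤ n := Nat.le_ceil _
  have hn2 : (n : ℝ) + 1 ≤ 2 * x ^ 9 := by
    have := (Nat.ceil_lt_add_one (pow_pos hx0 9).le).le
    linarith
  have hn3 : rad s + 1 ≤ n := by
    have : (rad s : ℝ) + 1 ≤ n := by linarith
    exact_mod_cast this
  have hn4 : x ^ 9 / 2 ≤ ((n - rad s - 1 : ℕ) : ℝ) := by
    rw [Nat.sub_sub, Nat.cast_sub hn3]
    push_cast
    linarith
  have hp0 := pp_pos (d := d) h.three hs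
  have hp : 0 ≤ 1 - pp d s := by linarith [pp_le (d := d) h.three s]
  have t1 := tail1 h hs (by linarith) hθ hup hn3
  have t2 := tail2 h hθ.1 hs (by linarith) hup n (L := s ^ 2 / 2) (by positivity)
  have t3 : (1 - pp d s) ^ (n - rad s - 1) ≤ Real.exp (-(a / 2 * x)) := by
    calc (1 - pp d s) ^ (n - rad s - 1) ≤ Real.exp (-pp d s) ^ (n - rad s - 1) :=
          pow_le_pow_left₀ hp (by linarith [Real.add_one_le_exp (-pp d s)]) _
      _ = Real.exp (-(pp d s * (n - rad s - 1 : ℕ))) := by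
          rw [← Real.exp_nat_mul]
          congr 1
          ring
      _ ≤ _ := by
          refine Real.exp_le_exp.2 (neg_le_neg ?_)
          refine le_trans (le_of_eq ?_) (mul_le_mul hpp hn4 (by positivity) hp0.le)
          linear_combination (-(a / 2 * x)) * h8
  have t4 := mul_meas_ge_le_integral_of_nonneg (μ := Pw G θ) (f := fun ω =>
    (cav G θ (Lms Set.univ s ω) u p - post G θ (hbox G u p n) (Lms Set.univ s ω) u) ^ 2)
    (Eventually.of_forall fun ω => sq_nonneg _)
    (R168.integrable_of_abs_le ((((measurable_cav u p).comp (measurable_Lms _ s)).sub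
      ((measurable_post _ u).comp (measurable_Lms _ s))).pow_const 2) 4 fun ω => by
        have b1 := abs_le.1 (abs_cav_le (G := G) (θ := θ) (bd_Lms Set.univ s ω) u p)
        have b2 := abs_le.1 (abs_post_le (G := G) (θ := θ) (bd_Lms Set.univ s ω) (hbox G u p n) u)
        rw [abs_of_nonneg (sq_nonneg _)]
        nlinarith [b1.1, b1.2, b2.1, b2.2]) ((s ^ 2 / 2) ^ 2)
  have t5 : (Pw G θ).real {ω | (s ^ 2 / 2) ^ 2 ≤
      (cav G θ (Lms Set.univ s ω) u p - post G θ (hbox G u p n) (Lms Set.univ s ω) u) ^ 2} ≤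
      4 / a * ((Nat.factorial 12 : ℝ) * (4 / a) ^ 12) * Real.exp (-(a / 4 * x)) := by
    have b1 := t4.trans (t1.trans (div_le_div₀ (Real.exp_pos _).le t3 (by positivity) hpp))
    rw [← le_div_iff₀' (by positivity)] at b1
    refine b1.trans ?_
    have b2 := Real.pow_div_factorial_le_exp (a / 4 * x) (by positivity) 12
    rw [div_le_iff₀ (by positivity)] at b2
    have b3 : Real.exp (-(a / 2 * x)) / (a * s ^ 8) / (s ^ 2 / 2) ^ 2 =
        4 / a * (4 / a) ^ 12 * Real.exp (-(a / 2 * x)) * (a / 4 * x) ^ 12 := by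
      rw [hx]
      field_simp
      norm_num
    have b4 : Real.exp (-(a / 4 * x)) = Real.exp (-(a / 2 * x)) * Real.exp (a / 4 * x) := by
      rw [← Real.exp_add]
      congr 1
      ring
    rw [b3, b4]
    refine (mul_le_mul_of_nonneg_left b2 (by positivity)).trans (le_of_eq ?_)
    ring
  have t6 : Real.exp (-((s ^ 2 / 2) ^ 2 / (8 * s ^ 14 * (n + 1)))) ≤ Real.exp (-(a / 4 * x)) := by
    refine Real.exp_le_exp.2 (neg_le_neg ?_)
    rw [le_div_iff₀ (by positivity)]
    calc a / 4 * x * (8 * s ^ 14 * (n + 1)) ≤ 1 / 16 / 4 * x * (8 * s ^ 14 * (2 * x ^ 9)) := by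
          gcongr
      _ = (s ^ 2 / 2) ^ 2 * (s * x) ^ 10 := by ring
      _ = _ := by rw [hsx, one_pow, mul_one]
  rw [show a / 4 / s = a / 4 * x by rw [hx]; ring, add_mul]
  refine le_trans ((measureReal_mono fun ω hω => ?_).trans (measureReal_union_le _ _))
    (add_le_add t5 (t2.trans (mul_le_mul_of_nonneg_left t6 zero_le_two)))
  by_cases hpost : s ^ 2 / 2 < |post G θ (hbox G u p n) (Lms Set.univ s ω) u|
  · exact Or.inr hpost
  · refine Or.inl ?_
    have b1 := abs_sub_abs_le_abs_sub (cav G θ (Lms Set.univ s ω) u p)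
      (post G θ (hbox G u p n) (Lms Set.univ s ω) u)
    have b2 : s ^ 2 < |cav G θ (Lms Set.univ s ω) u p| := hω
    rw [Set.mem_ofPred_eq, ← sq_abs (_ - _)]
    exact pow_le_pow_left₀ (by positivity) (by linarith [not_lt.1 hpost]) 2

end Crest.Agent.R160

end
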