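import Crest.Agent.R160.Transfer
import Crest.Agent.R160.Tail
import Crest.Agent.R160.BSV

/-!
The growth rate at small times.
-/

set_option autoImplicit false

open MeasureTheory unitInterval Filter Topology
open Crest.ProbabilityR Crest.ProbabilityR.Labels Crest.ProbabilityR.TreeIsing
open scoped Classical

noncomputable section

namespace Crest.Agent.R160

universe u

variable {V : Type u} {G : SimpleGraph V} [G.LocallyFinite] {d : ℕ}

namespace Phase1Aux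

/-- An integrable function with a bound on its mean. -/
def EB (f : Lab V → ℝ) (b : ℝ) : Prop := Integrable f (Pl V) ∧ ∫ ω, f ω ∂(Pl V) ≤ b

theorem EB.add {f g : Lab V → ℝ} {a b : ℝ} (hf : EB f a) (hg : EB g b) :
    EB (fun ω => f ω + g ω) (a + b) :=
  ⟨hf.1.add hg.1, by rw [integral_add hf.1 hg.1]; exact add_le_add hf.2 hg.2⟩

theorem EB.mul {f : Lab V → ℝ} {a : ℝ} (hf : EB f a) {c : ℝ} (hc : 0 ≤ c) :
    EB (fun ω => c * f ω) (c * a) :=
  ⟨hf.1.const_mul c, by rw [integral_const_mul]; exact mul_le_mul_of_nonneg_left hf.2 hc⟩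

theorem EB.const (a : ℝ) : EB (fun _ : Lab V => a) a := ⟨integrable_const a, by simp⟩

theorem EB.sum {n : ℕ} {f : ℕ → Lab V → ℝ} {a : ℝ} (hf : ∀ i < n, EB (f i) a) :
    EB (fun ω => ∑ i ∈ Finset.range n, f i ω) (n * a) := by
  have h1 : ∀ i ∈ Finset.range n, Integrable (f i) (Pl V) :=
    fun i hi => (hf i (Finset.mem_range.1 hi)).1
  refine ⟨integrable_finsetSum _ h1, ?_⟩
  rw [integral_finsetSum _ h1]
  refine (Finset.sum_le_card_nsmul _ _ a fun i hi => (hf i (Finset.mem_range.1 hi)).2).trans ?_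
  simp

theorem EB.le {f g : Lab V → ℝ} {a : ℝ} (hf : EB f a) (h0 : ∀ ω, 0 ≤ g ω)
    (hg : ∀ᵐ ω ∂(Pl V), g ω ≤ f ω) : ∫ ω, g ω ∂(Pl V) ≤ a :=
  (integral_mono_of_nonneg (Eventually.of_forall h0) hf.1 hg).trans hf.2

theorem eb_dd (h : RT G d) {θ θ' : ℝ} (hθ : Subc d θ) (hθ' : Subc d θ') (s : ℝ) (v o : V) :
    EB (fun ω => dd G θ θ' s v ω ^ 2) (uu G θ θ' s o) := by
  refine ⟨R168.integrable_of_abs_le ((measurable_dd θ θ' s v).pow_const 2) (2 ^ 2) fun ω => ?_,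
    (uu_eq h hθ hθ' s v o).le⟩
  rw [abs_pow]
  exact pow_le_pow_left₀ (abs_nonneg _) (abs_dd_le θ θ' s v ω) 2

theorem eb_ind (h : RT G d) {θ s L τ : ℝ} (hθ : Subc d θ) (hL : s ^ 2 ≤ L) {u p : V}
    (ht : (Pw G θ).real {ω | s ^ 2 < |cav G θ (Lms Set.univ s ω) u p|} ≤ τ) :
    EB (fun ω => if L < |cav G θ (Ls G θ s ω) u p| then 1 else 0) τ := by
  have hs : MeasurableSet {ℓ : Slot V → ℝ | L < |cav G θ ℓ u p|} :=
    measurableSet_lt measurable_const (measurable_cav u p).abs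
  have hm : Measurable fun ℓ : Slot V → ℝ => if L < |cav G θ ℓ u p| then (1 : ℝ) else 0 :=
    Measurable.ite hs measurable_const measurable_const
  refine ⟨R168.integrable_of_abs_le (hm.comp (measurable_Ls s)) 1 fun ω => ?_, ?_⟩
  · split_ifs <;> simp
  · rw [integral_transfer_Ls h hθ s hm]
    have hs' : MeasurableSet {ω : Om V | L < |cav G θ (Lms Set.univ s ω) u p|} :=
      measurable_Lms Set.univ s hs
    refine le_trans (le_of_eq ?_) ((measureReal_mono (μ := Pw G θ)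
      (s₁ := {ω : Om V | L < |cav G θ (Lms Set.univ s ω) u p|})
      fun ω hω => hL.trans_lt hω).trans ht)
    rw [← integral_indicator_one hs']
    rfl

theorem eb_PP (h : RT G d) {θ s : ℝ} (hs : 0 < s) (hθ : Near d θ s) (o v : V) :
    EB (fun ω => PP G θ (Ls G θ s ω) o v) ((1 - pp d s) ^ (G.dist o v - 1)) := by
  refine ⟨R168.integrable_of_abs_le ((measurable_PP o v).comp (measurable_Ls s)) 1 fun ω => ?_, ?_⟩
  · rw [abs_of_nonneg (PP_nonneg h hθ.1 (bd_Ls s ω) o v)]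
    exact PP_le_one h hθ.1 (bd_Ls s ω) o v
  · rw [integral_transfer_Ls h hθ.1 s (measurable_PP o v)]
    exact an h hs hθ o v

theorem mag_sq_le (h : RT G d) {θ : ℝ} (hθ : Subc d θ) {ℓ : Slot V → ℝ} (hℓ : Bd ℓ)
    (hg : Good G θ ℓ) {u p : V} (hup : G.Adj u p) (s : ℝ) :
    mag G θ ℓ u ^ 2 ≤ 32 * (2 * s ^ 4 + ((if s ^ 2 < |cav G θ ℓ u p| then 1 else 0) +
      (if s ^ 2 < |cav G θ ℓ p u| then 1 else 0))) := by
  have key : ∀ a : ℝ, |a| ≤ 1 → |a| ^ 2 ≤ s ^ 4 + if s ^ 2 < |a| then 1 else 0 := by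
    intro a ha
    split_ifs with h1
    · have := pow_le_one₀ (abs_nonneg a) ha (n := 2)
      have : 0 ≤ s ^ 4 := by positivity
      linarith
    · have := pow_le_pow_left₀ (abs_nonneg a) (not_lt.1 h1) 2
      linarith
  have h1 := pow_le_pow_left₀ (abs_nonneg _) (abs_mag_le_cav h hθ hℓ hg hup) 2
  have h2 := key _ (abs_cav_le (G := G) (θ := θ) hℓ u p)
  have h3 := key _ (abs_cav_le (G := G) (θ := θ) hℓ p u)
  rw [sq_abs] at h1
  nlinarith [sq_nonneg (|cav G θ ℓ u p| - |cav G θ ℓ p u|)]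

theorem far (h : RT G d) {θ θ' s : ℝ} (hs : 0 < s) (hθ : Near d θ s) (hθ' : Near d θ' s)
    (o v : V) : ∫ ω, FF G θ θ' s o v ω ∂(Pl V) ≤
      (1 / ((d : ℝ) - 1)) ^ G.dist o v * (160 * (1 - pp d s) ^ (G.dist o v - 1)) := by
  have hw : 0 ≤ (1 / ((d : ℝ) - 1)) ^ G.dist o v := by
    have := h.two_le
    positivity
  refine ((((eb_PP h hs hθ o v).mul hw).mul (c := 16) (by norm_num)).add
    (((eb_PP h hs hθ' o v).mul hw).mul (c := 144) (by norm_num))).le (FF_nonneg θ θ' s o v)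
    (Eventually.of_forall fun ω => ?_) |>.trans (le_of_eq (by ring))
  have h1 := KK_sq_le h hθ.1 (bd_Ls (G := G) (θ := θ) s ω) o v
  have h2 := KK_sq_le h hθ'.1 (bd_Ls (G := G) (θ := θ') s ω) o v
  have h3 := pow_le_pow_left₀ (abs_nonneg _) (abs_dd_le (G := G) θ θ' s v ω) 2
  rw [sq_abs] at h3
  have h4 := mul_le_mul_of_nonneg_left h3 (sq_nonneg (KK G θ' (Ls G θ' s ω) o v))
  unfold FF
  nlinarith [sq_nonneg (KK G θ (Ls G θ s ω) o v + KK G θ' (Ls G θ' s ω) o v)]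

theorem near (h : RT G d) : ∃ C₁ C₂ : ℝ, 0 < C₁ ∧ 0 < C₂ ∧ ∀ θ θ' s η τ : ℝ, 0 < s → s ≤ 1 / 20 →
    Subc d θ → Subc d θ' →
    (∀ u p : V, G.Adj u p →
      (Pw G θ).real {ω | s ^ 2 < |cav G θ (Lms Set.univ s ω) u p|} ≤ τ) →
    (∀ u p : V, G.Adj u p →
      (Pw G θ').real {ω | s ^ 2 < |cav G θ' (Lms Set.univ s ω) u p|} ≤ τ) →
    (∀ u p : V, G.Adj u p →
      |∫ ω, lam θ (cav G θ (Lms Set.univ s ω) u p) ∂(Pw G θ) -
        ∫ ω, lam θ' (cav G θ' (Lms Set.univ s ω) u p) ∂(Pw G θ')| ≤ η) →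
    ∀ o v : V, ∫ ω, FF G θ θ' s o v ω ∂(Pl V) ≤ (1 / ((d : ℝ) - 1)) ^ G.dist o v *
      (C₁ * ((G.dist o v : ℝ) ^ 2 * (η ^ 2 + (θ - θ') ^ 2) + uu G θ θ' s o +
        G.dist o v * (C₂ * (s ^ 4 * (2 * uu G θ θ' s o + (θ - θ') ^ 2) + 2 * τ) + 2 * τ)) +
        32 * uu G θ θ' s o) := by
  obtain ⟨C₁, hC₁, kd⟩ := exists_kd2 h
  obtain ⟨C₀, hC₀, bsv⟩ := exists_bsv_path h
  obtain ⟨C₂, hC₂, psi⟩ := exists_psi_sq_le h
  refine ⟨8 * C₁, C₀ * C₂, by positivity, by positivity,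
    fun θ θ' s η τ hs hs1 hθ hθ' ht ht' hη o v => ?_⟩
  have hw : 0 ≤ (1 / ((d : ℝ) - 1)) ^ G.dist o v := by
    have := h.two_le
    positivity
  obtain ⟨f, hf⟩ : ∃ f : V → V → Lab V → ℝ, ∀ y x ω, f y x ω =
      lam θ (cav G θ (Ls G θ s ω) y x) - lam θ' (cav G θ' (Ls G θ' s ω) y x) :=
    ⟨_, fun _ _ _ => rfl⟩
  have hm0 : ∀ (t : ℝ) (y x : V), Measurable fun ω => lam t (cav G t (Ls G t s ω) y x) :=
    fun t y x => (measurable_lam t).comp ((measurable_cav y x).comp (measurable_Ls s))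
  have hm : ∀ y x, Measurable (f y x) := fun y x => by
    rw [funext (hf y x)]
    exact (hm0 θ y x).sub (hm0 θ' y x)
  have hb : ∀ y x ω, |f y x ω| ≤ 1 := fun y x ω => by
    rw [hf, abs_le]
    have := lam_nonneg (hθ.sq_le h) (cav G θ (Ls G θ s ω) y x)
    have := lam_le_one (hθ.sq_le h) (cav G θ (Ls G θ s ω) y x)
    have := lam_nonneg (hθ'.sq_le h) (cav G θ' (Ls G θ' s ω) y x)
    have := lam_le_one (hθ'.sq_le h) (cav G θ' (Ls G θ' s ω) y x)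
    constructor <;> linarith
  have h1 := bsv f hm 1 hb (fun g y x ω => by
      rw [hf, hf, Ls_act h hθ, Ls_act h hθ', cav_act h hθ, cav_act h hθ'])
    (C₂ * ((s ^ 2) ^ 2 * (uu G θ θ' s o + uu G θ θ' s o + (θ - θ') ^ 2) + τ + τ)) η
    (fun y x hyx => by
      refine ((((((eb_dd h hθ hθ' s x o).add (eb_dd h hθ hθ' s y o)).add
        (EB.const ((θ - θ') ^ 2))).mul (sq_nonneg (s ^ 2))).add
        (eb_ind h hθ le_rfl (ht y x hyx))).add (eb_ind h hθ' le_rfl (ht' y x hyx))).mul hC₂.le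
        |>.le (fun ω => sq_nonneg _) ?_
      filter_upwards [good_Ls_ae h hθ s, good_Ls_ae h hθ' s] with ω g1 g2
      rw [hf]
      exact psi θ θ' hθ hθ' _ _ (bd_Ls s ω) (bd_Ls s ω) g1 g2 y x hyx _ (sq_nonneg s))
    (fun y x hyx => by
      have i0 : ∀ t : ℝ, Subc d t →
          Integrable (fun ω => lam t (cav G t (Ls G t s ω) y x)) (Pl V) := fun t ht =>
        R168.integrable_of_abs_le (hm0 t y x) 1 fun ω => by
          rw [abs_of_nonneg (lam_nonneg (ht.sq_le h) _)]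
          exact lam_le_one (ht.sq_le h) _
      simp only [hf]
      rw [integral_sub (i0 θ hθ) (i0 θ' hθ'),
        integral_transfer_Ls h hθ s (F := fun ℓ => lam θ (cav G θ ℓ y x))
          ((measurable_lam θ).comp (measurable_cav y x)),
        integral_transfer_Ls h hθ' s (F := fun ℓ => lam θ' (cav G θ' ℓ y x))
          ((measurable_lam θ').comp (measurable_cav y x))]
      exact hη y x hyx) o v
  have h2 : EB (fun ω => (∑ i ∈ Finset.range (G.dist o v),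
      f (geo G o v (i + 1)) (geo G o v i) ω) ^ 2) _ := ⟨R168.integrable_of_abs_le
    ((Finset.measurable_sum _ fun i _ => hm _ _).pow_const 2) ((G.dist o v : ℝ) ^ 2) fun ω => by
      rw [abs_pow]
      refine pow_le_pow_left₀ (abs_nonneg _) ((Finset.abs_sum_le_sum_abs _ _).trans
        ((Finset.sum_le_card_nsmul _ _ 1 fun i _ => hb _ _ _).trans (by simp))) 2, h1⟩
  have hL : s ^ 2 ≤ 1 / 2 := by nlinarith
  have h3 := EB.sum fun i (hi : i < G.dist o v) =>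
    (eb_ind h hθ hL (ht _ _ (geo_adj h o v hi))).add (eb_ind h hθ' hL (ht' _ _ (geo_adj h o v hi)))
  refine ((((((EB.const ((G.dist o v : ℝ) ^ 2 * (θ - θ') ^ 2)).add (eb_dd h hθ hθ' s o o)).add
    h2).add h3).mul (mul_nonneg hC₁.le hw)).mul (c := 8) (by norm_num)).add
    (((eb_dd h hθ hθ' s v o).mul hw).mul (c := 32) (by norm_num)) |>.le (FF_nonneg θ θ' s o v)
    (Eventually.of_forall fun ω => ?_) |>.trans (le_of_eq (by ring))
  have a1 := kd θ θ' hθ hθ' _ _ (bd_Ls (G := G) (θ := θ) s ω) (bd_Ls (G := G) (θ := θ') s ω) o v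
  have a2 := (KK_sq_le h hθ' (bd_Ls (G := G) (θ := θ') s ω) o v).trans
    (mul_le_of_le_one_right hw (PP_le_one h hθ' (bd_Ls s ω) o v))
  have a3 := mul_le_mul_of_nonneg_right a2 (sq_nonneg (dd G θ θ' s v ω))
  simp only [hf]
  unfold FF
  rw [mul_assoc 32]
  exact add_le_add (mul_le_mul_of_nonneg_left a1 (by norm_num))
    (mul_le_mul_of_nonneg_left a3 (by norm_num))

theorem sum_split (n₀ N : ℕ) {M p : ℝ} (hM : 0 ≤ M) (hp : 0 < p) (hp1 : p ≤ 1) :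
    ∑ n ∈ Finset.range (N + 1), (if n ≤ n₀ then M else 160 * (1 - p) ^ (n - 1)) ≤
      (n₀ + 1) * M + 160 * (1 - p) ^ n₀ / p := by
  have hq : 0 ≤ 1 - p := sub_nonneg.2 hp1
  refine (Finset.sum_le_sum_of_subset_of_nonneg
    (Finset.range_subset_range.2 (by omega : N + 1 ≤ n₀ + 1 + (N + 1))) fun n _ _ => by
      split_ifs <;> positivity).trans ?_
  rw [Finset.sum_range_add]
  refine add_le_add (le_of_eq ?_) ?_
  · rw [Finset.sum_congr rfl fun n hn => if_pos (by have := Finset.mem_range.1 hn; omega)]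
    simp
  · rw [Finset.sum_congr rfl (g := fun k => 160 * (1 - p) ^ n₀ * (1 - p) ^ k) fun k _ => by
      rw [if_neg (by omega), show n₀ + 1 + k - 1 = n₀ + k by omega, pow_add, mul_assoc],
      ← Finset.mul_sum, div_eq_mul_inv]
    refine mul_le_mul_of_nonneg_left ?_ (by positivity)
    have := (hasSum_geometric_of_lt_one hq (by linarith)).summable.sum_le_tsum
      (Finset.range (N + 1)) fun k _ => pow_nonneg hq k
    rwa [tsum_geometric_of_lt_one hq (by linarith), sub_sub_cancel] at this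

theorem pp_ge (h : RT G d) {s : ℝ} (hs : 0 < s) (hs1 : s ≤ 1 / 20) :
    s ^ 8 / (24000 * ((d : ℝ) - 1)) ≤ pp d s := by
  have := h.two_le
  have h1 : s ^ 8 / 4 ≤ Real.sqrt (tt s) := by
    refine Real.le_sqrt_of_sq_le ?_
    unfold tt
    rw [min_eq_left (by linarith)]
    have : s ^ 16 ≤ s ^ 15 := pow_le_pow_of_le_one hs.le (by linarith) (by norm_num)
    have : 0 ≤ s ^ 15 := by positivity
    nlinarith
  unfold pp
  rw [div_le_div_iff₀ (by positivity) (by positivity)]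
  nlinarith

theorem exp_absorb {c s : ℝ} (hc : 0 < c) (hs : 0 < s) :
    Real.exp (-(c / s)) ≤ 384 / c ^ 4 * s ^ 4 * Real.exp (-(c / 2 / s)) := by
  have h1 := Real.pow_div_factorial_le_exp (c / 2 / s) (by positivity) 4
  have h2 : Real.exp (-(c / s)) = Real.exp (-(c / 2 / s)) / Real.exp (c / 2 / s) := by
    rw [← Real.exp_sub]
    congr 1
    ring
  rw [h2, div_le_iff₀ (Real.exp_pos _)]
  have h3 := mul_le_mul_of_nonneg_left h1
    (show 0 ≤ 384 / c ^ 4 * s ^ 4 * Real.exp (-(c / 2 / s)) by positivity)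
  refine le_trans (le_of_eq ?_) h3
  simp only [Nat.factorial]
  field_simp
  norm_num

theorem num_near {C₁ C₂ C₃ s x u E a b τ : ℝ} (h₁ : 0 < C₁) (h₂ : 0 < C₂) (h₃ : 0 < C₃)
    (hs : 0 < s) (hs1 : s ≤ 1) (hx0 : 0 ≤ x) (hx : s ^ 9 * x ≤ 2) (hu : 0 ≤ u) (hE : 0 ≤ E)
    (ha : 0 ≤ a) (hb : 0 ≤ b) (hτ0 : 0 ≤ τ) (hτ : τ ≤ C₃ * s ^ 4 * E) :
    s ^ 14 * ((x + 1) * (C₁ * (x ^ 2 * (a + b) + u + x * (C₂ * (s ^ 4 * (2 * u + b) + 2 * τ) +
      2 * τ)) + 32 * u)) ≤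
      3 * (C₁ * (5 + C₂ * (6 + 4 * C₃) + 4 * C₃) + 32) * (u + E + (a + b) / s ^ 13) := by
  obtain ⟨S, hS⟩ : ∃ S, S = u + E + (a + b) / s ^ 13 := ⟨_, rfl⟩
  have hR : 0 ≤ (a + b) / s ^ 13 := by positivity
  have hS0 : 0 ≤ S := by rw [hS]; positivity
  have p5 : s ^ 5 ≤ 1 := pow_le_one₀ hs.le hs1
  have p9 : s ^ 9 ≤ 1 := pow_le_one₀ hs.le hs1
  have p13 : s ^ 13 ≤ 1 := pow_le_one₀ hs.le hs1
  have a1 : s ^ 5 * u ≤ S := by nlinarith
  have a2 : s ^ 5 * (x ^ 2 * (a + b)) ≤ 4 * S := by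
    have c1 := pow_le_pow_left₀ (by positivity) hx 2
    calc s ^ 5 * (x ^ 2 * (a + b)) = (s ^ 9 * x) ^ 2 * ((a + b) / s ^ 13) := by field_simp
      _ ≤ 2 ^ 2 * ((a + b) / s ^ 13) := mul_le_mul_of_nonneg_right c1 hR
      _ ≤ _ := by linarith
  have a3 : s ^ 9 * x * (2 * u + b) ≤ 6 * S := by
    have c1 : b ≤ (a + b) / s ^ 13 := by
      rw [le_div_iff₀ (by positivity)]
      nlinarith
    have c2 := mul_le_mul_of_nonneg_right hx (show 0 ≤ 2 * u + b by positivity)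
    linarith
  have a4 : s ^ 5 * x * τ ≤ 2 * C₃ * S := by
    calc s ^ 5 * x * τ ≤ s ^ 5 * x * (C₃ * s ^ 4 * E) :=
          mul_le_mul_of_nonneg_left hτ (by positivity)
      _ = s ^ 9 * x * (C₃ * E) := by ring
      _ ≤ 2 * (C₃ * S) := mul_le_mul hx (mul_le_mul_of_nonneg_left (by linarith) h₃.le)
          (by positivity) (by norm_num)
      _ = _ := by ring
  have a5 : s ^ 9 * (x + 1) ≤ 3 := by linarith
  rw [← hS]
  calc _ = s ^ 9 * (x + 1) * (C₁ * (s ^ 5 * (x ^ 2 * (a + b)) + s ^ 5 * u +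
        C₂ * (s ^ 9 * x * (2 * u + b) + 2 * (s ^ 5 * x * τ)) + 2 * (s ^ 5 * x * τ)) +
        32 * (s ^ 5 * u)) := by ring
    _ ≤ 3 * (C₁ * (4 * S + S + C₂ * (6 * S + 2 * (2 * C₃ * S)) + 2 * (2 * C₃ * S)) + 32 * S) := by
        gcongr
    _ = _ := by ring

end Phase1Aux

open Phase1Aux

theorem uu_small (h : RT G d) : ∃ c C : ℝ, 0 < c ∧ 0 < C ∧ ∀ θ θ' s : ℝ, 0 < s → s ≤ 1 / 20 →
    Near d θ s → Near d θ' s → ∀ o : V,
    uu G θ θ' s o ≤ C * (s ^ 4 + Real.exp (-(c / s))) := by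
  obtain ⟨c, C, hc, hC, ht⟩ := tail3 h
  refine ⟨c, 256 * (C + 1), hc, by positivity, fun θ θ' s hs hs1 hθ hθ' o => ?_⟩
  obtain ⟨p, hp, -⟩ := exists_third h o o o
  refine ((((EB.const (2 * s ^ 4)).add ((eb_ind h hθ.1 le_rfl (ht θ s hs hs1 hθ o p hp.symm)).add
    (eb_ind h hθ.1 le_rfl (ht θ s hs hs1 hθ p o hp)))).mul (c := 64) (by norm_num)).add
    (((EB.const (2 * s ^ 4)).add ((eb_ind h hθ'.1 le_rfl (ht θ' s hs hs1 hθ' o p hp.symm)).add
    (eb_ind h hθ'.1 le_rfl (ht θ' s hs hs1 hθ' p o hp)))).mul (c := 64) (by norm_num))).le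
    (g := fun ω => dd G θ θ' s o ω ^ 2) (fun ω => sq_nonneg _) ?_ |>.trans ?_
  · filter_upwards [good_Ls_ae h hθ.1 s, good_Ls_ae h hθ'.1 s] with ω g1 g2
    have a1 := mag_sq_le h hθ.1 (bd_Ls s ω) g1 hp.symm s
    have a2 := mag_sq_le h hθ'.1 (bd_Ls s ω) g2 hp.symm s
    unfold dd
    nlinarith [sq_nonneg (mag G θ (Ls G θ s ω) o + mag G θ' (Ls G θ' s ω) o)]
  · have a1 : 0 ≤ C * s ^ 4 := by positivity
    have a2 := Real.exp_pos (-(c / s))
    nlinarith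

theorem phase1 (h : RT G d) : ∃ c C : ℝ, 0 < c ∧ 0 < C ∧ ∀ θ θ' s η : ℝ, 0 < s → s ≤ 1 / 20 →
    Near d θ s → Near d θ' s →
    (∀ u p : V, G.Adj u p →
      |∫ ω, lam θ (cav G θ (Lms Set.univ s ω) u p) ∂(Pw G θ) -
        ∫ ω, lam θ' (cav G θ' (Lms Set.univ s ω) u p) ∂(Pw G θ')| ≤ η) →
    ∀ (o : V) (N : ℕ), epsf s ^ 2 * ∑ v ∈ ball G o N, ∫ ω, FF G θ θ' s o v ω ∂(Pl V) ≤
      C * (uu G θ θ' s o + Real.exp (-(c / s)) + (η ^ 2 + (θ - θ') ^ 2) / s ^ 13) := by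
  obtain ⟨c, C, hc, hC, ht⟩ := tail3 h
  obtain ⟨C₁, C₂, hC₁, hC₂, hnear⟩ := near h
  have hd := h.two_le
  obtain ⟨D, hD⟩ : ∃ D : ℝ, D = 24000 * ((d : ℝ) - 1) := ⟨_, rfl⟩
  have hD0 : 0 < D := by rw [hD]; positivity
  obtain ⟨C₃, hC₃⟩ : ∃ C₃ : ℝ, C₃ = C * (384 / c ^ 4) := ⟨_, rfl⟩
  have hC₃0 : 0 < C₃ := by rw [hC₃]; positivity
  refine ⟨min (c / 2) (1 / D), 3 / 2 * (3 * (C₁ * (5 + C₂ * (6 + 4 * C₃) + 4 * C₃) + 32) + 160 * D),
    lt_min (by positivity) (by positivity), by positivity,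
    fun θ θ' s η hs hs1 hθ hθ' hη o N => ?_⟩
  obtain ⟨E, hE⟩ : ∃ E, E = Real.exp (-(min (c / 2) (1 / D) / s)) := ⟨_, rfl⟩
  have hE0 : 0 < E := by rw [hE]; positivity
  have hE1 : Real.exp (-(c / 2 / s)) ≤ E := by
    rw [hE]
    gcongr
    exact min_le_left _ _
  have hE2 : Real.exp (-(1 / D / s)) ≤ E := by
    rw [hE]
    gcongr
    exact min_le_right _ _
  rw [← hE, epsf_of_le hs.le (by linarith)]
  have hτ : C * Real.exp (-(c / s)) ≤ C₃ * s ^ 4 * E := by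
    refine (mul_le_mul_of_nonneg_left ((exp_absorb hc hs).trans
      (mul_le_mul_of_nonneg_left hE1 (by positivity))) hC.le).trans (le_of_eq ?_)
    rw [hC₃]
    ring
  have hτ0 : 0 ≤ C * Real.exp (-(c / s)) := by positivity
  have h1 := hnear θ θ' s η _ hs hs1 hθ.1 hθ'.1 (ht θ s hs hs1 hθ) (ht θ' s hs hs1 hθ') hη o
  have hu := uu_nonneg (G := G) θ θ' s o
  generalize C * Real.exp (-(c / s)) = τ at hτ hτ0 h1
  generalize uu G θ θ' s o = u at hu h1 ⊢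
  obtain ⟨n₀, hn₁, hn₂⟩ : ∃ n₀ : ℕ, 1 ≤ s ^ 9 * n₀ ∧ s ^ 9 * n₀ ≤ 2 := by
    refine ⟨⌈1 / s ^ 9⌉₊, ?_, ?_⟩
    · rw [← div_le_iff₀' (by positivity)]
      exact Nat.le_ceil _
    · have a1 := mul_le_mul_of_nonneg_left (Nat.ceil_lt_add_one
        (show 0 ≤ 1 / s ^ 9 by positivity)).le (show 0 ≤ s ^ 9 by positivity)
      have a2 : s ^ 9 ≤ 1 := pow_le_one₀ hs.le (by linarith)
      rw [mul_add, mul_one_div_cancel (by positivity)] at a1
      linarith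
  have hp0 := pp_pos h.three hs
  have hp1 : pp d s ≤ 1 := (pp_le h.three s).trans (by norm_num)
  have hp2 := pp_ge h hs hs1
  rw [← hD] at hp2
  obtain ⟨M, hM⟩ : ∃ M : ℝ, M = C₁ * ((n₀ : ℝ) ^ 2 * (η ^ 2 + (θ - θ') ^ 2) + u +
    n₀ * (C₂ * (s ^ 4 * (2 * u + (θ - θ') ^ 2) + 2 * τ) + 2 * τ)) + 32 * u := ⟨_, rfl⟩
  have hM0 : 0 ≤ M := by rw [hM]; positivity
  have hq : 0 ≤ 1 - pp d s := sub_nonneg.2 hp1
  have h2 : ∑ v ∈ ball G o N, ∫ ω, FF G θ θ' s o v ω ∂(Pl V) ≤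
      3 / 2 * ((n₀ + 1) * M + 160 * (1 - pp d s) ^ n₀ / pp d s) := by
    refine (Finset.sum_le_sum fun v _ => ?_).trans ((sum_ball_radial_le h o N
      (f := fun n => (1 / ((d : ℝ) - 1)) ^ n *
        if n ≤ n₀ then M else 160 * (1 - pp d s) ^ (n - 1)) fun n => ?_).trans ?_)
    · split_ifs with hv
      · refine (h1 v).trans ?_
        rw [hM]
        gcongr
      · exact far h hs hθ hθ' o v
    · split_ifs <;> positivity
    · refine mul_le_mul_of_nonneg_left (le_trans (le_of_eq (Finset.sum_congr rfl fun n _ => ?_))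
        (sum_split n₀ N hM0 hp0 hp1)) (by norm_num)
      rw [← mul_assoc, ← mul_pow, mul_one_div_cancel (by positivity), one_pow, one_mul]
  have h3 := num_near hC₁ hC₂ hC₃0 hs (by linarith) (Nat.cast_nonneg n₀) hn₂ hu hE0.le
    (sq_nonneg η) (sq_nonneg (θ - θ')) hτ0 hτ
  rw [← hM] at h3
  have h4 : s ^ 14 * (160 * (1 - pp d s) ^ n₀ / pp d s) ≤
      160 * D * (u + E + (η ^ 2 + (θ - θ') ^ 2) / s ^ 13) := by
    have a1 : (1 - pp d s) ^ n₀ ≤ E := by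
      refine (pow_le_pow_left₀ hq (Real.one_sub_le_exp_neg _) _).trans (le_trans ?_ hE2)
      rw [← Real.exp_nat_mul, Real.exp_le_exp, mul_neg, neg_le_neg_iff]
      calc 1 / D / s ≤ s ^ 9 * n₀ / D / s := by gcongr
        _ = n₀ * (s ^ 8 / D) := by field_simp
        _ ≤ _ := by gcongr
    have a2 : s ^ 14 / pp d s ≤ D := by
      rw [div_le_iff₀ hp0]
      rw [div_le_iff₀ hD0] at hp2
      have : s ^ 14 ≤ s ^ 8 := pow_le_pow_of_le_one hs.le (by linarith) (by norm_num)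
      linarith
    have a3 : 0 ≤ (η ^ 2 + (θ - θ') ^ 2) / s ^ 13 := by positivity
    calc _ = 160 * (s ^ 14 / pp d s) * (1 - pp d s) ^ n₀ := by ring
      _ ≤ 160 * D * E := by gcongr
      _ ≤ _ := by gcongr; linarith
  calc _ ≤ (s ^ 7) ^ 2 * (3 / 2 * ((n₀ + 1) * M + 160 * (1 - pp d s) ^ n₀ / pp d s)) := by gcongr
    _ = 3 / 2 * (s ^ 14 * ((n₀ + 1) * M) + s ^ 14 * (160 * (1 - pp d s) ^ n₀ / pp d s)) := by ring
    _ ≤ _ := by linarith

end Crest.Agent.R160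

end
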