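import Crest.Agent.R160.Contr

/-!
Doubly exponential tails of the truncated critical susceptibility.
-/

set_option autoImplicit false

open MeasureTheory unitInterval Filter Topology
open Crest.ProbabilityR Crest.ProbabilityR.Labels Crest.ProbabilityR.TreeIsing
open scoped Classical

noncomputable section

namespace Crest.Agent.R160

universe u

variable {V : Type u} {G : SimpleGraph V} [G.LocallyFinite] {d : ℕ}

namespace SMomAux

/-- The damped susceptibility of a half tree. -/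
def Y (G : SimpleGraph V) [G.LocallyFinite] (d : ℕ) (θ : ℝ) (ℓ : Slot V → ℝ) : ℕ → V → V → ℝ
  | 0, u, p => kap θ (cav G θ ℓ u p)
  | N + 1, u, p => kap θ (cav G θ ℓ u p) *
      (1 + 1 / ((d : ℝ) - 1) * ∑ c ∈ (G.neighborFinset u).erase p, Y G d θ ℓ N c u)

variable {θ : ℝ}

theorem Y_zero (ℓ : Slot V → ℝ) (u p : V) : Y G d θ ℓ 0 u p = kap θ (cav G θ ℓ u p) := rfl

theorem Y_succ (ℓ : Slot V → ℝ) (N : ℕ) (u p : V) : Y G d θ ℓ (N + 1) u p =
    kap θ (cav G θ ℓ u p) *
      (1 + 1 / ((d : ℝ) - 1) * ∑ c ∈ (G.neighborFinset u).erase p, Y G d θ ℓ N c u) := rfl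

theorem adj_of_mem {u c : V} (hc : c ∈ G.neighborFinset u) : G.Adj c u :=
  ((SimpleGraph.mem_neighborFinset G u c).1 hc).symm

theorem adj_of_mem_erase {u p c : V} (hc : c ∈ (G.neighborFinset u).erase p) : G.Adj c u :=
  adj_of_mem (Finset.mem_of_mem_erase hc)

theorem card_erase_real (h : RT G d) {u p : V} (hup : G.Adj u p) :
    (((G.neighborFinset u).erase p).card : ℝ) = (d : ℝ) - 1 := by
  rw [card_erase h hup, Nat.cast_sub (by have := h.three; omega), Nat.cast_one]

/-- One step of the recursion, for the terms of a half tree seen from its parent. -/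
theorem sum_step (h : RT G d) (ℓ : Slot V → ℝ) {c u : V} (hcu : G.Adj c u) (N : ℕ) :
    ∑ w ∈ (ball G c N).filter (· ∈ half G c u),
        (1 / ((d : ℝ) - 1)) ^ G.dist u w * PP G θ ℓ u w =
      1 / ((d : ℝ) - 1) * (kap θ (cav G θ ℓ c u) *
        ∑ w ∈ (ball G c N).filter (· ∈ half G c u),
          (1 / ((d : ℝ) - 1)) ^ G.dist c w * PP G θ ℓ c w) := by
  rw [Finset.mul_sum, Finset.mul_sum]
  refine Finset.sum_congr rfl fun w hw => ?_
  have hw' : w ∈ half G c u := (Finset.mem_filter.1 hw).2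
  have hd : G.dist u w = G.dist c w + 1 := hw'
  rw [PP_of_half h ℓ hcu hw', hd, pow_succ]
  ring

theorem Y_eq (h : RT G d) (ℓ : Slot V → ℝ) (N : ℕ) : ∀ {u p : V}, G.Adj u p →
    Y G d θ ℓ N u p = kap θ (cav G θ ℓ u p) *
      ∑ w ∈ (ball G u N).filter (· ∈ half G u p),
        (1 / ((d : ℝ) - 1)) ^ G.dist u w * PP G θ ℓ u w := by
  induction N with
  | zero =>
    intro u p hup
    rw [Y_zero, sum_half_zero h hup, SimpleGraph.dist_self, pow_zero, PP_self, mul_one, mul_one]
  | succ N ih =>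
    intro u p hup
    rw [Y_succ, sum_half_succ h hup, SimpleGraph.dist_self, pow_zero, PP_self, mul_one,
      Finset.mul_sum]
    congr 2
    refine Finset.sum_congr rfl fun c hc => ?_
    rw [sum_step h ℓ (adj_of_mem_erase hc), ih (adj_of_mem_erase hc)]

theorem SS_succ (h : RT G d) (ℓ : Slot V → ℝ) (N : ℕ) (o : V) :
    SS G d θ ℓ (N + 1) o =
      1 + 1 / ((d : ℝ) - 1) * ∑ c ∈ G.neighborFinset o, Y G d θ ℓ N c o := by
  unfold SS
  rw [sum_ball_succ h, SimpleGraph.dist_self, pow_zero, PP_self, mul_one, Finset.mul_sum]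
  congr 1
  refine Finset.sum_congr rfl fun c hc => ?_
  rw [sum_step h ℓ (adj_of_mem hc), Y_eq h ℓ N (adj_of_mem hc)]

theorem zeta_nonneg (h : RT G d) (hθ : Subc d θ) {ℓ : Slot V → ℝ} (hℓ : Bd ℓ) (u p : V) :
    0 ≤ kap θ (cav G θ ℓ u p) := kap_nonneg (Subc.sq_le h hθ) (abs_cav_le hℓ u p)

theorem zeta_le_one (h : RT G d) (hθ : Subc d θ) {ℓ : Slot V → ℝ} (hℓ : Bd ℓ) (u p : V) :
    kap θ (cav G θ ℓ u p) ≤ 1 := kap_le_one (Subc.sq_le h hθ) (abs_cav_le hℓ u p)

theorem Y_nonneg (h : RT G d) (hθ : Subc d θ) {ℓ : Slot V → ℝ} (hℓ : Bd ℓ) (N : ℕ) :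
    ∀ u p : V, 0 ≤ Y G d θ ℓ N u p := by
  have h2 := h.two_le
  induction N with
  | zero => intro u p; exact zeta_nonneg h hθ hℓ u p
  | succ N ih =>
    intro u p
    rw [Y_succ]
    refine mul_nonneg (zeta_nonneg h hθ hℓ u p) (add_nonneg zero_le_one (mul_nonneg ?_ ?_))
    · exact div_nonneg zero_le_one (by linarith)
    · exact Finset.sum_nonneg fun c _ => ih c u

theorem Y_succ_le (h : RT G d) (hθ : Subc d θ) {ℓ : Slot V → ℝ} (hℓ : Bd ℓ) (N : ℕ) (u p : V) :
    Y G d θ ℓ (N + 1) u p ≤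
      1 + 1 / ((d : ℝ) - 1) * ∑ c ∈ (G.neighborFinset u).erase p, Y G d θ ℓ N c u := by
  have h2 := h.two_le
  rw [Y_succ]
  refine mul_le_of_le_one_left (add_nonneg zero_le_one (mul_nonneg ?_ ?_))
    (zeta_le_one h hθ hℓ u p)
  · exact div_nonneg zero_le_one (by linarith)
  · exact Finset.sum_nonneg fun c _ => Y_nonneg h hθ hℓ N c u

theorem Y_le (h : RT G d) (hθ : Subc d θ) {ℓ : Slot V → ℝ} (hℓ : Bd ℓ) (N : ℕ) :
    ∀ {u p : V}, G.Adj u p → Y G d θ ℓ N u p ≤ N + 1 := by
  have h2 := h.two_le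
  induction N with
  | zero =>
    intro u p _
    rw [Y_zero]
    simpa using zeta_le_one h hθ hℓ u p
  | succ N ih =>
    intro u p hup
    refine (Y_succ_le h hθ hℓ N u p).trans ?_
    have h1 : ∑ c ∈ (G.neighborFinset u).erase p, Y G d θ ℓ N c u ≤ ((d : ℝ) - 1) * (N + 1) := by
      have := Finset.sum_le_card_nsmul ((G.neighborFinset u).erase p)
        (fun c => Y G d θ ℓ N c u) ((N : ℝ) + 1) (fun c hc => ih (adj_of_mem_erase hc))
      rwa [nsmul_eq_mul, card_erase_real h hup] at this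
    have h3 : 1 / ((d : ℝ) - 1) * ∑ c ∈ (G.neighborFinset u).erase p, Y G d θ ℓ N c u ≤
        (N : ℝ) + 1 := by
      rw [one_div, inv_mul_le_iff₀ (by linarith)]
      exact h1
    push_cast
    linarith

theorem measurable_Y [Countable V] (N : ℕ) :
    ∀ u p : V, Measurable (fun ℓ : Slot V → ℝ => Y G d θ ℓ N u p) := by
  induction N with
  | zero => intro u p; exact (measurable_kap θ).comp (measurable_cav u p)
  | succ N ih =>
    intro u p
    simp only [Y_succ]
    refine ((measurable_kap θ).comp (measurable_cav u p)).mul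
      (measurable_const.add (measurable_const.mul ?_))
    exact Finset.measurable_sum _ fun c _ => ih c u

theorem Y_neg (h : RT G d) (hθ : Subc d θ) {ℓ : Slot V → ℝ} (hℓ : Bd ℓ) (N : ℕ) :
    ∀ u p : V, Y G d θ (-ℓ) N u p = Y G d θ ℓ N u p := by
  induction N with
  | zero => intro u p; rw [Y_zero, Y_zero, cav_neg h hθ hℓ, kap_neg]
  | succ N ih =>
    intro u p
    rw [Y_succ, Y_succ, cav_neg h hθ hℓ, kap_neg]
    simp only [ih]

theorem Y_congr (h : RT G d) {ℓ ℓ' : Slot V → ℝ} (N : ℕ) : ∀ {u p : V}, G.Adj u p →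
    (∀ z : Slot V, z.1 ∈ half G u p → ℓ z = ℓ' z) → Y G d θ ℓ N u p = Y G d θ ℓ' N u p := by
  induction N with
  | zero => intro u p _ hℓ; rw [Y_zero, Y_zero, cav_congr hℓ]
  | succ N ih =>
    intro u p hup hℓ
    rw [Y_succ, Y_succ, cav_congr hℓ]
    congr 3
    refine Finset.sum_congr rfl fun c hc => ?_
    refine ih (adj_of_mem_erase hc) fun z hz => hℓ z ?_
    exact half_subset h (adj_of_mem_erase hc) hup (Finset.ne_of_mem_erase hc) hz

/-- The exponential of the damped susceptibility in the weak model. -/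
def E (G : SimpleGraph V) [G.LocallyFinite] (d : ℕ) (θ s t : ℝ) (N : ℕ) (u p : V) (ω : Om V) : ℝ :=
  Real.exp (t * Y G d θ (Lms Set.univ s ω) N u p)

theorem measurable_E [Countable V] (s t : ℝ) (N : ℕ) (u p : V) :
    Measurable (E G d θ s t N u p) :=
  Real.measurable_exp.comp
    (measurable_const.mul ((measurable_Y N u p).comp (measurable_Lms Set.univ s)))

theorem E_pos (s t : ℝ) (N : ℕ) (u p : V) (ω : Om V) : 0 < E G d θ s t N u p ω := Real.exp_pos _

theorem one_le_E (h : RT G d) (hθ : Subc d θ) (s : ℝ) {t : ℝ} (ht : 0 ≤ t) (N : ℕ) (u p : V)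
    (ω : Om V) : 1 ≤ E G d θ s t N u p ω :=
  Real.one_le_exp (mul_nonneg ht (Y_nonneg h hθ (bd_Lms _ _ _) N u p))

theorem E_le (h : RT G d) (hθ : Subc d θ) (s : ℝ) {t : ℝ} (ht : 0 ≤ t) (N : ℕ) {u p : V}
    (hup : G.Adj u p) (ω : Om V) : E G d θ s t N u p ω ≤ Real.exp (t * (N + 1)) :=
  Real.exp_le_exp.2 (mul_le_mul_of_nonneg_left (Y_le h hθ (bd_Lms _ _ _) N hup) ht)

theorem abs_E_le (h : RT G d) (hθ : Subc d θ) (s : ℝ) {t : ℝ} (ht : 0 ≤ t) (N : ℕ) {u p : V}
    (hup : G.Adj u p) (ω : Om V) : |E G d θ s t N u p ω| ≤ Real.exp (t * (N + 1)) := by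
  rw [abs_of_pos (E_pos s t N u p ω)]
  exact E_le h hθ s ht N hup ω

theorem integrable_E (h : RT G d) (hθ : Subc d θ) (s : ℝ) {t : ℝ} (ht : 0 ≤ t) (N : ℕ) {u p : V}
    (hup : G.Adj u p) : Integrable (E G d θ s t N u p) (Pw G θ) := by
  have := h.countable
  exact R168.integrable_of_abs_le (measurable_E s t N u p) _ (abs_E_le h hθ s ht N hup)

theorem E_flip (h : RT G d) (hθ : Subc d θ) (s t : ℝ) (N : ℕ) (u p : V) (ω : Om V) :
    E G d θ s t N u p (flipO ω) = E G d θ s t N u p ω := by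
  unfold E
  rw [Lms_flipO, Y_neg h hθ (bd_Lms _ _ _)]

theorem E_loc (h : RT G d) (s t : ℝ) (N : ℕ) {u p : V} (hup : G.Adj u p) :
    LocOm (half G u p) (E G d θ s t N u p) := by
  intro ω ω' h1 h2
  unfold E
  rw [Y_congr h N hup fun z hz => Lms_congr h1 h2 Set.univ s z hz]

/-- The product formula. -/
theorem integral_prod_le (h : RT G d) (hθ : Subc d θ) (s : ℝ) {t : ℝ} (ht : 0 ≤ t) (N : ℕ)
    (u : V) (C : Finset V) (hC : ∀ c ∈ C, G.Adj c u) {b : ℝ}
    (hb : ∀ c ∈ C, ∫ ω, E G d θ s t N c u ω ∂(Pw G θ) ≤ Real.exp b) :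
    Integrable (fun ω => ∏ c ∈ C, E G d θ s t N c u ω) (Pw G θ) ∧
    ∫ ω, ∏ c ∈ C, E G d θ s t N c u ω ∂(Pw G θ) ≤ Real.exp (C.card * b) := by
  have := h.countable
  constructor
  · refine R168.integrable_of_abs_le
      (Finset.measurable_prod _ fun c _ => measurable_E s t N c u)
      (Real.exp (t * (N + 1)) ^ C.card) fun ω => ?_
    rw [Finset.abs_prod, ← Finset.prod_const]
    exact Finset.prod_le_prod (fun c _ => abs_nonneg _) fun c hc => abs_E_le h hθ s ht N (hC c hc) ω
  · rw [prod_om_even h hθ.1 ((Subc.le h hθ).trans (by norm_num)) u C hC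
      (fun c => E G d θ s t N c u) (fun c _ => measurable_E s t N c u)
      (fun c hc => abs_E_le h hθ s ht N (hC c hc)) (fun c hc => E_loc h s t N (hC c hc))
      (fun c _ => E_flip h hθ s t N c u), Real.exp_nat_mul, ← Finset.prod_const]
    exact Finset.prod_le_prod (fun c _ => integral_nonneg fun ω => (E_pos s t N c u ω).le) hb

theorem exp_mul_le {z a : ℝ} (h0 : 0 ≤ z) (h1 : z ≤ 1) :
    Real.exp (z * a) ≤ 1 + z * (Real.exp a - 1) := by
  have := convexOn_exp.2 (Set.mem_univ a) (Set.mem_univ 0) h0 (sub_nonneg.2 h1)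
    (by ring : z + (1 - z) = 1)
  simp only [smul_eq_mul, mul_zero, add_zero, Real.exp_zero, mul_one] at this
  linarith

theorem rate_le {p : ℝ} (h0 : 0 < p) (h1 : p ≤ 1 / 2) :
    1 + (1 - p) * (Real.exp (p / 2) * 4 - 1) ≤ 4 := by
  have h2 : Real.exp (p / 2) * (1 - p / 2) ≤ 1 := by
    have := Real.add_one_le_exp (-(p / 2))
    have h3 : Real.exp (p / 2) * Real.exp (-(p / 2)) = 1 := by
      rw [← Real.exp_add, add_neg_cancel, Real.exp_zero]
    have h4 := Real.exp_pos (p / 2)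
    nlinarith
  have h4 := Real.exp_pos (p / 2)
  have h5 : Real.exp (p / 2) * (1 - p) ≤ 1 - p / 4 := by
    have h6 : 1 ≤ Real.exp (p / 2) := Real.one_le_exp (by linarith)
    nlinarith
  nlinarith

/-- The first exponential moment. -/
theorem moment_zero (h : RT G d) {s : ℝ} (hs : 0 < s) (hθ : Near d θ s) (N : ℕ) :
    ∀ {u p : V}, G.Adj u p → ∫ ω, E G d θ s (pp d s / 2) N u p ω ∂(Pw G θ) ≤ 4 := by
  have := h.countable
  have hp0 := pp_pos h.three hs
  have hp1 := pp_le h.three s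
  have h2 := h.two_le
  have ht : 0 ≤ pp d s / 2 := by linarith
  induction N with
  | zero =>
    intro u p hup
    have h1 : ∫ ω, E G d θ s (pp d s / 2) 0 u p ω ∂(Pw G θ) ≤ ∫ _ω, (4 : ℝ) ∂(Pw G θ) := by
      refine integral_mono (integrable_E h hθ.1 s ht 0 hup) (integrable_const _) fun ω => ?_
      refine (E_le h hθ.1 s ht 0 hup ω).trans ?_
      have h3 : Real.exp (pp d s / 2 * ((0 : ℕ) + 1)) ≤ Real.exp 1 :=
        Real.exp_le_exp.2 (by push_cast; linarith)
      have h4 := Real.exp_one_lt_d9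
      show _ ≤ (4 : ℝ)
      linarith
    simpa using h1
  | succ N ih =>
    intro u p hup
    set C := (G.neighborFinset u).erase p with hCdef
    have hcard : (C.card : ℝ) = (d : ℝ) - 1 := card_erase_real h hup
    set w : ℝ := 1 / ((d : ℝ) - 1) with hw
    have hw0 : 0 ≤ w := div_nonneg zero_le_one (by linarith)
    have hw1 : ∑ _c ∈ C, w = 1 := by
      rw [Finset.sum_const, nsmul_eq_mul, hcard, hw]
      field_simp
    -- the functional of the half tree at `c`
    set X : V → Om V → ℝ := fun c ω =>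
      Real.exp (pp d s / 2) * E G d θ s (pp d s / 2) N c u ω - 1 with hX
    have hXm : ∀ c, Measurable (X c) := fun c =>
      (measurable_const.mul (measurable_E s _ N c u)).sub measurable_const
    have hX0 : ∀ c ω, 0 ≤ X c ω := fun c ω => by
      have h3 := one_le_E h hθ.1 s ht N c u ω
      have h4 : 1 ≤ Real.exp (pp d s / 2) := Real.one_le_exp ht
      show 0 ≤ Real.exp (pp d s / 2) * E G d θ s (pp d s / 2) N c u ω - 1
      nlinarith
    have hXC : ∀ c ∈ C, ∀ ω,
        X c ω ≤ Real.exp (pp d s / 2) * Real.exp (pp d s / 2 * (N + 1)) := fun c hc ω => by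
      have h3 := mul_le_mul_of_nonneg_left (E_le h hθ.1 s ht N (adj_of_mem_erase hc) ω)
        (Real.exp_pos (pp d s / 2)).le
      show Real.exp (pp d s / 2) * E G d θ s (pp d s / 2) N c u ω - 1 ≤ _
      linarith
    have hXl : ∀ c ∈ C, LocOm (half G c u) (X c) := fun c hc ω ω' h1 h2 => by
      show Real.exp (pp d s / 2) * E G d θ s (pp d s / 2) N c u ω - 1 =
        Real.exp (pp d s / 2) * E G d θ s (pp d s / 2) N c u ω' - 1
      rw [E_loc h s _ N (adj_of_mem_erase hc) ω ω' h1 h2]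
    have hzm : Measurable (fun ω : Om V => kap θ (cav G θ (Lms Set.univ s ω) u p)) :=
      (measurable_kap θ).comp ((measurable_cav u p).comp (measurable_Lms Set.univ s))
    have hint : ∀ c ∈ C, Integrable
        (fun ω => kap θ (cav G θ (Lms Set.univ s ω) u p) * X c ω) (Pw G θ) := fun c hc => by
      refine R168.integrable_of_abs_le (hzm.mul (hXm c))
        (Real.exp (pp d s / 2) * Real.exp (pp d s / 2 * (N + 1))) fun ω => ?_
      have h3 := zeta_nonneg h hθ.1 (bd_Lms Set.univ s ω) u p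
      have h4 := zeta_le_one h hθ.1 (bd_Lms Set.univ s ω) u p
      rw [abs_of_nonneg (mul_nonneg h3 (hX0 c ω))]
      exact (mul_le_of_le_one_left (hX0 c ω) h4).trans (hXC c hc ω)
    have hc1 : ∀ c ∈ C, ∫ ω, kap θ (cav G θ (Lms Set.univ s ω) u p) * X c ω ∂(Pw G θ) ≤ 3 := by
      intro c hc
      have h3 := contr_pp h hs hθ Set.univ hup (adj_of_mem_erase hc) (Finset.ne_of_mem_erase hc)
        (fun _ _ _ _ => Set.subset_univ _) (hXm c) (hX0 c) (hXC c hc) (hXl c hc)
      have h4 : ∫ ω, X c ω ∂(Pw G θ) ≤ Real.exp (pp d s / 2) * 4 - 1 := by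
        show ∫ ω, (Real.exp (pp d s / 2) * E G d θ s (pp d s / 2) N c u ω - 1) ∂(Pw G θ) ≤ _
        rw [integral_sub ((integrable_E h hθ.1 s ht N (adj_of_mem_erase hc)).const_mul _)
          (integrable_const _), integral_const_mul]
        have h5 := mul_le_mul_of_nonneg_left (ih (adj_of_mem_erase hc))
          (Real.exp_pos (pp d s / 2)).le
        simp only [integral_const, probReal_univ, smul_eq_mul, mul_one]
        linarith
      have h5 := mul_le_mul_of_nonneg_left h4 (show 0 ≤ 1 - pp d s by linarith)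
      have h6 := rate_le hp0 hp1
      linarith
    have hpt : ∀ ω, E G d θ s (pp d s / 2) (N + 1) u p ω ≤
        1 + w * ∑ c ∈ C, kap θ (cav G θ (Lms Set.univ s ω) u p) * X c ω := by
      intro ω
      have h3 := zeta_nonneg h hθ.1 (bd_Lms Set.univ s ω) u p
      have h4 := zeta_le_one h hθ.1 (bd_Lms Set.univ s ω) u p
      set z := kap θ (cav G θ (Lms Set.univ s ω) u p) with hz
      have hJ := convexOn_exp.map_sum_le (t := C) (w := fun _ => w)
        (p := fun c => z * (pp d s / 2 + pp d s / 2 * Y G d θ (Lms Set.univ s ω) N c u))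
        (fun _ _ => hw0) hw1 (fun _ _ => Set.mem_univ _)
      simp only [smul_eq_mul] at hJ
      have he : pp d s / 2 * Y G d θ (Lms Set.univ s ω) (N + 1) u p =
          ∑ c ∈ C, w * (z * (pp d s / 2 + pp d s / 2 * Y G d θ (Lms Set.univ s ω) N c u)) := by
        rw [Y_succ, ← hz, ← hCdef, ← hw]
        have h5 : ∑ c ∈ C, w * (z * (pp d s / 2 + pp d s / 2 * Y G d θ (Lms Set.univ s ω) N c u)) =
            z * (pp d s / 2) * ∑ _c ∈ C, w +
              z * (pp d s / 2) * (w * ∑ c ∈ C, Y G d θ (Lms Set.univ s ω) N c u) := by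
          rw [Finset.mul_sum, Finset.mul_sum, Finset.mul_sum, ← Finset.sum_add_distrib]
          exact Finset.sum_congr rfl fun c _ => by ring
        rw [h5, hw1]
        ring
      unfold E
      rw [he]
      refine hJ.trans ?_
      have h5 : 1 + w * ∑ c ∈ C, z * X c ω = ∑ c ∈ C, w * (1 + z * X c ω) := by
        simp only [mul_add, mul_one]
        rw [Finset.sum_add_distrib, hw1, Finset.mul_sum]
      rw [h5]
      refine Finset.sum_le_sum fun c _ => mul_le_mul_of_nonneg_left ?_ hw0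
      refine (exp_mul_le h3 h4).trans (le_of_eq ?_)
      rw [Real.exp_add]
      rfl
    have hsum : Integrable (fun ω => ∑ c ∈ C, kap θ (cav G θ (Lms Set.univ s ω) u p) * X c ω)
        (Pw G θ) := integrable_finsetSum _ hint
    refine (integral_mono (integrable_E h hθ.1 s ht (N + 1) hup)
      ((integrable_const _).add (hsum.const_mul w)) hpt).trans ?_
    simp only [Pi.add_apply]
    rw [integral_add (integrable_const _) (hsum.const_mul w), integral_const_mul,
      integral_finsetSum _ hint]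
    have h3 : w * ∑ c ∈ C, ∫ ω, kap θ (cav G θ (Lms Set.univ s ω) u p) * X c ω ∂(Pw G θ) ≤ 3 := by
      have h4 : w * ∑ c ∈ C, ∫ ω, kap θ (cav G θ (Lms Set.univ s ω) u p) * X c ω ∂(Pw G θ) ≤
          w * ∑ _c ∈ C, (3 : ℝ) := mul_le_mul_of_nonneg_left (Finset.sum_le_sum hc1) hw0
      have h5 : w * ∑ _c ∈ C, (3 : ℝ) = (∑ _c ∈ C, w) * 3 := by
        rw [Finset.mul_sum, Finset.sum_mul]
      rw [h5, hw1] at h4
      linarith
    simp only [integral_const, probReal_univ, smul_eq_mul, mul_one]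
    linarith

theorem exp_sum_eq (h : RT G d) (s t : ℝ) (N : ℕ) (u : V) (C : Finset V) (ω : Om V) :
    Real.exp (((d : ℝ) - 1) * t *
        (1 + 1 / ((d : ℝ) - 1) * ∑ c ∈ C, Y G d θ (Lms Set.univ s ω) N c u)) =
      Real.exp (((d : ℝ) - 1) * t) * ∏ c ∈ C, E G d θ s t N c u ω := by
  have h2 := h.two_le
  unfold E
  rw [← Real.exp_sum, ← Real.exp_add, ← Finset.mul_sum]
  congr 1
  have : (d : ℝ) - 1 ≠ 0 := by linarith
  field_simp

/-- The higher exponential moments. -/
theorem moment (h : RT G d) {s : ℝ} (hs : 0 < s) (hθ : Near d θ s) (j : ℕ) :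
    ∀ (N : ℕ) {u p : V}, G.Adj u p →
      ∫ ω, E G d θ s (((d : ℝ) - 1) ^ j * (pp d s / 2)) N u p ω ∂(Pw G θ) ≤
        Real.exp (((d : ℝ) - 1) ^ j * (j * (pp d s / 2) + 2)) := by
  have hp0 := pp_pos h.three hs
  have h2 := h.two_le
  have hD : ∀ i : ℕ, 0 < ((d : ℝ) - 1) ^ i := fun i => pow_pos (by linarith) i
  have ht : ∀ i : ℕ, 0 ≤ ((d : ℝ) - 1) ^ i * (pp d s / 2) := fun i =>
    mul_nonneg (hD i).le (by linarith)
  induction j with
  | zero =>
    intro N u p hup
    simp only [pow_zero, one_mul, Nat.cast_zero, zero_mul, zero_add]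
    refine (moment_zero h hs hθ N hup).trans ?_
    have := Real.quadratic_le_exp_of_nonneg (x := 2) (by norm_num)
    linarith
  | succ j ih =>
    intro N u p hup
    cases N with
    | zero =>
      have h1 : ∫ ω, E G d θ s (((d : ℝ) - 1) ^ (j + 1) * (pp d s / 2)) 0 u p ω ∂(Pw G θ) ≤
          ∫ _ω, Real.exp (((d : ℝ) - 1) ^ (j + 1) * (((j + 1 : ℕ) : ℝ) * (pp d s / 2) + 2))
            ∂(Pw G θ) := by
        refine integral_mono (integrable_E h hθ.1 s (ht _) 0 hup) (integrable_const _) fun ω => ?_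
        refine (E_le h hθ.1 s (ht _) 0 hup ω).trans (Real.exp_le_exp.2 ?_)
        rw [mul_assoc]
        refine mul_le_mul_of_nonneg_left ?_ (hD _).le
        have : (0 : ℝ) ≤ j * (pp d s / 2) := mul_nonneg (Nat.cast_nonneg j) (by linarith)
        push_cast
        linarith
      simpa using h1
    | succ N =>
      obtain ⟨hi, hle⟩ := integral_prod_le h hθ.1 s (ht j) N u ((G.neighborFinset u).erase p)
        (fun c hc => adj_of_mem_erase hc) (fun c hc => ih N (adj_of_mem_erase hc))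
      have hpt : ∀ ω, E G d θ s (((d : ℝ) - 1) ^ (j + 1) * (pp d s / 2)) (N + 1) u p ω ≤
          Real.exp (((d : ℝ) - 1) * (((d : ℝ) - 1) ^ j * (pp d s / 2))) *
            ∏ c ∈ (G.neighborFinset u).erase p,
              E G d θ s (((d : ℝ) - 1) ^ j * (pp d s / 2)) N c u ω := by
        intro ω
        rw [← exp_sum_eq h]
        unfold E
        refine Real.exp_le_exp.2 ?_
        have h3 : ((d : ℝ) - 1) * (((d : ℝ) - 1) ^ j * (pp d s / 2)) =
            ((d : ℝ) - 1) ^ (j + 1) * (pp d s / 2) := by ring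
        rw [h3]
        exact mul_le_mul_of_nonneg_left (Y_succ_le h hθ.1 (bd_Lms _ _ _) N u p) (ht _)
      refine (integral_mono (integrable_E h hθ.1 s (ht _) (N + 1) hup) (hi.const_mul _)
        hpt).trans ?_
      rw [integral_const_mul]
      refine (mul_le_mul_of_nonneg_left hle (Real.exp_pos _).le).trans (le_of_eq ?_)
      rw [← Real.exp_add, card_erase_real h hup]
      congr 1
      push_cast
      ring

theorem tail_pt {S M μ : ℝ} (hμ : 0 < μ) (hS : 0 ≤ S) :
    (if M < S then S ^ 2 else 0) ≤ 2 / μ ^ 2 * Real.exp (-(μ * M)) * Real.exp (2 * μ * S) := by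
  split_ifs with hM
  · have h1 := Real.quadratic_le_exp_of_nonneg (x := μ * S) (mul_nonneg hμ.le hS)
    have h2 : (μ * S) ^ 2 / 2 ≤ Real.exp (μ * S) := by nlinarith [mul_nonneg hμ.le hS]
    have h3 : Real.exp (μ * S) ≤ Real.exp (-(μ * M)) * Real.exp (2 * μ * S) := by
      rw [← Real.exp_add]
      refine Real.exp_le_exp.2 ?_
      nlinarith
    have h4 : S ^ 2 = 2 / μ ^ 2 * ((μ * S) ^ 2 / 2) := by field_simp
    rw [h4, mul_assoc]
    exact mul_le_mul_of_nonneg_left (h2.trans h3) (by positivity)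
  · positivity

end SMomAux

open SMomAux in
theorem smom (h : RT G d) {θ s : ℝ} (hs : 0 < s) (hθ : Near d θ s) (j N : ℕ) (o : V) :
    ∫ ω, (if 4 * (j : ℝ) + 24 / pp d s < SS G d θ (Lms Set.univ s ω) N o then
      SS G d θ (Lms Set.univ s ω) N o ^ 2 else 0) ∂(Pw G θ) ≤
      8 / pp d s ^ 2 * Real.exp (-(2 : ℝ) ^ j) := by
  have hp0 := pp_pos h.three hs
  have hp1 := pp_le h.three s
  have h2 := h.two_le
  have hj : (0 : ℝ) ≤ j := Nat.cast_nonneg j
  cases N with
  | zero =>
    have h1 : ∀ ω : Om V, (if 4 * (j : ℝ) + 24 / pp d s < SS G d θ (Lms Set.univ s ω) 0 o then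
        SS G d θ (Lms Set.univ s ω) 0 o ^ 2 else 0) = 0 := by
      intro ω
      refine if_neg (not_lt.2 ?_)
      have h3 := SS_le h hθ.1 (bd_Lms Set.univ s ω) 0 o
      have h4 : 48 ≤ 24 / pp d s := by
        rw [le_div_iff₀ hp0]
        linarith
      push_cast at h3
      linarith
    simp only [h1, integral_zero]
    positivity
  | succ N =>
    have hD : 0 < ((d : ℝ) - 1) ^ j := pow_pos (by linarith) j
    have ht : 0 ≤ ((d : ℝ) - 1) ^ j * (pp d s / 2) := mul_nonneg hD.le (by linarith)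
    obtain ⟨hi, hle⟩ := integral_prod_le h hθ.1 s ht N o (G.neighborFinset o)
      (fun c hc => adj_of_mem hc) (fun c hc => moment h hs hθ j N (adj_of_mem hc))
    rw [SimpleGraph.card_neighborFinset_eq_degree, h.reg.degree_eq] at hle
    set K : ℝ := ((d : ℝ) - 1) ^ j with hK
    have hK2 : (2 : ℝ) ^ j ≤ K := pow_le_pow_left₀ (by norm_num) h2 j
    have hK1 : (1 : ℝ) ≤ K := (one_le_pow₀ (by norm_num)).trans hK2
    set μ : ℝ := ((d : ℝ) - 1) * K * pp d s / 4 with hμ
    have hμp : pp d s / 2 ≤ μ := by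
      have : 2 ≤ ((d : ℝ) - 1) * K := by nlinarith
      rw [hμ]
      nlinarith
    have hμ0 : 0 < μ := by linarith
    have hpt : ∀ ω : Om V,
        (if 4 * (j : ℝ) + 24 / pp d s < SS G d θ (Lms Set.univ s ω) (N + 1) o then
          SS G d θ (Lms Set.univ s ω) (N + 1) o ^ 2 else 0) ≤
        2 / μ ^ 2 * Real.exp (-(μ * (4 * (j : ℝ) + 24 / pp d s))) *
          (Real.exp (((d : ℝ) - 1) * (K * (pp d s / 2))) *
            ∏ c ∈ G.neighborFinset o, E G d θ s (K * (pp d s / 2)) N c o ω) := by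
      intro ω
      rw [← exp_sum_eq h, ← SS_succ h]
      have h3 : ((d : ℝ) - 1) * (K * (pp d s / 2)) = 2 * μ := by rw [hμ]; ring
      rw [h3]
      exact tail_pt hμ0 (zero_le_one.trans (one_le_SS h hθ.1 (bd_Lms _ _ _) _ o))
    refine (integral_mono_of_nonneg (Eventually.of_forall fun ω => ?_)
      ((hi.const_mul _).const_mul _) (Eventually.of_forall hpt)).trans ?_
    · show (0 : ℝ) ≤ _
      split_ifs
      · positivity
      · exact le_rfl
    rw [integral_const_mul, integral_const_mul]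
    have h3 : 2 / μ ^ 2 ≤ 8 / pp d s ^ 2 := by
      rw [div_le_div_iff₀ (by positivity) (by positivity)]
      nlinarith
    have h4 : Real.exp (-(μ * (4 * (j : ℝ) + 24 / pp d s))) *
        (Real.exp (((d : ℝ) - 1) * (K * (pp d s / 2))) *
          Real.exp (d * (K * (j * (pp d s / 2) + 2)))) ≤ Real.exp (-(2 : ℝ) ^ j) := by
      rw [← Real.exp_add, ← Real.exp_add]
      refine Real.exp_le_exp.2 ?_
      have h5 : μ * (4 * (j : ℝ) + 24 / pp d s) = ((d : ℝ) - 1) * K * (j * pp d s + 6) := by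
        rw [hμ]
        field_simp
        ring
      rw [h5]
      have hq : 0 ≤ (j : ℝ) * pp d s := mul_nonneg hj hp0.le
      have h6 : -(((d : ℝ) - 1) * (j * pp d s + 6)) + (((d : ℝ) - 1) * (pp d s / 2) +
          d * (j * (pp d s / 2) + 2)) ≤ -1 := by
        nlinarith
      have h7 := mul_le_mul_of_nonneg_left h6 hD.le
      nlinarith
    rw [mul_assoc]
    refine mul_le_mul h3 (le_trans ?_ h4) ?_ (by positivity)
    · exact mul_le_mul_of_nonneg_left (mul_le_mul_of_nonneg_left hle (Real.exp_pos _).le)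
        (Real.exp_pos _).le
    · refine mul_nonneg (Real.exp_pos _).le (mul_nonneg (Real.exp_pos _).le ?_)
      exact integral_nonneg fun ω => Finset.prod_nonneg fun c _ => (E_pos _ _ _ _ _ ω).le

end Crest.Agent.R160

end
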