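import Crest.Agent.R160.Transfer
import Crest.Agent.R160.SMom

/-!
The growth rate at all positive times.
-/

set_option autoImplicit false

open MeasureTheory unitInterval Filter Topology
open Crest.ProbabilityR Crest.ProbabilityR.Labels Crest.ProbabilityR.TreeIsing
open scoped Classical

noncomputable section

namespace Crest.Agent.R160

universe u

variable {V : Type u} {G : SimpleGraph V} [G.LocallyFinite] {d : ℕ}

namespace Phase2Aux

/-- Bounded measurable functions. -/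
def BM {Ω : Type*} [MeasurableSpace Ω] (f : Ω → ℝ) : Prop := Measurable f ∧ ∃ C, ∀ ω, |f ω| ≤ C

section BM

variable {Ω : Type*} [MeasurableSpace Ω] {f g : Ω → ℝ}

theorem BM.integrable (hf : BM f) (μ : Measure Ω) [IsFiniteMeasure μ] : Integrable f μ := by
  obtain ⟨C, hC⟩ := hf.2
  exact R168.integrable_of_abs_le hf.1 C hC

theorem BM.const (c : ℝ) : BM (fun _ : Ω => c) := ⟨measurable_const, |c|, fun _ => le_rfl⟩

theorem BM.add (hf : BM f) (hg : BM g) : BM (fun ω => f ω + g ω) := by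
  obtain ⟨C, hC⟩ := hf.2
  obtain ⟨D, hD⟩ := hg.2
  exact ⟨hf.1.add hg.1, C + D, fun ω => (abs_add_le _ _).trans (add_le_add (hC ω) (hD ω))⟩

theorem BM.mul (hf : BM f) (hg : BM g) : BM (fun ω => f ω * g ω) := by
  obtain ⟨C, hC⟩ := hf.2
  obtain ⟨D, hD⟩ := hg.2
  refine ⟨hf.1.mul hg.1, C * D, fun ω => ?_⟩
  rw [abs_mul]
  exact mul_le_mul (hC ω) (hD ω) (abs_nonneg _) ((abs_nonneg _).trans (hC ω))

theorem BM.sq (hf : BM f) : BM (fun ω => f ω ^ 2) := by
  simpa only [pow_two] using hf.mul hf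

theorem BM.sub (hf : BM f) (hg : BM g) : BM (fun ω => f ω - g ω) := by
  have := hf.add ((BM.const (-1)).mul hg)
  simpa [sub_eq_add_neg] using this

theorem BM.sum {ι : Type*} (s : Finset ι) {F : ι → Ω → ℝ} (hF : ∀ i ∈ s, BM (F i)) :
    BM (fun ω => ∑ i ∈ s, F i ω) := by
  induction s using Finset.induction_on with
  | empty => simpa using BM.const 0
  | insert a s ha ih =>
    simp only [Finset.sum_insert ha]
    exact (hF a (Finset.mem_insert_self _ _)).add
      (ih fun i hi => hF i (Finset.mem_insert_of_mem hi))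

end BM

/-- Regrouping the geodesics by one of their edges. -/
theorem sum_geo_le (h : RT G d) (o : V) (N : ℕ) {w : ℝ} (hw0 : 0 ≤ w) (hw1 : w ≤ 1)
    (a : V → ℝ) (b e : V → V → ℝ) (ha : ∀ x, 0 ≤ a x) (hb : ∀ y v, 0 ≤ b y v)
    (he : ∀ y x, 0 ≤ e y x) :
    ∑ v ∈ ball G o N, w ^ G.dist o v * ∑ i ∈ Finset.range (G.dist o v),
        a (geo G o v i) * b (geo G o v (i + 1)) v * e (geo G o v (i + 1)) (geo G o v i) ≤
      ∑ x ∈ ball G o N, w ^ G.dist o x * a x * ∑ y ∈ G.neighborFinset x,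
        e y x * ∑ v ∈ ball G y N, w ^ G.dist y v * b y v := by
  set F : V → V → V → ℝ := fun x y v =>
    w ^ G.dist o x * a x * (e y x * (w ^ G.dist y v * b y v)) with hF
  have hF0 : ∀ x y v, 0 ≤ F x y v := fun x y v => by
    have := ha x; have := hb y v; have := he y x
    positivity
  have step : ∀ v ∈ ball G o N, w ^ G.dist o v * ∑ i ∈ Finset.range (G.dist o v),
        a (geo G o v i) * b (geo G o v (i + 1)) v * e (geo G o v (i + 1)) (geo G o v i) ≤
      ∑ x ∈ ball G o N, ∑ y ∈ G.neighborFinset x, if v ∈ ball G y N then F x y v else 0 := by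
    intro v hv
    have hvN := (mem_ball h).1 hv
    set H : V → ℝ := fun x =>
      ∑ y ∈ G.neighborFinset x, if v ∈ ball G y N then F x y v else 0 with hH
    have hH0 : ∀ x, 0 ≤ H x := fun x => Finset.sum_nonneg fun y _ => by
      split_ifs
      · exact hF0 _ _ _
      · exact le_rfl
    have hinj : Set.InjOn (geo G o v) (Finset.range (G.dist o v) : Set ℕ) := by
      intro i hi j hj hij
      have hi' := (geo_spec h o v (Finset.mem_range.1 hi).le).1
      have hj' := (geo_spec h o v (Finset.mem_range.1 hj).le).1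
      rw [← hi', ← hj', hij]
    calc _ ≤ ∑ i ∈ Finset.range (G.dist o v), H (geo G o v i) := by
          rw [Finset.mul_sum]
          refine Finset.sum_le_sum fun i hi => ?_
          have hi' := Finset.mem_range.1 hi
          have s1 := geo_spec h o v hi'.le
          have s2 := geo_spec h o v (i := i + 1) hi'
          have hy : geo G o v (i + 1) ∈ G.neighborFinset (geo G o v i) :=
            (G.mem_neighborFinset _ _).2 (geo_adj h o v hi').symm
          have hvy : v ∈ ball G (geo G o v (i + 1)) N := (mem_ball h).2 (by omega)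
          refine le_trans ?_ (Finset.single_le_sum
            (f := fun y => if v ∈ ball G y N then F (geo G o v i) y v else 0)
            (fun y _ => by
              split_ifs
              · exact hF0 _ _ _
              · exact le_rfl) hy)
          simp only [if_pos hvy, hF]
          have e1 : w ^ G.dist o v ≤
              w ^ G.dist o (geo G o v i) * w ^ G.dist (geo G o v (i + 1)) v := by
            rw [← pow_add]
            exact pow_le_pow_of_le_one hw0 hw1 (by omega)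
          have e2 := mul_le_mul_of_nonneg_right e1 (mul_nonneg (mul_nonneg (ha (geo G o v i))
            (hb (geo G o v (i + 1)) v)) (he (geo G o v (i + 1)) (geo G o v i)))
          exact e2.trans (le_of_eq (by ring))
      _ = ∑ x ∈ (Finset.range (G.dist o v)).image (geo G o v), H x :=
          (Finset.sum_image hinj).symm
      _ ≤ ∑ x ∈ ball G o N, H x := by
          refine Finset.sum_le_sum_of_subset_of_nonneg (fun x hx => ?_) fun x _ _ => hH0 x
          obtain ⟨i, hi, rfl⟩ := Finset.mem_image.1 hx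
          have hi' := Finset.mem_range.1 hi
          have s1 := geo_spec h o v hi'.le
          exact (mem_ball h).2 (by omega)
  refine (Finset.sum_le_sum step).trans ?_
  rw [Finset.sum_comm]
  refine Finset.sum_le_sum fun x _ => ?_
  rw [Finset.sum_comm, Finset.mul_sum]
  refine Finset.sum_le_sum fun y _ => ?_
  rw [Finset.mul_sum, Finset.mul_sum, ← Finset.sum_filter]
  exact Finset.sum_le_sum_of_subset_of_nonneg
    (fun v hv => (Finset.mem_filter.1 hv).2) fun v _ _ => hF0 x y v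

theorem sum_nbr_map (g : G ≃g G) (x : V) (F : V → ℝ) :
    ∑ y ∈ G.neighborFinset (g x), F y = ∑ y ∈ G.neighborFinset x, F (g y) := by
  symm
  refine Finset.sum_equiv g.toEquiv (fun y => ?_) fun y _ => rfl
  simp only [SimpleGraph.mem_neighborFinset]
  exact (g.map_rel_iff (a := x) (b := y)).symm

section Bounds

variable {θ θ' s : ℝ}

omit [G.LocallyFinite] in
theorem bm_dd (θ θ' s : ℝ) (v : V) : BM (dd G θ θ' s v) :=
  ⟨measurable_dd θ θ' s v, 2, abs_dd_le θ θ' s v⟩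

theorem bm_PP (h : RT G d) (hθ : Subc d θ) (s : ℝ) (x y : V) :
    BM (fun ω => PP G θ (Ls G θ s ω) x y) :=
  ⟨(measurable_PP x y).comp (measurable_Ls s), 1, fun ω => by
    rw [abs_of_nonneg (PP_nonneg h hθ (bd_Ls s ω) x y)]; exact PP_le_one h hθ (bd_Ls s ω) x y⟩

theorem bm_KK (h : RT G d) (hθ : Subc d θ) (s : ℝ) (x y : V) :
    BM (fun ω => KK G θ (Ls G θ s ω) x y) :=
  ⟨(measurable_KK x y).comp (measurable_Ls s), θ ^ G.dist x y, fun ω => by
    rw [abs_of_nonneg (KK_nonneg h hθ (bd_Ls s ω) x y)]; exact KK_le_pow h hθ (bd_Ls s ω) x y⟩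

theorem bm_SS (h : RT G d) (hθ : Subc d θ) (s : ℝ) (N : ℕ) (x : V) :
    BM (fun ω => SS G d θ (Ls G θ s ω) N x) :=
  ⟨(measurable_SS N x).comp (measurable_Ls s), 3 / 2 * (N + 1), fun ω => by
    rw [abs_of_nonneg (zero_le_one.trans (one_le_SS h hθ (bd_Ls s ω) N x))]
    exact SS_le h hθ (bd_Ls s ω) N x⟩

/-- The susceptibility against a bounded weight. -/
theorem integral_SS_sq_mul_le (h : RT G d) (hs : 0 < s) (hθ : Near d θ s) (j N : ℕ) (x : V)
    {D : Lab V → ℝ} (hD : BM D) (hD0 : ∀ ω, 0 ≤ D ω) (hD4 : ∀ ω, D ω ≤ 4) :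
    ∫ ω, SS G d θ (Ls G θ s ω) N x ^ 2 * D ω ∂(Pl V) ≤
      576 * ((j : ℝ) + 1 / pp d s) ^ 2 * ∫ ω, D ω ∂(Pl V) +
        32 * (Real.exp (-(2 : ℝ) ^ j) / pp d s ^ 2) := by
  have hp := pp_pos h.three hs
  set M : ℝ := 4 * (j : ℝ) + 24 / pp d s with hM
  have hM0 : 0 ≤ M := by positivity
  have hM1 : M ≤ 24 * ((j : ℝ) + 1 / pp d s) := by
    have : (0 : ℝ) ≤ j := Nat.cast_nonneg j
    rw [hM, mul_add, mul_one_div]; linarith
  have hM2 : M ^ 2 ≤ 576 * ((j : ℝ) + 1 / pp d s) ^ 2 := by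
    have := pow_le_pow_left₀ hM0 hM1 2
    rw [mul_pow] at this; linarith
  have hFm : Measurable fun ℓ : Slot V → ℝ =>
      if M < SS G d θ ℓ N x then SS G d θ ℓ N x ^ 2 else 0 :=
    Measurable.ite (measurableSet_lt measurable_const (measurable_SS N x))
      ((measurable_SS N x).pow_const 2) measurable_const
  have hT : BM fun ω : Lab V =>
      if M < SS G d θ (Ls G θ s ω) N x then SS G d θ (Ls G θ s ω) N x ^ 2 else 0 := by
    obtain ⟨C, hC⟩ := (bm_SS h hθ.1 s N x).sq.2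
    refine ⟨hFm.comp (measurable_Ls s), C, fun ω => ?_⟩
    dsimp only
    split_ifs
    · exact hC ω
    · simpa using (abs_nonneg _).trans (hC ω)
  have h1 := smom h hs hθ j N x
  rw [← integral_transfer_Ls h hθ.1 s hFm] at h1
  calc _ ≤ ∫ ω, (M ^ 2 * D ω + 4 * if M < SS G d θ (Ls G θ s ω) N x then
          SS G d θ (Ls G θ s ω) N x ^ 2 else 0) ∂(Pl V) := by
        refine integral_mono (((bm_SS h hθ.1 s N x).sq.mul hD).integrable _)
          ((((BM.const _).mul hD).add ((BM.const 4).mul hT)).integrable _) fun ω => ?_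
        have h0 := zero_le_one.trans (one_le_SS h hθ.1 (bd_Ls (G := G) (θ := θ) s ω) N x)
        have h2 := hD0 ω
        have h3 := hD4 ω
        dsimp only
        split_ifs with hc
        · nlinarith [sq_nonneg M, sq_nonneg (SS G d θ (Ls G θ s ω) N x)]
        · have := pow_le_pow_left₀ h0 (not_lt.1 hc) 2
          nlinarith
    _ = M ^ 2 * ∫ ω, D ω ∂(Pl V) + 4 * ∫ ω, (if M < SS G d θ (Ls G θ s ω) N x then
          SS G d θ (Ls G θ s ω) N x ^ 2 else 0) ∂(Pl V) := by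
        rw [integral_add (((BM.const _).mul hD).integrable _) (((BM.const 4).mul hT).integrable _),
          integral_const_mul, integral_const_mul]
    _ ≤ _ := by
        have h4 := mul_le_mul_of_nonneg_right hM2 (integral_nonneg (μ := Pl V) hD0)
        have h5 : 8 / pp d s ^ 2 * Real.exp (-(2 : ℝ) ^ j) =
            8 * (Real.exp (-(2 : ℝ) ^ j) / pp d s ^ 2) := by ring
        linarith

omit [G.LocallyFinite] in
theorem dd_sq_le (θ θ' s : ℝ) (v : V) (ω : Lab V) : dd G θ θ' s v ω ^ 2 ≤ 4 := by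
  obtain ⟨h1, h2⟩ := abs_le.1 (abs_dd_le (G := G) θ θ' s v ω)
  nlinarith

theorem integral_SS_sq_le (h : RT G d) (hs : 0 < s) (hθ : Near d θ s) (N : ℕ) (x : V) :
    ∫ ω, SS G d θ (Ls G θ s ω) N x ^ 2 ∂(Pl V) ≤ 608 / pp d s ^ 2 := by
  have h1 := integral_SS_sq_mul_le h hs hθ 0 N x (BM.const 1) (fun _ => zero_le_one)
    (fun _ => by norm_num)
  have hp := pp_pos h.three hs
  have h2 : Real.exp (-(2 : ℝ) ^ 0) / pp d s ^ 2 ≤ 1 / pp d s ^ 2 :=
    div_le_div_of_nonneg_right (Real.exp_le_one_iff.2 (by norm_num)) (by positivity)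
  simp only [mul_one, Nat.cast_zero, zero_add, integral_const, probReal_univ, smul_eq_mul,
    one_div_pow] at h1
  have h3 : 608 / pp d s ^ 2 = 576 * (1 / pp d s ^ 2) + 32 * (1 / pp d s ^ 2) := by ring
  linarith

end Bounds

end Phase2Aux

open Phase2Aux

theorem phase2 (h : RT G d) : ∃ C : ℝ, 0 < C ∧ ∀ s₁ : ℝ, 0 < s₁ → ∃ B : ℝ, 0 ≤ B ∧
    ∀ θ θ' s : ℝ, s₁ ≤ s → Near d θ s₁ → Near d θ' s₁ → ∀ (j : ℕ) (o : V) (N : ℕ),
    ∑ v ∈ ball G o N, ∫ ω, FF G θ θ' s o v ω ∂(Pl V) ≤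
      C * (((j : ℝ) + 1 / pp d s) ^ 2 * uu G θ θ' s o + Real.exp (-(2 : ℝ) ^ j) / pp d s ^ 2) +
        B * (θ - θ') ^ 2 := by
  obtain ⟨C₁, hC₁, H₁⟩ := exists_kd1 h
  have hd := h.three
  have hd2 := h.two_le
  refine ⟨576 * (8 * C₁ * (1 + 2 * d) + 32), by positivity, fun s₁ hs₁ => ?_⟩
  have hp₁ := pp_pos hd hs₁
  have hp₁' := pp_le hd s₁
  have hsum : Summable fun n : ℕ => (n : ℝ) ^ 2 * (1 - pp d s₁) ^ (n - 1) := by
    rw [← summable_nat_add_iff 1]
    have hr : ‖1 - pp d s₁‖ < 1 := by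
      rw [Real.norm_eq_abs, abs_lt]; constructor <;> linarith
    have s2 := summable_pow_mul_geometric_of_norm_lt_one 2 hr
    have s1 := summable_pow_mul_geometric_of_norm_lt_one 1 hr
    have s0 := summable_geometric_of_norm_lt_one hr
    refine ((s2.add (s1.mul_left 2)).add s0).congr fun n => ?_
    simp only [Nat.add_sub_cancel]
    push_cast; ring
  set B₁ : ℝ := ∑' n : ℕ, (n : ℝ) ^ 2 * (1 - pp d s₁) ^ (n - 1) with hB₁
  have hterm : ∀ n : ℕ, 0 ≤ (n : ℝ) ^ 2 * (1 - pp d s₁) ^ (n - 1) := fun n =>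
    mul_nonneg (sq_nonneg _) (pow_nonneg (by linarith) _)
  have hB₁0 : 0 ≤ B₁ := tsum_nonneg hterm
  refine ⟨8 * C₁ * (3 / 2 * B₁ + d * (608 / pp d s₁ ^ 2)), by positivity,
    fun θ θ' s hs hn₁ hn₁' j o N => ?_⟩
  have hs0 : 0 < s := lt_of_lt_of_le hs₁ hs
  have hn := hn₁.mono hd hs₁ hs
  have hn' := hn₁'.mono hd hs₁ hs
  have hθ := hn.1
  have hθ' := hn'.1
  have hp := pp_pos hd hs0
  have hp' := pp_le hd s
  have hpp : pp d s₁ ≤ pp d s := pp_mono hd hs₁.le hs
  set w : ℝ := 1 / ((d : ℝ) - 1) with hw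
  have hw0 : 0 ≤ w := by positivity
  have hw1 : w ≤ 1 := by rw [hw, div_le_one (by linarith)]; linarith
  set u := uu G θ θ' s o with hu
  have hu0 : 0 ≤ u := uu_nonneg θ θ' s o
  set Δ : ℝ := (θ - θ') ^ 2 with hΔ
  have hΔ0 : 0 ≤ Δ := sq_nonneg _
  set X : ℝ := ((j : ℝ) + 1 / pp d s) ^ 2 * u + Real.exp (-(2 : ℝ) ^ j) / pp d s ^ 2 with hX
  set δ : V → Lab V → ℝ := fun v => dd G θ θ' s v with hδ
  set S : V → Lab V → ℝ := fun x ω => SS G d θ (Ls G θ s ω) N x with hS
  set S' : V → Lab V → ℝ := fun x ω => SS G d θ' (Ls G θ' s ω) N x with hS'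
  set P : V → V → Lab V → ℝ := fun x y ω => PP G θ (Ls G θ s ω) x y with hP
  set P' : V → V → Lab V → ℝ := fun x y ω => PP G θ' (Ls G θ' s ω) x y with hP'
  set K : V → V → Lab V → ℝ := fun x y ω => KK G θ (Ls G θ s ω) x y with hK
  set K' : V → V → Lab V → ℝ := fun x y ω => KK G θ' (Ls G θ' s ω) x y with hK'
  have bδ : ∀ v, BM (δ v) := fun v => bm_dd θ θ' s v
  have bS : ∀ x, BM (S x) := fun x => bm_SS h hθ s N x
  have bS' : ∀ x, BM (S' x) := fun x => bm_SS h hθ' s N x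
  have bP : ∀ x y, BM (P x y) := fun x y => bm_PP h hθ s x y
  have bP' : ∀ x y, BM (P' x y) := fun x y => bm_PP h hθ' s x y
  have bK : ∀ x y, BM (K x y) := fun x y => bm_KK h hθ s x y
  have bK' : ∀ x y, BM (K' x y) := fun x y => bm_KK h hθ' s x y
  have hS1 : ∀ x ω, 1 ≤ S x ω := fun x ω => one_le_SS h hθ (bd_Ls s ω) N x
  have hS1' : ∀ x ω, 1 ≤ S' x ω := fun x ω => one_le_SS h hθ' (bd_Ls s ω) N x
  have hP0 : ∀ x y ω, 0 ≤ P x y ω := fun x y ω => PP_nonneg h hθ (bd_Ls s ω) x y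
  have hP0' : ∀ x y ω, 0 ≤ P' x y ω := fun x y ω => PP_nonneg h hθ' (bd_Ls s ω) x y
  have hX1 : ∀ {a : ℝ}, a ≤ 576 * ((j : ℝ) + 1 / pp d s) ^ 2 * u +
      32 * (Real.exp (-(2 : ℝ) ^ j) / pp d s ^ 2) → a ≤ 576 * X := by
    intro a ha
    have : 0 ≤ Real.exp (-(2 : ℝ) ^ j) / pp d s ^ 2 := by positivity
    rw [hX]; linarith
  have Q : ∀ x v, ∫ ω, S x ω ^ 2 * δ v ω ^ 2 ∂(Pl V) ≤ 576 * X := fun x v => by
    have := integral_SS_sq_mul_le h hs0 hn j N x (bδ v).sq (fun _ => sq_nonneg _)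
      (dd_sq_le θ θ' s v)
    refine hX1 (this.trans (le_of_eq ?_))
    rw [hu, ← uu_eq h hθ hθ' s v o]; rfl
  have Q' : ∀ x v, ∫ ω, S' x ω ^ 2 * δ v ω ^ 2 ∂(Pl V) ≤ 576 * X := fun x v => by
    have := integral_SS_sq_mul_le h hs0 hn' j N x (bδ v).sq (fun _ => sq_nonneg _)
      (dd_sq_le θ θ' s v)
    refine hX1 (this.trans (le_of_eq ?_))
    rw [hu, ← uu_eq h hθ hθ' s v o]; rfl
  have hpp2 : 608 / pp d s ^ 2 ≤ 608 / pp d s₁ ^ 2 :=
    div_le_div_of_nonneg_left (by norm_num) (by positivity) (pow_le_pow_left₀ hp₁.le hpp 2)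
  have R : ∀ x, ∫ ω, S x ω ^ 2 ∂(Pl V) ≤ 608 / pp d s₁ ^ 2 := fun x =>
    (integral_SS_sq_le h hs0 hn N x).trans hpp2
  have R' : ∀ x, ∫ ω, S' x ω ^ 2 ∂(Pl V) ≤ 608 / pp d s₁ ^ 2 := fun x =>
    (integral_SS_sq_le h hs0 hn' N x).trans hpp2
  have QS' : ∫ ω, S' o ω * δ o ω ^ 2 ∂(Pl V) ≤ 576 * X := by
    refine le_trans (integral_mono (((bS' o).mul (bδ o).sq).integrable _)
      (((bS' o).sq.mul (bδ o).sq).integrable _) fun ω => ?_) (Q' o o)
    refine mul_le_mul_of_nonneg_right ?_ (sq_nonneg _)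
    nlinarith [hS1' o ω]
  -- equivariance
  have aδ : ∀ (g : G ≃g G) v ω, δ v (actL g ω) = δ (g v) ω := fun g v ω =>
    dd_act h hθ hθ' g s v ω
  have aS' : ∀ (g : G ≃g G) x ω, S' x (actL g ω) = S' (g x) ω := fun g x ω => by
    simp only [hS', Ls_act h hθ', SS_act h hθ']
  have aP : ∀ (g : G ≃g G) x y ω, P x y (actL g ω) = P (g x) (g y) ω := fun g x y ω => by
    simp only [hP, Ls_act h hθ, PP_act h hθ]
  have aK' : ∀ (g : G ≃g G) x y ω, K' x y (actL g ω) = K' (g x) (g y) ω := fun g x y ω => by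
    simp only [hK', Ls_act h hθ', KK_act h hθ']
  have good := good_Ls_ae h hθ s
  have good' := good_Ls_ae h hθ' s
  -- part II
  have II : ∑ v ∈ ball G o N, ∫ ω, K' o v ω ^ 2 * δ v ω ^ 2 ∂(Pl V) ≤ 576 * X := by
    have sw : ∀ v, ∫ ω, K' o v ω ^ 2 * δ v ω ^ 2 ∂(Pl V) =
        ∫ ω, K' v o ω ^ 2 * δ o ω ^ 2 ∂(Pl V) := fun v =>
      swap_eq h (fun x y => ∫ ω, K' x y ω ^ 2 * δ y ω ^ 2 ∂(Pl V)) (fun g x y => by
        rw [← integral_actL g ((bK' x y).sq.mul (bδ y).sq).1]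
        simp only [aδ, aK']) o v
    simp only [sw]
    rw [← integral_finsetSum _ fun v _ => ((bK' v o).sq.mul (bδ o).sq).integrable _]
    refine le_trans (integral_mono_ae
      ((BM.sum _ fun v _ => (bK' v o).sq.mul (bδ o).sq).integrable _)
      (((bS' o).mul (bδ o).sq).integrable _) ?_) QS'
    filter_upwards [good'] with ω hω
    rw [← Finset.sum_mul]
    refine mul_le_mul_of_nonneg_right (Finset.sum_le_sum fun v _ => ?_) (sq_nonneg _)
    simp only [hK']
    rw [KK_symm h hθ' (bd_Ls s ω) hω v o]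
    exact KK_sq_le h hθ' (bd_Ls s ω) o v
  -- part I
  set e : V → V → Lab V → ℝ := fun y x ω => δ x ω ^ 2 + δ y ω ^ 2 + Δ with he
  have be : ∀ y x, BM (e y x) := fun y x => ((bδ x).sq.add (bδ y).sq).add (BM.const _)
  have he0 : ∀ y x ω, 0 ≤ e y x ω := fun y x ω => by simp only [he]; positivity
  set T : V → V → Lab V → ℝ := fun o x ω =>
    w ^ G.dist o x * P x o ω * ∑ y ∈ G.neighborFinset x, e y x ω * S' y ω with hT
  have bT : ∀ o x, BM (T o x) := fun o x =>
    ((BM.const _).mul (bP x o)).mul (BM.sum _ fun y _ => (be y x).mul (bS' y))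
  have Ic : ∑ x ∈ ball G o N, ∫ ω, T o x ω ∂(Pl V) ≤
      d * (2 * (576 * X) + Δ * (608 / pp d s₁ ^ 2)) := by
    have sw : ∀ x, ∫ ω, T o x ω ∂(Pl V) = ∫ ω, T x o ω ∂(Pl V) := fun x =>
      swap_eq h (fun a b => ∫ ω, T a b ω ∂(Pl V)) (fun g a b => by
        rw [← integral_actL g (bT a b).1]
        simp only [hT, he, aδ, aP, aS', dist_map, sum_nbr_map g b]) o x
    simp only [sw]
    rw [← integral_finsetSum _ fun x _ => (bT x o).integrable _]
    have e1 : ∀ ω, ∑ x ∈ ball G o N, T x o ω =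
        ∑ y ∈ G.neighborFinset o, S o ω * (e y o ω * S' y ω) := fun ω => by
      simp only [hT]
      rw [← Finset.sum_mul, Finset.mul_sum]
      refine Finset.sum_congr rfl fun y _ => ?_
      congr 1
      simp only [hS, SS, hP, hw]
      exact Finset.sum_congr rfl fun x _ => by rw [SimpleGraph.dist_comm]
    simp only [e1]
    rw [integral_finsetSum _ fun y _ => ((bS o).mul ((be y o).mul (bS' y))).integrable _]
    have e2 : (d : ℝ) = (G.neighborFinset o).card := by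
      rw [SimpleGraph.card_neighborFinset_eq_degree, h.reg o]
    rw [e2, ← nsmul_eq_mul]
    refine Finset.sum_le_card_nsmul _ _ _ fun y _ => ?_
    have i1 := ((bS o).sq.mul (bδ o).sq).integrable (Pl V)
    have i2 := ((bS o).sq.mul (bδ y).sq).integrable (Pl V)
    have i3 := ((bS' y).sq.mul (bδ o).sq).integrable (Pl V)
    have i4 := ((bS' y).sq.mul (bδ y).sq).integrable (Pl V)
    have i5 := ((BM.const Δ).mul (bS o).sq).integrable (Pl V)
    have i6 := ((BM.const Δ).mul (bS' y).sq).integrable (Pl V)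
    have e3 : ∫ ω, S o ω * (e y o ω * S' y ω) ∂(Pl V) ≤ ∫ ω, 1 / 2 * (S o ω ^ 2 * δ o ω ^ 2 +
        S o ω ^ 2 * δ y ω ^ 2 + S' y ω ^ 2 * δ o ω ^ 2 + S' y ω ^ 2 * δ y ω ^ 2 +
        Δ * S o ω ^ 2 + Δ * S' y ω ^ 2) ∂(Pl V) := by
      refine integral_mono (((bS o).mul ((be y o).mul (bS' y))).integrable _)
        ((((((i1.add i2).add i3).add i4).add i5).add i6).const_mul _) fun ω => ?_
      have := mul_nonneg (he0 y o ω) (sq_nonneg (S o ω - S' y ω))
      simp only [he] at this ⊢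
      nlinarith
    refine e3.trans ?_
    have j2 : Integrable (fun ω => S o ω ^ 2 * δ o ω ^ 2 + S o ω ^ 2 * δ y ω ^ 2) (Pl V) :=
      i1.add i2
    have j3 : Integrable (fun ω => S o ω ^ 2 * δ o ω ^ 2 + S o ω ^ 2 * δ y ω ^ 2 +
        S' y ω ^ 2 * δ o ω ^ 2) (Pl V) := j2.add i3
    have j4 : Integrable (fun ω => S o ω ^ 2 * δ o ω ^ 2 + S o ω ^ 2 * δ y ω ^ 2 +
        S' y ω ^ 2 * δ o ω ^ 2 + S' y ω ^ 2 * δ y ω ^ 2) (Pl V) := j3.add i4
    have j5 : Integrable (fun ω => S o ω ^ 2 * δ o ω ^ 2 + S o ω ^ 2 * δ y ω ^ 2 +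
        S' y ω ^ 2 * δ o ω ^ 2 + S' y ω ^ 2 * δ y ω ^ 2 + Δ * S o ω ^ 2) (Pl V) := j4.add i5
    rw [integral_const_mul, integral_add j5 i6, integral_add j4 i5, integral_add j3 i4,
      integral_add j2 i3, integral_add i1 i2, integral_const_mul, integral_const_mul]
    have r1 := mul_le_mul_of_nonneg_left (R o) hΔ0
    have r2 := mul_le_mul_of_nonneg_left (R' y) hΔ0
    linarith [Q o o, Q o y, Q' y o, Q' y y]
  have Ia : ∑ v ∈ ball G o N, ∫ ω, w ^ G.dist o v * ((G.dist o v : ℝ) ^ 2 * Δ * P' o v ω) ∂(Pl V)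
      ≤ Δ * (3 / 2 * B₁) := by
    have e1 : ∀ v, ∫ ω, w ^ G.dist o v * ((G.dist o v : ℝ) ^ 2 * Δ * P' o v ω) ∂(Pl V) ≤
        (fun n : ℕ => w ^ n * ((n : ℝ) ^ 2 * Δ * (1 - pp d s₁) ^ (n - 1))) (G.dist o v) := by
      intro v
      rw [integral_const_mul, integral_const_mul]
      refine mul_le_mul_of_nonneg_left (mul_le_mul_of_nonneg_left ?_ (by positivity))
        (by positivity)
      have := an h hs0 hn' o v
      rw [← integral_transfer_Ls h hθ' s (measurable_PP o v)] at this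
      exact this.trans (pow_le_pow_left₀ (by linarith) (by linarith) _)
    refine (Finset.sum_le_sum fun v _ => e1 v).trans ((sum_ball_radial_le h o N
      (f := fun n : ℕ => w ^ n * ((n : ℝ) ^ 2 * Δ * (1 - pp d s₁) ^ (n - 1))) fun n => ?_).trans ?_)
    · have : 0 ≤ (1 - pp d s₁) ^ (n - 1) := pow_nonneg (by linarith) _
      positivity
    · have e2 : ∀ n : ℕ, ((d : ℝ) - 1) ^ n * (w ^ n * ((n : ℝ) ^ 2 * Δ * (1 - pp d s₁) ^ (n - 1))) =
          Δ * ((n : ℝ) ^ 2 * (1 - pp d s₁) ^ (n - 1)) := by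
        intro n
        have : ((d : ℝ) - 1) ^ n * w ^ n = 1 := by
          rw [← mul_pow, hw, mul_one_div_cancel (by linarith), one_pow]
        rw [← mul_assoc, this]; ring
      simp only [e2]
      rw [← Finset.mul_sum]
      have := mul_le_mul_of_nonneg_left (hsum.sum_le_tsum (Finset.range (N + 1))
        fun n _ => hterm n) hΔ0
      linarith
  have PI : ∑ v ∈ ball G o N, ∫ ω, (K o v ω - K' o v ω) ^ 2 ∂(Pl V) ≤
      C₁ * (Δ * (3 / 2 * B₁) + 576 * X + d * (2 * (576 * X) + Δ * (608 / pp d s₁ ^ 2))) := by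
    have ba : ∀ v, BM fun ω => w ^ G.dist o v * ((G.dist o v : ℝ) ^ 2 * Δ * P' o v ω) := fun v =>
      (BM.const _).mul ((BM.const _).mul (bP' o v))
    have j1 := (BM.sum (ball G o N) fun v _ => ba v).integrable (Pl V)
    have j2 := ((bS' o).mul (bδ o).sq).integrable (Pl V)
    have j3 := (BM.sum (ball G o N) fun x _ => bT o x).integrable (Pl V)
    have j12 : Integrable (fun ω => (∑ v ∈ ball G o N,
        w ^ G.dist o v * ((G.dist o v : ℝ) ^ 2 * Δ * P' o v ω)) + S' o ω * δ o ω ^ 2) (Pl V) :=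
      j1.add j2
    rw [← integral_finsetSum _ fun v _ => ((bK o v).sub (bK' o v)).sq.integrable _]
    have e1 : ∫ ω, ∑ v ∈ ball G o N, (K o v ω - K' o v ω) ^ 2 ∂(Pl V) ≤
        ∫ ω, C₁ * ((∑ v ∈ ball G o N, w ^ G.dist o v * ((G.dist o v : ℝ) ^ 2 * Δ * P' o v ω)) +
          S' o ω * δ o ω ^ 2 + ∑ x ∈ ball G o N, T o x ω) ∂(Pl V) := by
      refine integral_mono_ae
        ((BM.sum _ fun v _ => ((bK o v).sub (bK' o v)).sq).integrable _)
        ((j12.add j3).const_mul _) ?_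
      filter_upwards [good, good'] with ω hω hω'
      have f1 := sum_geo_le h o N hw0 hw1 (fun x => P x o ω) (fun y v => P' y v ω)
        (fun y x => e y x ω) (fun x => hP0 x o ω) (fun y v => hP0' y v ω) fun y x => he0 y x ω
      have f2 : S' o ω * δ o ω ^ 2 =
          ∑ v ∈ ball G o N, w ^ G.dist o v * (δ o ω ^ 2 * P' o v ω) := by
        simp only [hS', SS, hP', hw]
        rw [Finset.sum_mul]
        exact Finset.sum_congr rfl fun v _ => by ring
      refine le_trans (Finset.sum_le_sum fun v _ =>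
        H₁ θ θ' hθ hθ' _ _ (bd_Ls s ω) (bd_Ls s ω) hω hω' o v) ?_
      refine le_trans ?_ (mul_le_mul_of_nonneg_left (add_le_add le_rfl f1) hC₁.le)
      rw [f2, ← Finset.sum_add_distrib, ← Finset.sum_add_distrib, Finset.mul_sum]
      refine Finset.sum_le_sum fun v _ => le_of_eq ?_
      simp only [hP, hP', he, hδ, dd, hw, hΔ]
      ring
    refine e1.trans ?_
    rw [integral_const_mul, integral_add j12 j3, integral_add j1 j2,
      integral_finsetSum _ fun v _ => (ba v).integrable _,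
      integral_finsetSum _ fun x _ => (bT o x).integrable _]
    exact mul_le_mul_of_nonneg_left (add_le_add (add_le_add Ia QS') Ic) hC₁.le
  have fin : ∀ v, ∫ ω, FF G θ θ' s o v ω ∂(Pl V) =
      8 * ∫ ω, (K o v ω - K' o v ω) ^ 2 ∂(Pl V) + 32 * ∫ ω, K' o v ω ^ 2 * δ v ω ^ 2 ∂(Pl V) := by
    intro v
    rw [← integral_const_mul, ← integral_const_mul, ← integral_add
      (((BM.const 8).mul ((bK o v).sub (bK' o v)).sq).integrable _)
      (((BM.const 32).mul ((bK' o v).sq.mul (bδ v).sq)).integrable _)]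
    refine integral_congr_ae (Eventually.of_forall fun ω => ?_)
    simp only [FF, hK, hK', hδ]
    ring
  simp only [fin]
  rw [Finset.sum_add_distrib, ← Finset.mul_sum, ← Finset.mul_sum]
  have e : 576 * (8 * C₁ * (1 + 2 * d) + 32) * X +
      8 * C₁ * (3 / 2 * B₁ + d * (608 / pp d s₁ ^ 2)) * Δ =
      8 * (C₁ * (Δ * (3 / 2 * B₁) + 576 * X + d * (2 * (576 * X) + Δ * (608 / pp d s₁ ^ 2)))) +
        32 * (576 * X) := by ring
  rw [e]
  linarith only [PI, II]

end Crest.Agent.R160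

end
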