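import Crest.Agent.R160.Incr
import Crest.Agent.R160.Phase1
import Crest.Agent.R160.Phase2
import Crest.Agent.R160.Cont

/-!
The strong models are Cauchy as the temperature approaches the threshold.
-/

set_option autoImplicit false

open MeasureTheory unitInterval Filter Topology
open Crest.ProbabilityR Crest.ProbabilityR.Labels Crest.ProbabilityR.TreeIsing
open scoped Classical

noncomputable section

namespace Crest.Agent.R160

universe u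

variable {V : Type u} {G : SimpleGraph V} [G.LocallyFinite] {d : ℕ}

namespace CauchyAux

theorem tendsto_exp_sq_sub (a : ℝ) {c : ℝ} (hc : 0 < c) :
    Tendsto (fun j : ℕ => Real.exp (a * (j : ℝ) ^ 2 - c * 2 ^ j)) atTop (𝓝 0) := by
  refine Real.tendsto_exp_atBot.comp ?_
  have h1 := (tendsto_pow_const_div_const_pow_of_one_lt 2 (r := (2 : ℝ)) one_lt_two).const_mul a
  rw [mul_zero] at h1
  have h2 : ∀ᶠ j : ℕ in atTop, a * ((j : ℝ) ^ 2 / 2 ^ j) < c / 2 :=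
    h1.eventually (gt_mem_nhds (by linarith))
  have h3 : Tendsto (fun j : ℕ => -(c / 2) * (2 : ℝ) ^ j) atTop atBot :=
    (tendsto_pow_atTop_atTop_of_one_lt one_lt_two).const_mul_atTop_of_neg (by linarith)
  refine tendsto_atBot_mono' _ ?_ h3
  filter_upwards [h2] with j hj
  have hp : (0 : ℝ) < 2 ^ j := by positivity
  rw [← mul_div_assoc, div_lt_iff₀ hp] at hj
  linarith

theorem two_pow_le_exp_sq (j : ℕ) : (2 : ℝ) ^ j ≤ Real.exp ((j : ℝ) ^ 2) := by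
  have h1 : (2 : ℝ) ≤ Real.exp 1 := by
    have := Real.add_one_le_exp (1 : ℝ); linarith
  calc (2 : ℝ) ^ j ≤ Real.exp 1 ^ j := pow_le_pow_left₀ (by norm_num) h1 j
    _ = Real.exp j := by rw [← Real.exp_nat_mul, mul_one]
    _ ≤ Real.exp ((j : ℝ) ^ 2) := by
        apply Real.exp_le_exp.2
        have : j ≤ j ^ 2 := Nat.le_self_pow (by norm_num) j
        exact_mod_cast this

/-- Choice of the level `j`. -/
theorem exists_level (a b P Q R : ℝ) (hP : 0 ≤ P) {c η : ℝ} (hc : 0 < c) (hη : 0 < η) :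
    ∃ j : ℕ, Real.exp (-(j : ℝ) ^ 2) ≤ 1 / 20 ∧
      Real.exp (a * (j : ℝ) ^ 2 + b) * (P * Real.exp (-(c / Real.exp (-(j : ℝ) ^ 2))) +
        Real.exp (-(2 : ℝ) ^ j) * (Q / Real.exp (-(j : ℝ) ^ 2) + R)) ≤ η := by
  have l1 := (tendsto_exp_sq_sub a hc).const_mul (Real.exp b * P)
  have l2 := (tendsto_exp_sq_sub (a + 1) one_pos).const_mul (Real.exp b * Q)
  have l3 := (tendsto_exp_sq_sub a one_pos).const_mul (Real.exp b * R)
  have l4 := (l1.add l2).add l3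
  simp only [mul_zero, add_zero] at l4
  have l5 := tendsto_exp_sq_sub 0 one_pos
  obtain ⟨j, h1, h2⟩ := ((l4.eventually (gt_mem_nhds hη)).and (eventually_ge_atTop 2)).exists
  refine ⟨j, ?_, le_trans ?_ h1.le⟩
  · have hj : (2 : ℝ) ≤ j := by exact_mod_cast h2
    have h4 : (4 : ℝ) ≤ (j : ℝ) ^ 2 := by nlinarith
    have h5 : (20 : ℝ) ≤ Real.exp ((j : ℝ) ^ 2) := by
      have e1 : Real.exp 4 = Real.exp 1 ^ 4 := by rw [← Real.exp_nat_mul]; norm_num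
      have e2 : (2.7 : ℝ) ≤ Real.exp 1 := by linarith [Real.exp_one_gt_d9]
      have e3 : (2.7 : ℝ) ^ 4 ≤ Real.exp 1 ^ 4 := pow_le_pow_left₀ (by norm_num) e2 4
      have e4 := Real.exp_le_exp.2 h4
      norm_num at e3
      linarith
    rw [Real.exp_neg, inv_eq_one_div]
    exact one_div_le_one_div_of_le (by norm_num) h5
  · have e1 : c / Real.exp (-(j : ℝ) ^ 2) = c * Real.exp ((j : ℝ) ^ 2) := by
      rw [Real.exp_neg, div_inv_eq_mul]
    have e2 : Q / Real.exp (-(j : ℝ) ^ 2) = Q * Real.exp ((j : ℝ) ^ 2) := by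
      rw [Real.exp_neg, div_inv_eq_mul]
    have e3 : Real.exp (-(c * Real.exp ((j : ℝ) ^ 2))) ≤ Real.exp (-(c * 2 ^ j)) :=
      Real.exp_le_exp.2 (neg_le_neg (mul_le_mul_of_nonneg_left (two_pow_le_exp_sq j) hc.le))
    rw [e1, e2]
    have f1 : Real.exp (a * (j : ℝ) ^ 2 - c * 2 ^ j) =
        Real.exp (a * (j : ℝ) ^ 2) * Real.exp (-(c * 2 ^ j)) := by rw [← Real.exp_add]; ring_nf
    have f2 : Real.exp ((a + 1) * (j : ℝ) ^ 2 - 1 * 2 ^ j) =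
        Real.exp (a * (j : ℝ) ^ 2) * Real.exp ((j : ℝ) ^ 2) * Real.exp (-(2 : ℝ) ^ j) := by
      rw [← Real.exp_add, ← Real.exp_add]; ring_nf
    have f3 : Real.exp (a * (j : ℝ) ^ 2 - 1 * 2 ^ j) =
        Real.exp (a * (j : ℝ) ^ 2) * Real.exp (-(2 : ℝ) ^ j) := by rw [← Real.exp_add]; ring_nf
    rw [f1, f2, f3, Real.exp_add]
    have g1 : 0 ≤ Real.exp (a * (j : ℝ) ^ 2) * Real.exp b * P := by positivity
    nlinarith [mul_le_mul_of_nonneg_left e3 g1]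

/-- Choice of the starting time. -/
theorem exists_start (P : ℝ) {c η s₀ : ℝ} (hc : 0 < c) (hη : 0 < η) (hs₀ : 0 < s₀) :
    ∃ s₁ : ℝ, 0 < s₁ ∧ s₁ ≤ s₀ ∧ P * (s₁ ^ 4 + Real.exp (-(c / s₁))) ≤ η := by
  have l1 : Tendsto (fun s : ℝ => s ^ 4) (𝓝[>] 0) (𝓝 0) := by
    have : Tendsto (fun s : ℝ => s ^ 4) (𝓝 0) (𝓝 (0 ^ 4)) := (continuous_pow 4).tendsto 0
    simpa using this.mono_left nhdsWithin_le_nhds
  have l2 : Tendsto (fun s : ℝ => Real.exp (-(c / s))) (𝓝[>] 0) (𝓝 0) := by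
    refine Real.tendsto_exp_atBot.comp (tendsto_neg_atTop_atBot.comp ?_)
    exact (tendsto_inv_nhdsGT_zero.const_mul_atTop hc).congr fun x => (div_eq_mul_inv c x).symm
  have l3 := (l1.add l2).const_mul P
  simp only [add_zero, mul_zero] at l3
  obtain ⟨s, h1, h2⟩ := ((l3.eventually (gt_mem_nhds hη)).and
    (Ioc_mem_nhdsGT hs₀)).exists
  exact ⟨s, h2.1, h2.2, h1.le⟩

/-- Choice of the accuracy. -/
theorem exists_acc (P : ℝ) {η : ℝ} (hη : 0 < η) : ∃ δ : ℝ, 0 < δ ∧ P * δ ^ 2 ≤ η := by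
  have l1 : Tendsto (fun s : ℝ => P * s ^ 2) (𝓝[>] 0) (𝓝 0) := by
    have : Tendsto (fun s : ℝ => P * s ^ 2) (𝓝 0) (𝓝 (P * 0 ^ 2)) :=
      (continuous_const.mul (continuous_pow 2)).tendsto 0
    simpa using this.mono_left nhdsWithin_le_nhds
  obtain ⟨s, h1, h2⟩ := ((l1.eventually (gt_mem_nhds hη)).and self_mem_nhdsWithin).exists
  exact ⟨s, h2, h1.le⟩

/-- Choice of the temperature. -/
theorem exists_theta (hd : 3 ≤ d) {s δ : ℝ} (hs : 0 < s) (hδ : 0 < δ) :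
    ∃ θ₀ : ℝ, Subc d θ₀ ∧ (∀ θ, Subc d θ → θ₀ ≤ θ → Near d θ s) ∧
      ∀ θ θ', Subc d θ → Subc d θ' → θ₀ ≤ θ → θ₀ ≤ θ' → |θ - θ'| ≤ δ := by
  have hd2 : (2 : ℝ) ≤ (d : ℝ) - 1 := by
    have : (3 : ℝ) ≤ d := by exact_mod_cast hd
    linarith
  set r := rad s with hr
  have hr1 : (1 : ℝ) ≤ r := by exact_mod_cast one_le_rad hs
  set ρ : ℝ := min (1 / (4 * r)) δ with hρ
  have hρ0 : 0 < ρ := lt_min (by positivity) hδ
  have hρ1 : ρ ≤ 1 / (4 * r) := min_le_left _ _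
  have hρ2 : ρ * (4 * r) ≤ 1 := by rwa [le_div_iff₀ (by positivity)] at hρ1
  have hρ3 : ρ ≤ 1 / 4 := by nlinarith
  set tc : ℝ := 1 / Real.sqrt ((d : ℝ) - 1) with htc
  have hsq : 0 < Real.sqrt ((d : ℝ) - 1) := Real.sqrt_pos.2 (by linarith)
  have htc0 : 0 < tc := by positivity
  have htc2 : ((d : ℝ) - 1) * tc ^ 2 = 1 := by
    rw [htc, div_pow, Real.sq_sqrt (by linarith)]; field_simp
  have htc1 : tc ≤ 1 := by nlinarith
  have hlt : ∀ θ, Subc d θ → θ ≤ tc := by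
    intro θ hθ
    by_contra hcon
    have h2 : tc ^ 2 ≤ θ ^ 2 := pow_le_pow_left₀ htc0.le (not_le.1 hcon).le 2
    have := hθ.2
    nlinarith
  have hq : ((d : ℝ) - 1) * (tc * (1 - ρ)) ^ 2 = (1 - ρ) ^ 2 := by
    rw [mul_pow, ← mul_assoc, htc2, one_mul]
  refine ⟨tc * (1 - ρ), ⟨mul_nonneg htc0.le (by linarith), by rw [hq]; nlinarith⟩,
    fun θ hθ h0 => ⟨hθ, ?_⟩, fun θ θ' hθ hθ' h0 h0' => ?_⟩
  · have h1 : (1 - ρ) ^ 2 ≤ ((d : ℝ) - 1) * θ ^ 2 := by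
      rw [← hq]
      exact mul_le_mul_of_nonneg_left
        (pow_le_pow_left₀ (mul_nonneg htc0.le (by linarith)) h0 2) (by linarith)
    have h2 : 1 + ((2 * r : ℕ) : ℝ) * (-ρ) ≤ (1 + -ρ) ^ (2 * r) :=
      one_add_mul_le_pow (by linarith) _
    calc (1 : ℝ) / 2 ≤ 1 + ((2 * r : ℕ) : ℝ) * (-ρ) := by push_cast; nlinarith
      _ ≤ (1 + -ρ) ^ (2 * r) := h2
      _ = ((1 - ρ) ^ 2) ^ r := by rw [pow_mul]; ring_nf
      _ ≤ _ := pow_le_pow_left₀ (sq_nonneg _) h1 r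
  · have h1 := hlt θ hθ
    have h2 := hlt θ' hθ'
    have h3 : ρ ≤ δ := min_le_right _ _
    rw [abs_le]
    constructor <;> nlinarith

end CauchyAux

open CauchyAux

theorem cauchy (h : RT G d) (k : ℕ) {η : ℝ} (hη : 0 < η) :
    ∃ θ₀ : ℝ, Subc d θ₀ ∧ ∀ θ θ', Subc d θ → Subc d θ' → θ₀ ≤ θ → θ₀ ≤ θ' → ∀ o : V,
      uu G θ θ' k o ≤ η := by
  obtain ⟨c₁, C₁, hc₁, hC₁, H₁⟩ := uu_small h
  obtain ⟨c₂, C₂, hc₂, hC₂, H₂⟩ := phase1 h
  obtain ⟨C₃, hC₃, H₃⟩ := phase2 h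
  have hd := h.three
  set K : ℝ := (k : ℝ) + 1 with hK
  have hK1 : 1 ≤ K := by rw [hK]; linarith [(Nat.cast_nonneg k : (0 : ℝ) ≤ k)]
  set A : ℝ := (6000 * ((d : ℝ) - 1)) ^ 2 with hA
  have hA0 : 0 ≤ A := sq_nonneg _
  set α : ℝ := 60 * A * C₃ with hα
  have hα0 : 0 ≤ α := by positivity
  set a : ℝ := 2 * α + 2 * C₃ * K with ha
  set b : ℝ := 2 * α * (Real.log K + 1) + 2 * (C₃ * (60 * A * 2 ^ 15)) * K with hb
  have hη3 : 0 < η / 3 := by positivity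
  obtain ⟨j, hj1, hj2⟩ := exists_level a b (Real.exp (4 * C₂) * (2 * C₂))
    (K * (2 * C₃ * A * 15)) (K * (2 * C₃ * A * (15 * 2 ^ 15))) (by positivity) hc₂ hη3
  set s₀ : ℝ := Real.exp (-(j : ℝ) ^ 2) with hs₀
  have hs₀0 : 0 < s₀ := Real.exp_pos _
  set E : ℝ := Real.exp (a * (j : ℝ) ^ 2 + b) with hE
  have hE0 : 0 < E := Real.exp_pos _
  obtain ⟨s₁, hs₁0, hs₁₀, hs₁⟩ := exists_start (E * Real.exp (4 * C₂) * C₁) hc₁ hη3 hs₀0
  obtain ⟨B, hB0, HB⟩ := H₃ s₁ hs₁0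
  obtain ⟨δ, hδ0, hδ⟩ := exists_acc
    (E * (Real.exp (4 * C₂) * (2 * C₂) * (2 / s₁ ^ 13) + K * (B / 2))) hη3
  obtain ⟨γ, hγ0, hγ⟩ := cont h hs₁0 hδ0
  obtain ⟨θ₀, hθ₀, hnear, hclose⟩ := exists_theta hd hs₁0 (lt_min hγ0 hδ0)
  refine ⟨θ₀, hθ₀, fun θ θ' hθ hθ' h0 h0' o => ?_⟩
  have hn := hnear θ hθ h0
  have hn' := hnear θ' hθ' h0'
  have hcl := hclose θ θ' hθ hθ' h0 h0'
  have hΔ : (θ - θ') ^ 2 ≤ δ ^ 2 := by
    rw [← sq_abs]; exact pow_le_pow_left₀ (abs_nonneg _) (hcl.trans (min_le_right _ _)) 2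
  set u : ℝ → ℝ := fun s => uu G θ θ' s o with hu
  have hu0 : ∀ s, 0 ≤ u s := fun s => uu_nonneg θ θ' s o
  have hmono : ∀ s s', s ≤ s' → u s ≤ u s' := fun s s' hs => uu_mono h hθ hθ' o hs
  -- phase one
  set γ₁ : ℝ := 2 * C₂ * (Real.exp (-(c₂ / s₀)) + 2 * δ ^ 2 / s₁ ^ 13) with hγ₁
  have hγ₁0 : 0 ≤ γ₁ := by positivity
  have P1 : u s₀ ≤ Real.exp (2 * (2 * C₂) * (s₀ - s₁)) * (u s₁ + (s₀ - s₁) * γ₁) := by
    refine gron u hs₁₀ (by positivity) hγ₁0 (fun s _ => hu0 s) fun t₁ t₂ h1 h2 h3 => ?_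
    have := uu_incr h hθ hθ' o (b := C₂ * u t₂ + γ₁ / 2) h2
      (by have := hu0 t₂; positivity) fun s hs N => by
        have hs0 : 0 < s := lt_of_lt_of_le hs₁0 (h1.trans hs.1)
        have hss : s ≤ s₀ := hs.2.le.trans h3
        have hs1 : s₁ ≤ s := h1.trans hs.1
        refine (H₂ θ θ' s δ hs0 (hss.trans hj1) (hn.mono hd hs₁0 hs1) (hn'.mono hd hs₁0 hs1)
          (fun y x hyx => hγ θ θ' hn hn' (hcl.trans (min_le_left _ _)) s hs1
            (by linarith) y x hyx) o N).trans ?_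
        have e1 : u s ≤ u t₂ := hmono _ _ hs.2.le
        have e2 : Real.exp (-(c₂ / s)) ≤ Real.exp (-(c₂ / s₀)) :=
          Real.exp_le_exp.2 (neg_le_neg (div_le_div_of_nonneg_left hc₂.le hs0 hss))
        have e3 : (δ ^ 2 + (θ - θ') ^ 2) / s ^ 13 ≤ 2 * δ ^ 2 / s₁ ^ 13 :=
          div_le_div₀ (by positivity) (by linarith) (by positivity)
            (pow_le_pow_left₀ hs₁0.le hs1 13)
        have e4 : C₂ * u t₂ + γ₁ / 2 =
            C₂ * (u t₂ + Real.exp (-(c₂ / s₀)) + 2 * δ ^ 2 / s₁ ^ 13) := by rw [hγ₁]; ring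
        rw [e4]
        exact mul_le_mul_of_nonneg_left (by linarith) hC₂.le
    change u t₂ ≤ u t₁ + _ at this
    linarith only [this]
  have hs₀1 : s₀ ≤ 1 := hj1.trans (by norm_num)
  have P1' : u s₀ ≤ Real.exp (4 * C₂) * (u s₁ + γ₁) := by
    have h01 : s₀ - s₁ ≤ 1 := by linarith only [hs₀1, hs₁0]
    have h02 := mul_le_mul_of_nonneg_left h01 hC₂.le
    refine P1.trans (mul_le_mul (Real.exp_le_exp.2 (by linarith only [h02])) ?_
      (add_nonneg (hu0 _) (mul_nonneg (by linarith only [hs₁₀]) hγ₁0)) (Real.exp_pos _).le)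
    have := mul_le_mul_of_nonneg_right h01 hγ₁0
    linarith only [this]
  have P0 : u s₁ ≤ C₁ * (s₁ ^ 4 + Real.exp (-(c₁ / s₁))) :=
    H₁ θ θ' s₁ hs₁0 (hs₁₀.trans hj1) hn hn' o
  -- phase two
  set β : ℝ := C₃ * ((j : ℝ) ^ 2 + 60 * A * 2 ^ 15) with hβ
  have hβ0 : 0 ≤ β := by positivity
  set γ₂ : ℝ := 2 * C₃ * A * Real.exp (-(2 : ℝ) ^ j) * (15 / s₀ + 15 * 2 ^ 15) + B / 2 * δ ^ 2
    with hγ₂
  have hγ₂0 : 0 ≤ γ₂ := by positivity
  have P2 : u K ≤ Real.exp (2 * α * (Real.log (K / s₀) + 1) + 2 * β * (K - s₀)) *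
      (u s₀ + (K - s₀) * γ₂) := by
    refine gron_log u hs₀0 (by linarith) hα0 hβ0 hγ₂0 (fun s _ => hu0 s) fun t₁ t₂ h1 h2 h3 => ?_
    have ht₁ : 0 < t₁ := lt_of_lt_of_le hs₀0 h1
    have := uu_incr h hθ hθ' o (b := ((α / t₁ + β) * u t₂ + γ₂) / 2) h2
      (by have := hu0 t₂; positivity) fun s hs N => by
        have hs0 : 0 < s := lt_of_lt_of_le ht₁ hs.1
        have hs1 : s₁ ≤ s := hs₁₀.trans (h1.trans hs.1)
        have e0 := HB θ θ' s hs1 hn hn' j o N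
        have e1 : u s ≤ u t₂ := hmono _ _ hs.2.le
        have hp := pp_pos hd hs0
        have he0 := epsf_nonneg s
        have he1 := epsf_le s
        have he2 : epsf s ^ 2 ≤ 1 / 4 := by nlinarith only [he0, he1]
        have e2 := epsf_sq_div_pp_sq_le hd hs0
        rw [← hA] at e2
        have e3 : 15 / s ≤ 15 / t₁ := div_le_div_of_nonneg_left (by norm_num) ht₁ hs.1
        have e4 : 15 / s ≤ 15 / s₀ := div_le_div_of_nonneg_left (by norm_num) hs₀0 (h1.trans hs.1)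
        have e5 : epsf s ^ 2 * ((j : ℝ) + 1 / pp d s) ^ 2 ≤
            (j : ℝ) ^ 2 / 2 + 2 * (A * (15 / t₁ + 15 * 2 ^ 15)) := by
          have f1 : ((j : ℝ) + 1 / pp d s) ^ 2 ≤ 2 * (j : ℝ) ^ 2 + 2 * (1 / pp d s ^ 2) := by
            rw [← one_div_pow]; nlinarith only [sq_nonneg ((j : ℝ) - 1 / pp d s)]
          have f2 : epsf s ^ 2 * (1 / pp d s ^ 2) ≤ A * (15 / t₁ + 15 * 2 ^ 15) := by
            rw [mul_one_div]
            exact e2.trans (mul_le_mul_of_nonneg_left (by linarith) hA0)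
          have f3 := mul_le_mul_of_nonneg_left f1 (sq_nonneg (epsf s))
          have f4 := mul_le_mul_of_nonneg_right he2 (sq_nonneg (j : ℝ))
          refine f3.trans ?_
          have f5 : epsf s ^ 2 * (2 * (j : ℝ) ^ 2 + 2 * (1 / pp d s ^ 2)) =
              2 * (epsf s ^ 2 * (j : ℝ) ^ 2) + 2 * (epsf s ^ 2 * (1 / pp d s ^ 2)) := by ring
          rw [f5]
          linarith only [f2, f4]
        have e6 : epsf s ^ 2 * (Real.exp (-(2 : ℝ) ^ j) / pp d s ^ 2) ≤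
            A * Real.exp (-(2 : ℝ) ^ j) * (15 / s₀ + 15 * 2 ^ 15) := by
          have f2 : epsf s ^ 2 / pp d s ^ 2 ≤ A * (15 / s₀ + 15 * 2 ^ 15) :=
            e2.trans (mul_le_mul_of_nonneg_left (by linarith) hA0)
          calc _ = Real.exp (-(2 : ℝ) ^ j) * (epsf s ^ 2 / pp d s ^ 2) := by ring
            _ ≤ Real.exp (-(2 : ℝ) ^ j) * (A * (15 / s₀ + 15 * 2 ^ 15)) :=
                mul_le_mul_of_nonneg_left f2 (Real.exp_pos _).le
            _ = _ := by ring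
        have e7 : epsf s ^ 2 * (B * (θ - θ') ^ 2) ≤ 1 / 4 * (B * δ ^ 2) :=
          mul_le_mul he2 (mul_le_mul_of_nonneg_left hΔ hB0) (by positivity) (by norm_num)
        have e8 : epsf s ^ 2 * ((j : ℝ) + 1 / pp d s) ^ 2 * u s ≤
            ((j : ℝ) ^ 2 / 2 + 2 * (A * (15 / t₁ + 15 * 2 ^ 15))) * u t₂ :=
          mul_le_mul e5 e1 (hu0 s) (by positivity)
        refine (mul_le_mul_of_nonneg_left e0 (sq_nonneg _)).trans ?_
        have e9 : ((α / t₁ + β) * u t₂ + γ₂) / 2 =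
            C₃ * (((j : ℝ) ^ 2 / 2 + 2 * (A * (15 / t₁ + 15 * 2 ^ 15))) * u t₂ +
              A * Real.exp (-(2 : ℝ) ^ j) * (15 / s₀ + 15 * 2 ^ 15)) + 1 / 4 * (B * δ ^ 2) := by
          rw [hα, hβ, hγ₂]; ring
        rw [e9]
        have e10 := mul_le_mul_of_nonneg_left (add_le_add e8 e6) hC₃.le
        have e11 : epsf s ^ 2 * (C₃ * (((j : ℝ) + 1 / pp d s) ^ 2 * uu G θ θ' s o +
            Real.exp (-(2 : ℝ) ^ j) / pp d s ^ 2) + B * (θ - θ') ^ 2) =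
            C₃ * (epsf s ^ 2 * ((j : ℝ) + 1 / pp d s) ^ 2 * u s +
              epsf s ^ 2 * (Real.exp (-(2 : ℝ) ^ j) / pp d s ^ 2)) +
              epsf s ^ 2 * (B * (θ - θ') ^ 2) := by simp only [hu]; ring
        rw [e11]
        exact add_le_add e10 e7
    change u t₂ ≤ u t₁ + _ at this
    linarith only [this]
  have hexp : Real.exp (2 * α * (Real.log (K / s₀) + 1) + 2 * β * (K - s₀)) ≤ E := by
    refine Real.exp_le_exp.2 ?_
    rw [Real.log_div (by linarith) hs₀0.ne', hs₀, Real.log_exp, ← hs₀, ha, hb]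
    have h1 : 0 ≤ β * s₀ := by positivity
    have h2 : 2 * α * (Real.log K - -(j : ℝ) ^ 2 + 1) + 2 * β * (K - s₀) + 2 * (β * s₀) =
        (2 * α + 2 * C₃ * K) * (j : ℝ) ^ 2 +
          (2 * α * (Real.log K + 1) + 2 * (C₃ * (60 * A * 2 ^ 15)) * K) := by
      rw [hβ]; ring
    linarith only [h1, h2]
  have P2' : u K ≤ E * (u s₀ + K * γ₂) := by
    refine P2.trans (mul_le_mul hexp ?_
      (add_nonneg (hu0 _) (mul_nonneg (by linarith only [hK1, hs₀1]) hγ₂0)) hE0.le)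
    have := mul_le_mul_of_nonneg_right (show K - s₀ ≤ K by linarith only [hs₀0]) hγ₂0
    linarith only [this]
  have hkK : u k ≤ u K := hmono _ _ (by rw [hK]; linarith)
  have fin1 : u s₀ ≤ Real.exp (4 * C₂) * (C₁ * (s₁ ^ 4 + Real.exp (-(c₁ / s₁))) + γ₁) :=
    P1'.trans (mul_le_mul_of_nonneg_left (by linarith) (Real.exp_pos _).le)
  have fin2 : u K ≤ E * (Real.exp (4 * C₂) * (C₁ * (s₁ ^ 4 + Real.exp (-(c₁ / s₁))) + γ₁) +
      K * γ₂) := P2'.trans (mul_le_mul_of_nonneg_left (by linarith) hE0.le)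
  have fin3 : E * (Real.exp (4 * C₂) * (C₁ * (s₁ ^ 4 + Real.exp (-(c₁ / s₁))) + γ₁) + K * γ₂) =
      E * Real.exp (4 * C₂) * C₁ * (s₁ ^ 4 + Real.exp (-(c₁ / s₁))) +
      E * (Real.exp (4 * C₂) * (2 * C₂) * Real.exp (-(c₂ / s₀)) +
        Real.exp (-(2 : ℝ) ^ j) * (K * (2 * C₃ * A * 15) / s₀ + K * (2 * C₃ * A * (15 * 2 ^ 15)))) +
      E * (Real.exp (4 * C₂) * (2 * C₂) * (2 / s₁ ^ 13) + K * (B / 2)) * δ ^ 2 := by
    rw [hγ₁, hγ₂]; ring
  change u k ≤ η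
  linarith only [hkK, fin2, fin3, hs₁, hj2, hδ]

end Crest.Agent.R160

end
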