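import Crest.Agent.R160.Defs

/-!
The observation channel and the signal strength.
-/

set_option autoImplicit false

open MeasureTheory unitInterval Filter Topology
open Crest.ProbabilityR Crest.ProbabilityR.Labels Crest.ProbabilityR.TreeIsing
open scoped Classical

noncomputable section

namespace Crest.Agent.R160

universe u

variable {V : Type u} {G : SimpleGraph V} [G.LocallyFinite] {d : ℕ}

namespace ChanAux

theorem integral_unitInterval (f : ℝ → ℝ) :
    ∫ y : I, f y = ∫ x in (0 : ℝ)..1, f x := by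
  rw [intervalIntegral.integral_of_le zero_le_one, ← integral_Icc_eq_integral_Ioc]
  exact unitInterval.measurePreserving_coe.integral_comp unitInterval.measurableEmbedding_coe f

theorem qt_spec {c : ℝ} (hc : |c| ≤ 1 / 2) (u : I) :
    (qt c u : ℝ) + c * ((qt c u : ℝ) ^ 2 - qt c u) = u := by
  have hu0 := u.2.1
  have hu1 := u.2.2
  obtain ⟨hc0, hc1⟩ := abs_le.1 hc
  set D := Real.sqrt ((1 - c) ^ 2 + 4 * c * u) with hD
  have hD0 : 0 ≤ D := Real.sqrt_nonneg _
  have hpos : 0 ≤ (1 - c) ^ 2 + 4 * c * u := by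
    nlinarith [mul_nonneg hu0 (sq_nonneg (1 + c)), mul_nonneg (sub_nonneg.2 hu1) (sq_nonneg (1 - c))]
  have hDsq : D ^ 2 = (1 - c) ^ 2 + 4 * c * u := Real.sq_sqrt hpos
  have hden : 0 < (1 - c) + D := by linarith
  have hmem : 2 * (u : ℝ) / ((1 - c) + D) ∈ Set.Icc (0 : ℝ) 1 := by
    refine ⟨by positivity, ?_⟩
    rw [div_le_one hden]
    have : 2 * (u : ℝ) - (1 - c) ≤ D := by
      apply Real.le_sqrt_of_sq_le
      nlinarith [mul_nonneg hu0 (sub_nonneg.2 hu1)]
    linarith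
  have hq : (qt c u : ℝ) = 2 * (u : ℝ) / ((1 - c) + D) := by
    unfold qt
    rw [Set.projIcc_of_mem _ hmem]
  rw [hq]
  set y : ℝ := 2 * (u : ℝ) / ((1 - c) + D) with hy
  have hy' : y * ((1 - c) + D) = 2 * u := by rw [hy]; exact div_mul_cancel₀ _ hden.ne'
  have hsq : ((1 - c) + D) ^ 2 ≠ 0 := pow_ne_zero 2 hden.ne'
  apply mul_left_cancel₀ hsq
  have e1 : ((1 - c) + D) ^ 2 * (y + c * (y ^ 2 - y)) =
      (1 - c) * ((1 - c) + D) * (y * ((1 - c) + D)) + c * (y * ((1 - c) + D)) ^ 2 := by ring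
  rw [e1, hy']
  linear_combination (-(u : ℝ)) * hDsq

theorem cdf_mem {c : ℝ} (hc : |c| ≤ 1 / 2) {y : ℝ} (hy : y ∈ Set.Icc (0 : ℝ) 1) :
    y + c * (y ^ 2 - y) ∈ Set.Icc (0 : ℝ) 1 := by
  obtain ⟨hc0, hc1⟩ := abs_le.1 hc
  have h1 := mul_nonneg hy.1 (sub_nonneg.2 hy.2)
  constructor <;> nlinarith [hy.1, hy.2]

theorem coe_cdq {c : ℝ} (hc : |c| ≤ 1 / 2) (y : I) :
    (cdq c y : ℝ) = y + c * ((y : ℝ) ^ 2 - y) := by
  unfold cdq
  rw [Set.projIcc_of_mem _ (cdf_mem hc y.2)]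

theorem half_le {c : ℝ} (hc : |c| ≤ 1 / 2) {y y' : ℝ} (hy : y ∈ Set.Icc (0 : ℝ) 1)
    (hy' : y' ∈ Set.Icc (0 : ℝ) 1) : 1 / 2 ≤ 1 + c * (y + y' - 1) := by
  obtain ⟨hc0, hc1⟩ := abs_le.1 hc
  nlinarith [hy.1, hy.2, hy'.1, hy'.2]

theorem cdf_inj {c : ℝ} (hc : |c| ≤ 1 / 2) :
    Set.InjOn (fun y : ℝ => y + c * (y ^ 2 - y)) (Set.Icc 0 1) := by
  intro y hy y' hy' h
  have h3 : (y - y') * (1 + c * (y + y' - 1)) = 0 := by
    simp only at h
    linear_combination h
  have h4 := half_le hc hy hy'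
  rcases mul_eq_zero.1 h3 with h5 | h5
  · linarith
  · linarith

theorem abs_mul_le_half {e m : ℝ} (he : 0 ≤ e) (he' : e ≤ 1 / 2) (hm : |m| ≤ 1) :
    |e * m| ≤ 1 / 2 := by
  rw [abs_mul, abs_of_nonneg he]
  nlinarith [abs_nonneg m]

theorem half_le_den {a e m : ℝ} (ha : |a| ≤ e) (he' : e ≤ 1 / 2) (hm : |m| ≤ 1) :
    1 / 2 ≤ 1 + a * m := by
  have h1 : |a * m| ≤ 1 / 2 := by
    rw [abs_mul]
    nlinarith [abs_nonneg m, abs_nonneg a]
  linarith [(abs_le.1 h1).1]

end ChanAux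

open ChanAux

theorem spin_sq (b : Bool) : spin b ^ 2 = 1 := by
  cases b <;> simp [spin]

theorem abs_spin (b : Bool) : |spin b| = 1 := by
  cases b <;> simp [spin]

theorem spin_not (b : Bool) : spin (!b) = -spin b := by
  cases b <;> simp [spin]

theorem measurable_spin : Measurable spin := by
  exact measurable_of_finite _

theorem measurable_qt : Measurable (fun q : ℝ × I => qt q.1 q.2) := by
  unfold qt
  refine (continuous_projIcc.measurable).comp ?_
  fun_prop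

theorem measurable_cdq : Measurable (fun q : ℝ × I => cdq q.1 q.2) := by
  unfold cdq
  refine (continuous_projIcc.measurable).comp ?_
  fun_prop

theorem measurable_lk : Measurable (fun q : ℝ × I => lk q.1 q.2) := by
  unfold lk
  fun_prop

theorem measurable_sig : Measurable (fun q : ℝ × ℝ × I => sig q.1 q.2.1 q.2.2) := by
  unfold sig
  exact measurable_lk.comp (f := fun q : ℝ × ℝ × I => (q.1, qt (q.1 * q.2.1) q.2.2))
    (measurable_fst.prodMk (measurable_qt.comp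
      (f := fun q : ℝ × ℝ × I => (q.1 * q.2.1, q.2.2)) (by fun_prop)))

theorem measurable_phi : Measurable (fun q : ℝ × ℝ × I => phi q.1 q.2.1 q.2.2) := by
  unfold phi
  exact measurable_sig.div (measurable_const.add (measurable_sig.mul (by fun_prop)))

theorem measurable_epsf : Measurable epsf := by
  change Measurable (fun s : ℝ => if s ≤ 1 / 2 then (max s 0) ^ 7 else if s < 1 then (0 : ℝ)
    else if Int.fract s ≤ 1 / 2 then 1 / 2 else 0)
  refine Measurable.ite measurableSet_Iic (by fun_prop) ?_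
  refine Measurable.ite measurableSet_Iio measurable_const ?_
  exact Measurable.ite (measurableSet_le measurable_fract measurable_const) measurable_const
    measurable_const

theorem cdq_qt {c : ℝ} (hc : |c| ≤ 1 / 2) (u : I) : cdq c (qt c u) = u := by
  apply Subtype.ext
  rw [coe_cdq hc, qt_spec hc]

theorem qt_cdq {c : ℝ} (hc : |c| ≤ 1 / 2) (y : I) : qt c (cdq c y) = y := by
  apply Subtype.ext
  apply cdf_inj hc (qt c _).2 y.2
  simp only
  rw [qt_spec hc, coe_cdq hc]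

theorem abs_qt_sub_le {c c' : ℝ} (hc : |c| ≤ 1 / 2) (hc' : |c'| ≤ 1 / 2) (u : I) :
    |(qt c u : ℝ) - qt c' u| ≤ |c - c'| / 2 := by
  have h1 := qt_spec hc u
  have h2 := qt_spec hc' u
  have h4 := half_le hc (qt c u).2 (qt c' u).2
  set y : ℝ := ((qt c u : I) : ℝ)
  set y' : ℝ := ((qt c' u : I) : ℝ)
  have hy0' : 0 ≤ y' := (qt c' u).2.1
  have hy1' : y' ≤ 1 := (qt c' u).2.2
  have h3 : (y - y') * (1 + c * (y + y' - 1)) = (c' - c) * (y' ^ 2 - y') := by
    linear_combination h1 - h2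
  have h5 : |y' ^ 2 - y'| ≤ 1 / 4 := by
    rw [abs_le]; constructor <;> nlinarith [sq_nonneg (y' - 1 / 2)]
  have h6 : |y - y'| * (1 + c * (y + y' - 1)) = |c - c'| * |y' ^ 2 - y'| := by
    rw [← abs_of_nonneg (by linarith : 0 ≤ 1 + c * (y + y' - 1)), ← abs_mul, h3,
      abs_mul, abs_sub_comm c' c]
  have h7 := abs_nonneg (y - y')
  have h8 := abs_nonneg (c - c')
  nlinarith

theorem integral_qt {c : ℝ} (hc : |c| ≤ 1 / 2) (g : I → ℝ) :
    ∫ u : I, g (qt c u) = ∫ y : I, g y * (1 + c * (2 * (y : ℝ) - 1)) := by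
  set F : ℝ → ℝ := fun y => y + c * (y ^ 2 - y) with hF
  have hderiv : ∀ x ∈ Set.Icc (0 : ℝ) 1,
      HasDerivWithinAt F (1 + c * (2 * x - 1)) (Set.Icc 0 1) x := by
    intro x _
    have : HasDerivAt F (1 + c * (2 * x - 1)) x := by
      have h1 : HasDerivAt (fun y : ℝ => y ^ 2 - y) (2 * x - 1) x := by
        have := ((hasDerivAt_pow 2 x).sub (hasDerivAt_id x)).congr_deriv
          (show ((2 : ℕ) : ℝ) * x ^ (2 - 1) - 1 = 2 * x - 1 by norm_num)
        exact this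
      exact (hasDerivAt_id x).add (h1.const_mul c)
    exact this.hasDerivWithinAt
  have hinj : Set.InjOn F (Set.Icc 0 1) := cdf_inj hc
  have himage : F '' Set.Icc 0 1 = Set.Icc 0 1 := by
    apply Set.Subset.antisymm
    · rintro _ ⟨y, hy, rfl⟩; exact cdf_mem hc hy
    · intro u hu
      exact ⟨qt c ⟨u, hu⟩, (qt c ⟨u, hu⟩).2, qt_spec hc ⟨u, hu⟩⟩
  have hleft : ∀ y : I, qt c (Set.projIcc 0 1 zero_le_one (F y)) = y := fun y => qt_cdq hc y
  have e1 : ∀ φ : ℝ → ℝ, ∫ y : I, φ y = ∫ x in Set.Icc (0 : ℝ) 1, φ x := fun φ =>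
    unitInterval.measurePreserving_coe.integral_comp unitInterval.measurableEmbedding_coe φ
  have h := integral_image_eq_integral_abs_deriv_smul measurableSet_Icc hderiv hinj
    (fun u => g (qt c (Set.projIcc 0 1 zero_le_one u)))
  rw [himage, ← e1, ← e1] at h
  simp only [Set.projIcc_val] at h
  rw [h]
  refine integral_congr_ae (Eventually.of_forall fun y => ?_)
  have hpos : 0 ≤ 1 + c * (2 * (y : ℝ) - 1) := by
    have := half_le hc y.2 y.2
    nlinarith
  simp only [hleft, smul_eq_mul, abs_of_nonneg hpos]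
  ring

theorem integral_symm_qt {c : ℝ} (hc : |c| ≤ 1 / 2) (g : I → ℝ) :
    ∫ u : I, g (symm (qt c u)) = ∫ y : I, g y * (1 - c * (2 * (y : ℝ) - 1)) := by
  rw [integral_qt hc (fun y => g (symm y))]
  have h := unitInterval.measurePreserving_symm.integral_comp
    unitInterval.symmMeasurableEquiv.measurableEmbedding
    (fun y : I => g y * (1 - c * (2 * (y : ℝ) - 1)))
  rw [← h]
  refine integral_congr_ae (Eventually.of_forall fun y => ?_)
  simp only [unitInterval.coe_symm_eq]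
  ring

theorem integral_cdq {c : ℝ} (hc : |c| ≤ 1 / 2) (g : I → ℝ) :
    ∫ y : I, g (cdq c y) * (1 + c * (2 * (y : ℝ) - 1)) = ∫ u : I, g u := by
  rw [← integral_qt hc (fun y => g (cdq c y))]
  simp only [cdq_qt hc]

theorem lk_symm (e : ℝ) (y : I) : lk e (symm y) = -lk e y := by
  unfold lk
  rw [unitInterval.coe_symm_eq]
  ring

theorem abs_lk_le {e : ℝ} (he : 0 ≤ e) (y : I) : |lk e y| ≤ e := by
  unfold lk
  have h0 := y.2.1
  have h1 := y.2.2
  rw [abs_le]
  constructor <;> nlinarith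

theorem abs_sig_le {e : ℝ} (he : 0 ≤ e) (m : ℝ) (u : I) : |sig e m u| ≤ e := by
  exact abs_lk_le he _

theorem abs_sig_sub_le {e m m' : ℝ} (he : 0 ≤ e) (he' : e ≤ 1 / 2) (hm : |m| ≤ 1)
    (hm' : |m'| ≤ 1) (u : I) : |sig e m u - sig e m' u| ≤ e ^ 2 * |m - m'| := by
  have h := abs_qt_sub_le (abs_mul_le_half he he' hm) (abs_mul_le_half he he' hm') u
  have e1 : sig e m u - sig e m' u = 2 * e * ((qt (e * m) u : ℝ) - qt (e * m') u) := by
    unfold sig lk; ring
  have e2 : e * m - e * m' = e * (m - m') := by ring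
  rw [e2, abs_mul, abs_of_nonneg he] at h
  rw [e1, abs_mul, abs_of_nonneg (by positivity : 0 ≤ 2 * e)]
  nlinarith

theorem abs_phi_le {e m : ℝ} (he : 0 ≤ e) (he' : e ≤ 1 / 2) (hm : |m| ≤ 1) (u : I) :
    |phi e m u| ≤ 2 * e := by
  have h1 := abs_sig_le he m u
  have h2 := half_le_den h1 he' hm
  unfold phi
  rw [abs_div, abs_of_nonneg (by linarith : 0 ≤ 1 + sig e m u * m), div_le_iff₀ (by linarith)]
  nlinarith

theorem abs_phi_sub_le {e m m' : ℝ} (he : 0 ≤ e) (he' : e ≤ 1 / 2) (hm : |m| ≤ 1)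
    (hm' : |m'| ≤ 1) (u : I) : |phi e m u - phi e m' u| ≤ 4 * e * |m - m'| := by
  have h1 := abs_sig_le he m u
  have h1' := abs_sig_le he m' u
  have h2 := half_le_den h1 he' hm
  have h2' := half_le_den h1' he' hm'
  have h3 := abs_sig_sub_le he he' hm hm' u
  unfold phi
  set a := sig e m u
  set a' := sig e m' u
  have e1 : a / (1 + a * m) - a' / (1 + a' * m') =
      ((a - a') - a * a' * (m - m')) / ((1 + a * m) * (1 + a' * m')) := by
    field_simp
    ring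
  have h4 : 1 / 4 ≤ (1 + a * m) * (1 + a' * m') := by nlinarith
  have h5 : |a * a' * (m - m')| ≤ e ^ 2 * |m - m'| := by
    rw [abs_mul, abs_mul]
    refine mul_le_mul_of_nonneg_right ?_ (abs_nonneg _)
    rw [sq]
    exact mul_le_mul h1 h1' (abs_nonneg _) he
  have h6 : |(a - a') - a * a' * (m - m')| ≤ 2 * e ^ 2 * |m - m'| := by
    have := abs_sub (a - a') (a * a' * (m - m'))
    linarith
  rw [e1, abs_div, abs_of_nonneg (by linarith : 0 ≤ (1 + a * m) * (1 + a' * m')),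
    div_le_iff₀ (by linarith)]
  have h7 : 0 ≤ e * |m - m'| := mul_nonneg he (abs_nonneg _)
  nlinarith

theorem integral_phi {e m : ℝ} (he : 0 ≤ e) (he' : e ≤ 1 / 2) (hm : |m| ≤ 1) :
    ∫ u : I, phi e m u = 0 := by
  have h := integral_qt (abs_mul_le_half he he' hm) (fun y => lk e y / (1 + lk e y * m))
  have e1 : ∀ y : I, lk e y / (1 + lk e y * m) * (1 + e * m * (2 * (y : ℝ) - 1)) =
      (2 * e) * (y : ℝ) ^ 1 - e * (y : ℝ) ^ 0 := by
    intro y
    have h2 := half_le_den (abs_lk_le he y) he' hm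
    have e2 : 1 + e * m * (2 * (y : ℝ) - 1) = 1 + lk e y * m := by unfold lk; ring
    rw [e2, div_mul_cancel₀ _ (by linarith)]
    unfold lk; ring
  unfold phi sig
  rw [h]
  simp only [e1]
  rw [integral_unitInterval (fun x => (2 * e) * x ^ 1 - e * x ^ 0), intervalIntegral.integral_sub,
    intervalIntegral.integral_const_mul, intervalIntegral.integral_const_mul,
    integral_pow, integral_pow]
  · norm_num
    ring
  all_goals
    apply Continuous.intervalIntegrable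
    fun_prop

/-- The square of a difference of two jumps. -/
theorem jump_sub_sq_le {e m m' : ℝ} (he : 0 ≤ e) (he' : e ≤ 1 / 2) (hm : |m| ≤ 1)
    (hm' : |m'| ≤ 1) (K K' : ℝ) (u : I) :
    (K * phi e m u - K' * phi e m' u) ^ 2 ≤
      e ^ 2 * (8 * (K - K') ^ 2 + 32 * K' ^ 2 * (m - m') ^ 2) := by
  have h1 := abs_phi_le he he' hm u
  have h2 := abs_phi_sub_le he he' hm hm' u
  set a := phi e m u
  set a' := phi e m' u
  have h3 : a ^ 2 ≤ (2 * e) ^ 2 := by
    rw [← sq_abs a]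
    exact pow_le_pow_left₀ (abs_nonneg _) h1 2
  have h4 : (a - a') ^ 2 ≤ (4 * e) ^ 2 * (m - m') ^ 2 := by
    rw [← sq_abs (a - a'), ← sq_abs (m - m'), ← mul_pow]
    exact pow_le_pow_left₀ (abs_nonneg _) h2 2
  have e1 : K * a - K' * a' = (K - K') * a + K' * (a - a') := by ring
  have h5 : ((K - K') * a + K' * (a - a')) ^ 2 ≤
      2 * ((K - K') ^ 2 * a ^ 2) + 2 * (K' ^ 2 * (a - a') ^ 2) := by
    nlinarith [sq_nonneg ((K - K') * a - K' * (a - a'))]
  have h6 := mul_le_mul_of_nonneg_left h3 (sq_nonneg (K - K'))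
  have h7 := mul_le_mul_of_nonneg_left h4 (sq_nonneg K')
  rw [e1]
  nlinarith

theorem integral_lk_qt {e : ℝ} (he : 0 ≤ e) (he' : e ≤ 1 / 2) :
    ∫ u : I, lk e (qt e u) = e ^ 2 / 3 := by
  rw [integral_qt (by rw [abs_of_nonneg he]; exact he') (lk e)]
  have e1 : ∀ y : I, lk e y * (1 + e * (2 * (y : ℝ) - 1)) =
      (4 * e ^ 2) * (y : ℝ) ^ 2 + (2 * e - 4 * e ^ 2) * (y : ℝ) ^ 1 + (e ^ 2 - e) * (y : ℝ) ^ 0 := by
    intro y
    unfold lk; ring
  simp only [e1]
  rw [integral_unitInterval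
      (fun x => (4 * e ^ 2) * x ^ 2 + (2 * e - 4 * e ^ 2) * x ^ 1 + (e ^ 2 - e) * x ^ 0),
    intervalIntegral.integral_add, intervalIntegral.integral_add,
    intervalIntegral.integral_const_mul, intervalIntegral.integral_const_mul,
    intervalIntegral.integral_const_mul, integral_pow, integral_pow, integral_pow]
  · norm_num
    ring
  all_goals
    apply Continuous.intervalIntegrable
    fun_prop

theorem epsf_nonneg (s : ℝ) : 0 ≤ epsf s := by
  unfold epsf
  split_ifs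
  · exact pow_nonneg (le_max_right _ _) _
  all_goals norm_num

theorem epsf_le (s : ℝ) : epsf s ≤ 1 / 2 := by
  unfold epsf
  split_ifs with h1
  · have h2 : max s 0 ≤ 1 / 2 := max_le h1 (by norm_num)
    have h3 := pow_le_pow_left₀ (le_max_right s 0) h2 7
    linarith [show ((1 : ℝ) / 2) ^ 7 ≤ 1 / 2 by norm_num]
  all_goals norm_num

theorem epsf_of_le {s : ℝ} (h0 : 0 ≤ s) (h1 : s ≤ 1 / 2) : epsf s = s ^ 7 := by
  unfold epsf
  rw [if_pos h1, max_eq_left h0]

/-- Only the first half of each round is active. -/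
theorem epsf_eq_zero (k : ℕ) {r : ℝ} (h0 : 1 / 2 < r) (h1 : r < 1) : epsf (k + r) = 0 := by
  have hk : (0 : ℝ) ≤ k := Nat.cast_nonneg k
  unfold epsf
  rw [if_neg (by linarith)]
  split_ifs with h2 h3
  · rfl
  · rw [Int.fract_natCast_add, Int.fract_eq_self.2 ⟨by linarith, h1⟩] at h3
    linarith
  · rfl

theorem epsf_le_pow {r s : ℝ} (hr : r < s) (h0 : 0 ≤ s) (hs : s ≤ 1 / 2) : epsf r ≤ s ^ 7 := by
  unfold epsf
  rw [if_pos (by linarith)]
  exact pow_le_pow_left₀ (le_max_right _ _) (max_le hr.le h0) 7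

theorem integral_epsf_sq_zero {s : ℝ} (hs : 0 ≤ s) :
    ∫ r : I, (if (r : ℝ) < s then epsf r ^ 2 else 0) = tt s := by
  set m := min s (1 / 2) with hm
  have hm0 : 0 ≤ m := le_min hs (by norm_num)
  have hm1 : m ≤ 1 / 2 := min_le_right _ _
  rw [integral_unitInterval (fun r => if r < s then epsf r ^ 2 else 0),
    intervalIntegral.integral_of_le zero_le_one, integral_Ioc_eq_integral_Ioo]
  have e1 : ∫ r in Set.Ioo (0 : ℝ) 1, (if r < s then epsf r ^ 2 else 0) =
      ∫ r in Set.Ioo (0 : ℝ) 1, (Set.Iic m).indicator (fun r => r ^ 14) r := by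
    refine setIntegral_congr_ae measurableSet_Ioo ?_
    filter_upwards [Measure.ae_ne volume s] with r hrs hr
    by_cases h1 : r ≤ m
    · have h2 : r < s := lt_of_le_of_ne (h1.trans (min_le_left _ _)) hrs
      rw [if_pos h2, Set.indicator_of_mem (show r ∈ Set.Iic m from h1),
        epsf_of_le hr.1.le (h1.trans hm1)]
      ring
    · rw [Set.indicator_of_notMem (show r ∉ Set.Iic m from h1)]
      split_ifs with h2
      · have h3 : 1 / 2 < r := by
          by_contra h4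
          exact h1 (le_min h2.le (not_lt.1 h4))
        have := epsf_eq_zero 0 h3 hr.2
        rw [Nat.cast_zero, zero_add] at this
        rw [this]
        norm_num
      · rfl
  rw [e1, setIntegral_indicator measurableSet_Iic]
  have e2 : Set.Ioo (0 : ℝ) 1 ∩ Set.Iic m = Set.Ioc 0 m := by
    ext r
    simp only [Set.mem_inter_iff, Set.mem_Ioo, Set.mem_Iic, Set.mem_Ioc]
    constructor
    · rintro ⟨⟨h1, _⟩, h3⟩; exact ⟨h1, h3⟩
    · rintro ⟨h1, h3⟩; exact ⟨⟨h1, by linarith⟩, h3⟩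
  rw [e2, ← intervalIntegral.integral_of_le hm0, integral_pow]
  unfold tt
  rw [← hm]
  norm_num

theorem integral_epsf_sq {k : ℕ} (hk : 1 ≤ k) : ∫ r : I, epsf ((k : ℝ) + r) ^ 2 = 1 / 8 := by
  have hk' : (1 : ℝ) ≤ k := by exact_mod_cast hk
  rw [integral_unitInterval (fun r => epsf ((k : ℝ) + r) ^ 2),
    intervalIntegral.integral_of_le zero_le_one, integral_Ioc_eq_integral_Ioo]
  have e1 : ∫ r in Set.Ioo (0 : ℝ) 1, epsf ((k : ℝ) + r) ^ 2 =
      ∫ r in Set.Ioo (0 : ℝ) 1, (Set.Iic (1 / 2 : ℝ)).indicator (fun _ => (1 / 4 : ℝ)) r := by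
    refine setIntegral_congr_fun measurableSet_Ioo ?_
    intro r hr
    simp only
    by_cases h1 : r ≤ 1 / 2
    · rw [Set.indicator_of_mem (show r ∈ Set.Iic (1 / 2 : ℝ) from h1)]
      unfold epsf
      rw [if_neg (by linarith [hr.1]), if_neg (by linarith [hr.1]), Int.fract_natCast_add,
        Int.fract_eq_self.2 ⟨hr.1.le, hr.2⟩, if_pos h1]
      norm_num
    · rw [Set.indicator_of_notMem (show r ∉ Set.Iic (1 / 2 : ℝ) from h1),
        epsf_eq_zero k (not_le.1 h1) hr.2]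
      norm_num
  rw [e1, setIntegral_indicator measurableSet_Iic]
  have e2 : Set.Ioo (0 : ℝ) 1 ∩ Set.Iic (1 / 2) = Set.Ioc 0 (1 / 2) := by
    ext r
    simp only [Set.mem_inter_iff, Set.mem_Ioo, Set.mem_Iic, Set.mem_Ioc]
    constructor
    · rintro ⟨⟨h1, _⟩, h3⟩; exact ⟨h1, h3⟩
    · rintro ⟨h1, h3⟩; exact ⟨⟨h1, by linarith⟩, h3⟩
  rw [e2, ← intervalIntegral.integral_of_le (by norm_num), intervalIntegral.integral_const]
  norm_num

theorem tt_pos {s : ℝ} (hs : 0 < s) : 0 < tt s := by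
  unfold tt
  have : 0 < min s (1 / 2) := lt_min hs (by norm_num)
  positivity

theorem tt_le_one (s : ℝ) : tt s ≤ 1 := by
  unfold tt
  have h1 : (min s (1 / 2)) ^ 15 ≤ (1 / 2 : ℝ) ^ 15 :=
    (Odd.strictMono_pow (by decide : Odd 15)).monotone (min_le_right _ _)
  linarith [show ((1 : ℝ) / 2) ^ 15 ≤ 1 by norm_num]

theorem tt_mono {s s' : ℝ} (hs : 0 ≤ s) (h : s ≤ s') : tt s ≤ tt s' := by
  unfold tt
  have h1 : (min s (1 / 2)) ^ 15 ≤ (min s' (1 / 2)) ^ 15 :=
    pow_le_pow_left₀ (le_min hs (by norm_num)) (min_le_min_right _ h) 15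
  linarith

theorem one_le_rad {s : ℝ} (hs : 0 < s) : 1 ≤ rad s := by
  have := Real.sqrt_pos.2 (tt_pos hs)
  exact Nat.one_le_iff_ne_zero.2 (Nat.ceil_pos.2 (by positivity)).ne'

theorem rad_mul_sqrt {s : ℝ} (hs : 0 < s) :
    1 ≤ (rad s : ℝ) * Real.sqrt (tt s) ∧ (rad s : ℝ) * Real.sqrt (tt s) ≤ 2 := by
  have h0 := Real.sqrt_pos.2 (tt_pos hs)
  have h1 : Real.sqrt (tt s) ≤ 1 := Real.sqrt_le_one.2 (tt_le_one s)
  have h2 : 1 / Real.sqrt (tt s) ≤ rad s := Nat.le_ceil _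
  have h3 : (rad s : ℝ) < 1 / Real.sqrt (tt s) + 1 := Nat.ceil_lt_add_one (by positivity)
  rw [div_le_iff₀ h0] at h2
  refine ⟨h2, ?_⟩
  have h4 := mul_lt_mul_of_pos_right h3 h0
  rw [add_mul, div_mul_cancel₀ _ h0.ne'] at h4
  linarith

theorem Near.mono {θ s s' : ℝ} (hn : Near d θ s) (hd : 3 ≤ d) (hs : 0 < s) (h : s ≤ s') :
    Near d θ s' := by
  have hd' : (3 : ℝ) ≤ d := by exact_mod_cast hd
  refine ⟨hn.1, hn.2.trans ?_⟩
  refine pow_le_pow_of_le_one (mul_nonneg (by linarith) (sq_nonneg θ)) hn.1.2.le ?_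
  refine Nat.ceil_mono ?_
  exact one_div_le_one_div_of_le (Real.sqrt_pos.2 (tt_pos hs))
    (Real.sqrt_le_sqrt (tt_mono hs.le h))

theorem Near.sq_ge {θ s : ℝ} (hn : Near d θ s) (hd : 3 ≤ d) (hs : 0 < s) :
    1 / 2 ≤ ((d : ℝ) - 1) * θ ^ 2 := by
  have hd' : (3 : ℝ) ≤ d := by exact_mod_cast hd
  refine hn.2.trans ?_
  have := pow_le_pow_of_le_one (mul_nonneg (by linarith) (sq_nonneg θ)) hn.1.2.le (one_le_rad hs)
  rwa [pow_one] at this

theorem pp_pos (hd : 3 ≤ d) {s : ℝ} (hs : 0 < s) : 0 < pp d s := by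
  have hd' : (3 : ℝ) ≤ d := by exact_mod_cast hd
  unfold pp
  exact div_pos (Real.sqrt_pos.2 (tt_pos hs)) (by linarith)

theorem pp_le (hd : 3 ≤ d) (s : ℝ) : pp d s ≤ 1 / 2 := by
  have hd' : (3 : ℝ) ≤ d := by exact_mod_cast hd
  have h1 : Real.sqrt (tt s) ≤ 1 := Real.sqrt_le_one.2 (tt_le_one s)
  unfold pp
  rw [div_le_iff₀ (by linarith)]
  linarith

theorem pp_mono (hd : 3 ≤ d) {s s' : ℝ} (hs : 0 ≤ s) (h : s ≤ s') : pp d s ≤ pp d s' := by
  have hd' : (3 : ℝ) ≤ d := by exact_mod_cast hd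
  unfold pp
  exact div_le_div_of_nonneg_right (Real.sqrt_le_sqrt (tt_mono hs h)) (by linarith)

/-- The critical growth rate is of order `1/s`. -/
theorem epsf_sq_div_pp_sq_le (hd : 3 ≤ d) {s : ℝ} (hs : 0 < s) :
    epsf s ^ 2 / pp d s ^ 2 ≤ (6000 * ((d : ℝ) - 1)) ^ 2 * (15 / s + 15 * 2 ^ 15) := by
  have hd' : (3 : ℝ) ≤ d := by exact_mod_cast hd
  have ht := tt_pos hs
  have e1 : epsf s ^ 2 / pp d s ^ 2 = (6000 * ((d : ℝ) - 1)) ^ 2 * (epsf s ^ 2 / tt s) := by
    unfold pp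
    rw [div_pow, Real.sq_sqrt ht.le]
    have : (d : ℝ) - 1 ≠ 0 := by linarith
    field_simp
  rw [e1]
  refine mul_le_mul_of_nonneg_left ?_ (sq_nonneg _)
  have h15 : 0 ≤ 15 / s := by positivity
  by_cases h1 : s ≤ 1 / 2
  · have e2 : epsf s ^ 2 / tt s = 15 / s := by
      rw [epsf_of_le hs.le h1]
      unfold tt
      rw [min_eq_left h1]
      field_simp
    rw [e2]
    linarith [show (0 : ℝ) ≤ 15 * 2 ^ 15 by norm_num]
  · have e2 : tt s = (1 / 2) ^ 15 / 15 := by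
      unfold tt
      rw [min_eq_right (not_le.1 h1).le]
    have h2 : epsf s ^ 2 ≤ 1 := by nlinarith [epsf_nonneg s, epsf_le s]
    have h3 : epsf s ^ 2 / tt s ≤ 15 * 2 ^ 15 := by
      rw [div_le_iff₀ ht, e2]
      linarith [show (15 : ℝ) * 2 ^ 15 * ((1 / 2) ^ 15 / 15) = 1 by norm_num]
    linarith

end Crest.Agent.R160

end
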