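import Crest.Agent.R160.XLow

/-!
Contraction of the damping factors along geodesics.
-/

set_option autoImplicit false

open MeasureTheory unitInterval Filter Topology
open Crest.ProbabilityR Crest.ProbabilityR.Labels Crest.ProbabilityR.TreeIsing
open scoped Classical

noncomputable section

namespace Crest.Agent.R160

universe u

variable {V : Type u} {G : SimpleGraph V} [G.LocallyFinite] {d : ℕ}

variable {θ : ℝ}

namespace ContrAux

theorem sq_ge_pos {θ α β : ℝ} (h0 : 0 ≤ θ) (h1 : θ ≤ 1) (hα0 : 0 ≤ α) (hβ0 : 0 ≤ β)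
    (hβ : β ≤ 1) : θ ^ 2 * β ^ 2 ≤ ((α + θ * β) / (1 + θ * α * β)) ^ 2 := by
  have hD : 0 < 1 + θ * α * β := by positivity
  have htb : θ * β ≤ 1 := mul_le_one₀ h1 hβ0 hβ
  have htb0 : 0 ≤ θ * β := mul_nonneg h0 hβ0
  have hsq : (θ * β) * (θ * β) ≤ 1 := mul_le_one₀ htb htb0 htb
  have h2 : θ * β ≤ (α + θ * β) / (1 + θ * α * β) := by
    rw [le_div_iff₀ hD]
    have := mul_le_mul_of_nonneg_left hsq hα0
    nlinarith
  calc θ ^ 2 * β ^ 2 = (θ * β) ^ 2 := by ring
    _ ≤ _ := pow_le_pow_left₀ htb0 h2 2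

theorem sq_ge_neg {θ α β : ℝ} (h0 : 0 ≤ θ) (h1 : θ ≤ 1) (hα0 : α ≤ 0) (hβ0 : β ≤ 0)
    (hβ : -1 ≤ β) : θ ^ 2 * β ^ 2 ≤ ((α + θ * β) / (1 + θ * α * β)) ^ 2 := by
  have := sq_ge_pos (α := -α) (β := -β) h0 h1 (by linarith) (by linarith) (by linarith)
  have e : ((-α + θ * -β) / (1 + θ * -α * -β)) ^ 2 = ((α + θ * β) / (1 + θ * α * β)) ^ 2 := by
    rw [div_pow, div_pow]
    congr 1 <;> ring
  rw [e, neg_sq] at this
  exact this

/-- The pointwise gain. -/
theorem kap_mul_le {θ α β X : ℝ} (h0 : 0 ≤ θ) (hθ : θ ^ 2 ≤ 1 / 2) (hβ : |β| ≤ 1) {a : ℝ}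
    (ha : |a| ≤ 1) (e : a = (α + θ * β) / (1 + θ * α * β)) (hX : 0 ≤ X) :
    kap θ a * X ≤ X - θ ^ 2 / 2 *
      ((if 0 < β then β ^ 2 else 0) * (if 0 ≤ α then X else 0) +
        (if β < 0 then β ^ 2 else 0) * (if α < 0 then X else 0)) := by
  have h1 : θ ≤ 1 := by nlinarith
  have hk := mul_le_mul_of_nonneg_right (kap_le hθ ha) hX
  have hb := abs_le.1 hβ
  have key : θ ^ 2 * ((if 0 < β then β ^ 2 else 0) * (if 0 ≤ α then X else 0) +
        (if β < 0 then β ^ 2 else 0) * (if α < 0 then X else 0)) ≤ a ^ 2 * X := by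
    have hz : 0 ≤ a ^ 2 * X := by positivity
    by_cases hα : 0 ≤ α
    · rw [if_pos hα, if_neg (not_lt.2 hα), mul_zero, add_zero]
      by_cases hβ0 : 0 < β
      · rw [if_pos hβ0, ← mul_assoc, e]
        exact mul_le_mul_of_nonneg_right (sq_ge_pos h0 h1 hα hβ0.le hb.2) hX
      · rw [if_neg hβ0, zero_mul, mul_zero]; exact hz
    · rw [if_neg hα, if_pos (not_le.1 hα), mul_zero, zero_add]
      by_cases hβ0 : β < 0
      · rw [if_pos hβ0, ← mul_assoc, e]
        exact mul_le_mul_of_nonneg_right (sq_ge_neg h0 h1 (not_le.1 hα).le hβ0.le hb.1) hX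
      · rw [if_neg hβ0, zero_mul, mul_zero]; exact hz
  nlinarith

omit [G.LocallyFinite] in
theorem locOm_cav (A : Set (Slot V)) (s : ℝ) (u p : V) :
    LocOm (half G u p) (fun ω => cav G θ (Lms A s ω) u p) := by
  intro ω ω' h1 h2
  exact cav_congr fun z hz => Lms_congr h1 h2 A s z hz

omit [G.LocallyFinite] in
theorem locOm_mono {E E' : Set V} (hE : E ⊆ E') {X : Om V → ℝ} (hX : LocOm E X) : LocOm E' X :=
  fun ω ω' h1 h2 => hX ω ω' (fun v hv => h1 v (hE hv)) (fun z hz => h2 z (hE hz))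

theorem locOm_PP (h : RT G d) (A : Set (Slot V)) (s : ℝ) {u p z : V} (hup : G.Adj u p)
    (hz : z ∈ half G u p) : LocOm (half G u p) (fun ω => PP G θ (Lms A s ω) u z) := by
  intro ω ω' h1 h2
  exact PP_congr h hup hz fun y hy => Lms_congr h1 h2 A s y hy

omit [G.LocallyFinite] in
theorem measurable_cavL (A : Set (Slot V)) (s : ℝ) (u p : V) :
    Measurable (fun ω => cav G θ (Lms A s ω) u p) :=
  (measurable_cav u p).comp (measurable_Lms A s)

omit [G.LocallyFinite] in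
theorem measurable_PPL (A : Set (Slot V)) (s : ℝ) (o z : V) :
    Measurable (fun ω => PP G θ (Lms A s ω) o z) :=
  (measurable_PP o z).comp (measurable_Lms A s)

end ContrAux

open ContrAux

/-- One damping factor gains `θ^2 x / 16` against any nonnegative functional of a further
half tree. -/
theorem contr (h : RT G d) (hθ : Subc d θ) (A : Set (Slot V)) (s : ℝ) {u p c : V}
    (hup : G.Adj u p) (hcu : G.Adj c u) (hcp : c ≠ p) {x : ℝ}
    (hx : ∀ b, G.Adj b u → b ≠ p → b ≠ c → x ≤ ∫ ω, cav G θ (Lms A s ω) b u ^ 2 ∂(Pw G θ))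
    {X : Om V → ℝ} (hX : Measurable X) {C : ℝ} (hX0 : ∀ ω, 0 ≤ X ω) (hXC : ∀ ω, X ω ≤ C)
    (hXl : LocOm (half G c u) X) :
    ∫ ω, kap θ (cav G θ (Lms A s ω) u p) * X ω ∂(Pw G θ) ≤
      (1 - θ ^ 2 * x / 16) * ∫ ω, X ω ∂(Pw G θ) := by
  obtain ⟨b, hbu, hbp, hbc⟩ := exists_third h u p c
  have h0 : 0 ≤ θ := hθ.1
  have h34 : θ ≤ 3 / 4 := hθ.le h
  have h1 : θ ≤ 1 := by linarith
  have hsq : θ ^ 2 ≤ 1 / 2 := hθ.sq_le h
  set A' : Set (Slot V) := vm (half G u p) ∩ A with hA'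
  set α : Om V → ℝ := fun ω => cav G θ (Lms A' s ω) u b with hα
  set β : Om V → ℝ := fun ω => cav G θ (Lms A s ω) b u with hβ
  have hαm : Measurable α := measurable_cavL A' s u b
  have hβm : Measurable β := measurable_cavL A s b u
  have hβb : ∀ ω, |β ω| ≤ 1 := fun ω => abs_cav_le (bd_Lms A s ω) b u
  have hβsq : ∀ ω, β ω ^ 2 ≤ 1 := fun ω => by
    have := abs_le.1 (hβb ω); nlinarith
  have hβ' : ∀ ω, cav G θ (Lms A' s ω) b u = β ω := fun ω => by
    refine cav_congr fun z hz => ?_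
    rw [hA', ← indicator_Lms]
    exact Set.indicator_of_mem (show z ∈ vm (half G u p) from half_subset h hbu hup hbp hz) _
  have hβodd : ∀ ω, β (flipO ω) = -β ω := fun ω => by
    simp only [hβ]
    rw [Lms_flipO, cav_neg h hθ (bd_Lms A s ω)]
  set F1 : Om V → ℝ := fun ω => if 0 < β ω then β ω ^ 2 else 0 with hF1
  set F2 : Om V → ℝ := fun ω => if β ω < 0 then β ω ^ 2 else 0 with hF2
  set H1 : Om V → ℝ := fun ω => if 0 ≤ α ω then X ω else 0 with hH1
  set H2 : Om V → ℝ := fun ω => if α ω < 0 then X ω else 0 with hH2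
  have hF1m : Measurable F1 :=
    Measurable.ite (measurableSet_lt measurable_const hβm) (hβm.pow_const 2) measurable_const
  have hF2m : Measurable F2 :=
    Measurable.ite (measurableSet_lt hβm measurable_const) (hβm.pow_const 2) measurable_const
  have hH1m : Measurable H1 :=
    Measurable.ite (measurableSet_le measurable_const hαm) hX measurable_const
  have hH2m : Measurable H2 :=
    Measurable.ite (measurableSet_lt hαm measurable_const) hX measurable_const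
  have hF10 : ∀ ω, 0 ≤ F1 ω := fun ω => by
    simp only [hF1]; split_ifs <;> positivity
  have hF20 : ∀ ω, 0 ≤ F2 ω := fun ω => by
    simp only [hF2]; split_ifs <;> positivity
  have hH10 : ∀ ω, 0 ≤ H1 ω := fun ω => by
    simp only [hH1]; split_ifs
    exacts [hX0 ω, le_rfl]
  have hH20 : ∀ ω, 0 ≤ H2 ω := fun ω => by
    simp only [hH2]; split_ifs
    exacts [hX0 ω, le_rfl]
  have hM0 : (0 : ℝ) ≤ max C 1 := le_max_of_le_right zero_le_one
  have hF1b : ∀ ω, F1 ω ≤ max C 1 := fun ω => by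
    simp only [hF1]; split_ifs
    exacts [le_max_of_le_right (hβsq ω), hM0]
  have hF2b : ∀ ω, F2 ω ≤ max C 1 := fun ω => by
    simp only [hF2]; split_ifs
    exacts [le_max_of_le_right (hβsq ω), hM0]
  have hH1b : ∀ ω, H1 ω ≤ max C 1 := fun ω => by
    simp only [hH1]; split_ifs
    exacts [le_max_of_le_left (hXC ω), hM0]
  have hH2b : ∀ ω, H2 ω ≤ max C 1 := fun ω => by
    simp only [hH2]; split_ifs
    exacts [le_max_of_le_left (hXC ω), hM0]
  have hβl : LocOm (half G b u) β := locOm_cav A s b u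
  have hαl : LocOm (half G u b) α := locOm_cav A' s u b
  have hXl' : LocOm (half G u b) X := locOm_mono (half_subset h hcu hbu.symm hbc.symm) hXl
  have hF1l : LocOm (half G b u) F1 := fun ω ω' e1 e2 => by
    simp only [hF1]; rw [hβl ω ω' e1 e2]
  have hF2l : LocOm (half G b u) F2 := fun ω ω' e1 e2 => by
    simp only [hF2]; rw [hβl ω ω' e1 e2]
  have hH1l : LocOm (half G u b) H1 := fun ω ω' e1 e2 => by
    simp only [hH1]; rw [hαl ω ω' e1 e2, hXl' ω ω' e1 e2]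
  have hH2l : LocOm (half G u b) H2 := fun ω ω' e1 e2 => by
    simp only [hH2]; rw [hαl ω ω' e1 e2, hXl' ω ω' e1 e2]
  have g1 := edge_om_ge h h0 h1 hbu hF1m hH1m hF10 hH10 hF1b hH1b hF1l hH1l
  have g2 := edge_om_ge h h0 h1 hbu hF2m hH2m hF20 hH20 hF2b hH2b hF2l hH2l
  have int : ∀ {f : Om V → ℝ}, Measurable f → (∀ ω, 0 ≤ f ω) → (∀ ω, f ω ≤ max C 1) →
      Integrable f (Pw G θ) := fun hf f0 fb =>
    R168.integrable_of_abs_le hf (max C 1) fun ω => by rw [abs_of_nonneg (f0 ω)]; exact fb ω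
  have int2 : ∀ {f g : Om V → ℝ}, Measurable f → Measurable g → (∀ ω, 0 ≤ f ω) →
      (∀ ω, f ω ≤ max C 1) → (∀ ω, 0 ≤ g ω) → (∀ ω, g ω ≤ max C 1) →
      Integrable (fun ω => f ω * g ω) (Pw G θ) := fun hf hg f0 fb g0 gb =>
    BayesAux.integrable_mul hf hg (A := max C 1) (B := max C 1)
      (fun ω => by rw [abs_of_nonneg (f0 ω)]; exact fb ω)
      (fun ω => by rw [abs_of_nonneg (g0 ω)]; exact gb ω)
  have iF1 := int hF1m hF10 hF1b
  have iF2 := int hF2m hF20 hF2b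
  have iH1 := int hH1m hH10 hH1b
  have iH2 := int hH2m hH20 hH2b
  have iX := int hX hX0 fun ω => le_max_of_le_left (hXC ω)
  have i1 := int2 hF1m hH1m hF10 hF1b hH10 hH1b
  have i2 := int2 hF2m hH2m hF20 hF2b hH20 hH2b
  -- the two halves of `β ^ 2`
  have e1 : ∫ ω, F1 ω ∂(Pw G θ) - ∫ ω, F2 ω ∂(Pw G θ) = 0 := by
    rw [← integral_sub iF1 iF2]
    refine integral_of_odd h h0 h1 (hF1m.sub hF2m) fun ω => ?_
    simp only [hF1, hF2, hβodd, neg_sq, neg_pos, neg_lt_zero]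
    ring
  have e2 : ∫ ω, F1 ω ∂(Pw G θ) + ∫ ω, F2 ω ∂(Pw G θ) = ∫ ω, β ω ^ 2 ∂(Pw G θ) := by
    rw [← integral_add iF1 iF2]
    refine integral_congr_ae (Eventually.of_forall fun ω => ?_)
    simp only [hF1, hF2]
    rcases lt_trichotomy (β ω) 0 with hlt | heq | hgt
    · rw [if_neg (not_lt.2 hlt.le), if_pos hlt, zero_add]
    · simp [heq]
    · rw [if_pos hgt, if_neg (not_lt.2 hgt.le), add_zero]
  have e3 : ∫ ω, H1 ω ∂(Pw G θ) + ∫ ω, H2 ω ∂(Pw G θ) = ∫ ω, X ω ∂(Pw G θ) := by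
    rw [← integral_add iH1 iH2]
    refine integral_congr_ae (Eventually.of_forall fun ω => ?_)
    simp only [hH1, hH2]
    by_cases ha : 0 ≤ α ω
    · rw [if_pos ha, if_neg (not_lt.2 ha), add_zero]
    · rw [if_neg ha, if_pos (not_le.1 ha), zero_add]
  have hxb : x ≤ ∫ ω, β ω ^ 2 ∂(Pw G θ) := hx b hbu hbp hbc
  have pH1 : 0 ≤ ∫ ω, H1 ω ∂(Pw G θ) := integral_nonneg hH10
  have pH2 : 0 ≤ ∫ ω, H2 ω ∂(Pw G θ) := integral_nonneg hH20
  have pF1 : 0 ≤ ∫ ω, F1 ω ∂(Pw G θ) := integral_nonneg hF10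
  have ikap : Integrable (fun ω => kap θ (cav G θ (Lms A s ω) u p) * X ω) (Pw G θ) :=
    int2 ((measurable_kap θ).comp (measurable_cavL A s u p)) hX
      (fun ω => kap_nonneg hsq (abs_cav_le (bd_Lms A s ω) u p))
      (fun ω => le_max_of_le_right (kap_le_one hsq (abs_cav_le (bd_Lms A s ω) u p)))
      hX0 fun ω => le_max_of_le_left (hXC ω)
  have main : ∫ ω, kap θ (cav G θ (Lms A s ω) u p) * X ω ∂(Pw G θ) ≤
      ∫ ω, (X ω - θ ^ 2 / 2 * (F1 ω * H1 ω + F2 ω * H2 ω)) ∂(Pw G θ) := by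
    refine integral_mono_ae ikap (iX.sub ((i1.add i2).const_mul _)) ?_
    filter_upwards [good_Lms_ae h hθ A' s] with ω hω
    refine kap_mul_le h0 hsq (hβb ω) (abs_cav_le (bd_Lms A s ω) u p) ?_ (hX0 ω)
    have := mag_edge h hθ (bd_Lms A' s ω) hω hbu.symm
    rw [hβ'] at this
    rw [← this, hA', ← indicator_Lms]
    rfl
  have i3 : Integrable (fun ω => θ ^ 2 / 2 * (F1 ω * H1 ω + F2 ω * H2 ω)) (Pw G θ) :=
    (i1.add i2).const_mul _
  rw [integral_sub iX i3, integral_const_mul, integral_add i1 i2] at main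
  refine main.trans ?_
  rw [← e3]
  set f1 := ∫ ω, F1 ω ∂(Pw G θ)
  set f2 := ∫ ω, F2 ω ∂(Pw G θ)
  set k1 := ∫ ω, H1 ω ∂(Pw G θ)
  set k2 := ∫ ω, H2 ω ∂(Pw G θ)
  have ef : f2 = f1 := by linarith
  rw [ef] at g2 e2
  have hx2 : x / 2 ≤ f1 := by linarith
  have hk : 0 ≤ k1 + k2 := add_nonneg pH1 pH2
  have s1 : x / 8 * (k1 + k2) ≤ (1 - θ) * (f1 * k1) + (1 - θ) * (f1 * k2) := by
    have t1 : x / 8 ≤ (1 - θ) * f1 := by nlinarith
    have t2 := mul_le_mul_of_nonneg_right t1 hk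
    nlinarith
  have s2 := mul_le_mul_of_nonneg_left (s1.trans (add_le_add g1 g2))
    (show 0 ≤ θ ^ 2 / 2 by positivity)
  nlinarith

/-- The same with the explicit rate, when the mask contains the relevant boxes. -/
theorem contr_pp (h : RT G d) {s : ℝ} (hs : 0 < s) (hθ : Near d θ s) (A : Set (Slot V))
    {u p c : V} (hup : G.Adj u p) (hcu : G.Adj c u) (hcp : c ≠ p)
    (hA : ∀ b, G.Adj b u → b ≠ p → b ≠ c → (hbox G b u (rad s) : Set (Slot V)) ⊆ A)
    {X : Om V → ℝ} (hX : Measurable X) {C : ℝ} (hX0 : ∀ ω, 0 ≤ X ω) (hXC : ∀ ω, X ω ≤ C)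
    (hXl : LocOm (half G c u) X) :
    ∫ ω, kap θ (cav G θ (Lms A s ω) u p) * X ω ∂(Pw G θ) ≤
      (1 - pp d s) * ∫ ω, X ω ∂(Pw G θ) := by
  refine (contr h hθ.1 A s hup hcu hcp (x := Real.sqrt (tt s) / 180)
    (fun b hb hbp hbc => xlow h hs hθ hb (hA b hb hbp hbc)) hX hX0 hXC hXl).trans ?_
  refine mul_le_mul_of_nonneg_right ?_ (integral_nonneg hX0)
  have h2 := h.two_le
  have hq := hθ.sq_ge h.three hs
  have hr : 0 ≤ Real.sqrt (tt s) := Real.sqrt_nonneg _
  have : pp d s ≤ θ ^ 2 * (Real.sqrt (tt s) / 180) / 16 := by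
    unfold pp
    rw [div_le_iff₀ (by positivity)]
    have := mul_le_mul_of_nonneg_right hq hr
    nlinarith
  linarith

/-- Decay of the product along a geodesic whose first `j` inner vertices have informed
side branches. -/
theorem an_gen (h : RT G d) {s : ℝ} (hs : 0 < s) (hθ : Near d θ s) (A : Set (Slot V)) (o z : V)
    {j : ℕ} (hj : j + 1 ≤ G.dist o z)
    (hA : ∀ i, 1 ≤ i → i ≤ j → ∀ b, G.Adj b (geo G o z i) → b ≠ geo G o z (i - 1) →
      b ≠ geo G o z (i + 1) → (hbox G b (geo G o z i) (rad s) : Set (Slot V)) ⊆ A) :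
    ∫ ω, PP G θ (Lms A s ω) o z ∂(Pw G θ) ≤ (1 - pp d s) ^ j := by
  have hp : 0 ≤ 1 - pp d s := by have := pp_le h.three s; linarith
  have key : ∀ k i, i + k = j →
      ∫ ω, PP G θ (Lms A s ω) (geo G o z i) z ∂(Pw G θ) ≤ (1 - pp d s) ^ k := by
    intro k
    induction k with
    | zero =>
      intro i _
      rw [pow_zero]
      refine (le_abs_self _).trans (IsingOmAux.abs_integral_le fun ω => ?_)
      rw [abs_of_nonneg (PP_nonneg h hθ.1 (bd_Lms A s ω) _ _)]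
      exact PP_le_one h hθ.1 (bd_Lms A s ω) _ _
    | succ k ih =>
      intro i hi
      have a1 : G.Adj (geo G o z (i + 1)) (geo G o z i) := geo_adj h o z (by omega)
      have a2 : G.Adj (geo G o z (i + 1 + 1)) (geo G o z (i + 1)) := geo_adj h o z (by omega)
      have m1 : z ∈ half G (geo G o z (i + 1)) (geo G o z i) := mem_half_geo h o z (by omega)
      have m2 : z ∈ half G (geo G o z (i + 1 + 1)) (geo G o z (i + 1)) :=
        mem_half_geo h o z (by omega)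
      have hne : geo G o z (i + 1 + 1) ≠ geo G o z i := geo_ne h o z (by omega)
      have hl : LocOm (half G (geo G o z (i + 1 + 1)) (geo G o z (i + 1)))
          (fun ω => PP G θ (Lms A s ω) (geo G o z (i + 1)) z) := by
        intro ω ω' e1 e2
        have t1 := locOm_cav (θ := θ) A s _ _ ω ω' e1 e2
        have t2 := locOm_PP (θ := θ) h A s a2 m2 ω ω' e1 e2
        simp only at t1 t2 ⊢
        rw [PP_of_half h _ a2 m2, PP_of_half h _ a2 m2, t1, t2]
      have hc := contr_pp h hs hθ A a1 a2 hne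
        (fun b hb hbp hbc => hA (i + 1) (by omega) (by omega) b hb hbp hbc)
        (measurable_PPL A s (geo G o z (i + 1)) z)
        (fun ω => PP_nonneg h hθ.1 (bd_Lms A s ω) _ _)
        (fun ω => PP_le_one h hθ.1 (bd_Lms A s ω) _ _) hl
      simp only [PP_of_half h _ a1 m1]
      refine hc.trans ?_
      rw [pow_succ']
      exact mul_le_mul_of_nonneg_left (ih (i + 1) (by omega)) hp
  have := key j 0 (by omega)
  rwa [geo_zero h] at this

theorem an (h : RT G d) {s : ℝ} (hs : 0 < s) (hθ : Near d θ s) (o z : V) :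
    ∫ ω, PP G θ (Lms Set.univ s ω) o z ∂(Pw G θ) ≤ (1 - pp d s) ^ (G.dist o z - 1) := by
  rcases Nat.eq_zero_or_pos (G.dist o z) with h0 | h0
  · rw [h0, Nat.zero_sub, pow_zero]
    refine (le_abs_self _).trans (IsingOmAux.abs_integral_le fun ω => ?_)
    rw [abs_of_nonneg (PP_nonneg h hθ.1 (bd_Lms _ s ω) _ _)]
    exact PP_le_one h hθ.1 (bd_Lms _ s ω) _ _
  · exact an_gen h hs hθ Set.univ o z (by omega) fun _ _ _ _ _ _ _ => Set.subset_univ _

end Crest.Agent.R160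

end
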