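import Mathlib
import Crest.Prelude.Def_Labels
import Crest.Prelude.Def_TreeIsing
import Crest.Agent.R168.Split

/-!
Shared definitions for row 160 (S0241): the free Ising state on the `d`-regular tree is a factor of
independent labels up to and including the Kesten–Stigum threshold.

Overview. Every vertex `v` owns the slots `(v, k)`, `k : ℕ`. The slot `z` rings at the time
`tim T z = k + T z` and emits a signal `y z ∈ [0,1]` of density `1 + ε * spin * (2 y - 1)`, where
`ε = epsf (tim T z)`. The likelihood increment of the signal is `ℓ z = ε (2 y z - 1)`. Posterior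
quantities (`post`, `mag`, `cav`, `KK`) are functions of the field `ℓ : Slot V → ℝ`.
`Om V` is the weak model (times, spins, noise), `Lab V` the label space (times, innovations).
-/

set_option autoImplicit false

open MeasureTheory unitInterval Filter Topology
open Crest.ProbabilityR Crest.ProbabilityR.Labels Crest.ProbabilityR.TreeIsing
open scoped Classical

noncomputable section

namespace Crest.Agent.R160

universe u

variable {V : Type u}

/-! ### Trees -/

/-- `G` is the `d`-regular tree, `d ≥ 3`. -/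
structure RT (G : SimpleGraph V) [G.LocallyFinite] (d : ℕ) : Prop where
  three : 3 ≤ d
  tree : G.IsTree
  reg : G.IsRegularOfDegree d

/-- For adjacent `u`, `p`: the vertices on the side of `u` of the edge `u p`. -/
def half (G : SimpleGraph V) (u p : V) : Set V := {w | G.dist p w = G.dist u w + 1}

/-- The ball of radius `R` around `c`. -/
def ball (G : SimpleGraph V) (c : V) (R : ℕ) : Finset V :=
  if h : {w | G.dist c w ≤ R}.Finite then h.toFinset else ∅

/-- The `i`-th vertex of the geodesic from `o` to `z` (junk `z` if `i` exceeds the distance). -/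
def geo (G : SimpleGraph V) (o z : V) (i : ℕ) : V :=
  if h : ∃ y, G.dist o y = i ∧ G.dist y z + i = G.dist o z then h.choose else z

/-! ### The free Ising state -/

/-- The real value `±1` of a spin. -/
def spin (b : Bool) : ℝ := if b = true then 1 else -1

/-- `μ` has the free Ising cylinder weights. -/
def IsIsing (G : SimpleGraph V) (θ : ℝ) (μ : Measure (V → Bool)) : Prop :=
  IsProbabilityMeasure μ ∧ ∀ (S : Finset V) (η : V → Bool), (G.induce (S : Set V)).Connected →
    μ {ξ | ∀ v ∈ S, ξ v = η v} = ENNReal.ofReal (isingWeight G θ S η)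

/-- The free Ising state (a junk point mass if there is none). -/
def ising (G : SimpleGraph V) (θ : ℝ) : Measure (V → Bool) :=
  if h : ∃ μ, IsIsing G θ μ then h.choose else Measure.dirac (fun _ => true)

instance isProbabilityMeasure_ising (G : SimpleGraph V) (θ : ℝ) :
    IsProbabilityMeasure (ising G θ) := by
  unfold ising
  split_ifs with h
  · exact h.choose_spec.1
  · infer_instance

/-- Subcritical parameters. -/
def Subc (d : ℕ) (θ : ℝ) : Prop := 0 ≤ θ ∧ ((d : ℝ) - 1) * θ ^ 2 < 1

/-! ### Posterior quantities as functions of the field of likelihood increments -/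

/-- Slots: a vertex and a round. -/
abbrev Slot (V : Type u) := V × ℕ

/-- The slots over a set of vertices. -/
def vm (E : Set V) : Set (Slot V) := {z | z.1 ∈ E}

/-- Admissible fields. -/
def Bd (ℓ : Slot V → ℝ) : Prop := ∀ z, |ℓ z| ≤ 1 / 2

/-- The likelihood of the spin configuration `η` given the field on the slots of `J`. -/
def wt (J : Finset (Slot V)) (ℓ : Slot V → ℝ) (η : V → Bool) : ℝ :=
  ∏ z ∈ J, (1 + spin (η z.1) * ℓ z)

/-- The posterior mean of the spin at `v` given the field on the slots of `J`. -/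
def post (G : SimpleGraph V) (θ : ℝ) (J : Finset (Slot V)) (ℓ : Slot V → ℝ) (v : V) : ℝ :=
  (∫ η, spin (η v) * wt J ℓ η ∂(ising G θ)) / ∫ η, wt J ℓ η ∂(ising G θ)

/-- The slots of the first `R` rounds over the ball of radius `R`. -/
def box (G : SimpleGraph V) (c : V) (R : ℕ) : Finset (Slot V) := ball G c R ×ˢ Finset.range R

/-- The infinite-volume posterior mean of the spin at `v` (an odd, canonical version). -/
def mag (G : SimpleGraph V) (θ : ℝ) (ℓ : Slot V → ℝ) (v : V) : ℝ :=
  (limsup (fun R => post G θ (box G v R) ℓ v) atTop +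
    liminf (fun R => post G θ (box G v R) ℓ v) atTop) / 2

/-- The cavity magnetisation of `u` pointing to its neighbour `p`. -/
def cav (G : SimpleGraph V) (θ : ℝ) (ℓ : Slot V → ℝ) (u p : V) : ℝ :=
  mag G θ ((vm (half G u p)).indicator ℓ) u

/-- The damping factor of an edge. -/
def kap (θ a : ℝ) : ℝ := (1 - a ^ 2) / (1 - θ ^ 2 * a ^ 2)

/-- The product of the damping factors along the geodesic from `o` to `z`, with the cavity fields
pointing towards `o`. -/
def PP (G : SimpleGraph V) (θ : ℝ) (ℓ : Slot V → ℝ) (o z : V) : ℝ :=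
  ∏ i ∈ Finset.range (G.dist o z), kap θ (cav G θ ℓ (geo G o z (i + 1)) (geo G o z i))

/-- The posterior covariance of the spins at `o` and `z`. -/
def KK (G : SimpleGraph V) (θ : ℝ) (ℓ : Slot V → ℝ) (o z : V) : ℝ :=
  (1 - mag G θ ℓ o ^ 2) * θ ^ G.dist o z * PP G θ ℓ o z

/-- The truncated critical susceptibility at `o`. -/
def SS (G : SimpleGraph V) (d : ℕ) (θ : ℝ) (ℓ : Slot V → ℝ) (N : ℕ) (o : V) : ℝ :=
  ∑ x ∈ ball G o N, (1 / ((d : ℝ) - 1)) ^ G.dist o x * PP G θ ℓ o x

/-- The finite-volume posterior means converge, for boxes around every centre. -/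
def Conv (G : SimpleGraph V) (θ : ℝ) (ℓ : Slot V → ℝ) : Prop :=
  ∀ c v, Tendsto (fun R => post G θ (box G c R) ℓ v) atTop (𝓝 (mag G θ ℓ v))

/-- Convergence for the field and for its restrictions to half trees. -/
def Good (G : SimpleGraph V) (θ : ℝ) (ℓ : Slot V → ℝ) : Prop :=
  Conv G θ ℓ ∧ ∀ u p, G.Adj u p → Conv G θ ((vm (half G u p)).indicator ℓ)

/-- Truncation to `[-1/2, 1/2]`. -/
def clip (a : ℝ) : ℝ := max (-(1 / 2)) (min a (1 / 2))

/-- The logarithmic damping of an edge, for the truncated cavity field. -/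
def lam (θ a : ℝ) : ℝ := -Real.log (kap θ (clip a))

/-! ### The channel -/

/-- The quantile map of the density `1 + c (2 y - 1)` on `[0,1]`. -/
def qt (c : ℝ) (u : I) : I :=
  Set.projIcc (0 : ℝ) 1 zero_le_one (2 * (u : ℝ) / ((1 - c) + Real.sqrt ((1 - c) ^ 2 + 4 * c * u)))

/-- The distribution function of the density `1 + c (2 y - 1)` on `[0,1]`. -/
def cdq (c : ℝ) (y : I) : I :=
  Set.projIcc (0 : ℝ) 1 zero_le_one ((y : ℝ) + c * ((y : ℝ) ^ 2 - y))

/-- The likelihood increment of the signal `y` of strength `e`. -/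
def lk (e : ℝ) (y : I) : ℝ := e * (2 * (y : ℝ) - 1)

/-- The likelihood increment produced from the innovation `u` when the posterior mean is `m`. -/
def sig (e m : ℝ) (u : I) : ℝ := lk e (qt (e * m) u)

/-- The normalised jump produced from the innovation `u`. -/
def phi (e m : ℝ) (u : I) : ℝ := sig e m u / (1 + sig e m u * m)

/-! ### Times -/

/-- One label per slot. -/
abbrev Lb (V : Type u) := Slot V → I

/-- Independent uniform labels on the slots. -/
abbrev nu (V : Type u) : Measure (Lb V) := labelMeasure (Slot V)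

/-- The time at which a slot rings. -/
def tim (T : Lb V) (z : Slot V) : ℝ := (z.2 : ℝ) + (T z : ℝ)

/-- The signal strength as a function of time. -/
def epsf (s : ℝ) : ℝ :=
  if s ≤ 1 / 2 then (max s 0) ^ 7 else if s < 1 then 0 else if Int.fract s ≤ 1 / 2 then 1 / 2 else 0

/-- The slots that ring before the time `s`. -/
def tm (s : ℝ) (T : Lb V) : Set (Slot V) := {z | tim T z < s}

/-- The field seen before the time `s`. -/
def Lt (T : Lb V) (ℓ : Slot V → ℝ) (s : ℝ) : Slot V → ℝ := (tm s T).indicator ℓ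

/-- The field of the signals `y`. -/
def Ly (T y : Lb V) : Slot V → ℝ := fun z => lk (epsf (tim T z)) (y z)

/-- The innovations of the signals `y`. -/
def Uy (G : SimpleGraph V) (θ : ℝ) (T y : Lb V) : Lb V := fun z =>
  cdq (epsf (tim T z) * mag G θ (Lt T (Ly T y) (tim T z)) z.1) (y z)

/-- The sum of the jumps of the posterior mean at `o` caused by the slots of `J` before `s`. -/
def jsum (G : SimpleGraph V) (θ : ℝ) (o : V) (J : Finset (Slot V)) (s : ℝ) (T : Lb V)
    (ℓ : Slot V → ℝ) : ℝ :=
  ∑ z ∈ J, if tim T z < s then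
    KK G θ (Lt T ℓ (tim T z)) o z.1 * (ℓ z / (1 + ℓ z * mag G θ (Lt T ℓ (tim T z)) z.1)) else 0

/-! ### The weak model -/

/-- Times, spins and noise. -/
abbrev Om (V : Type u) := Lb V × ((V → Bool) × Lb V)

/-- The law of the weak model. -/
abbrev Pw (G : SimpleGraph V) (θ : ℝ) : Measure (Om V) := (nu V).prod ((ising G θ).prod (nu V))

/-- The signals of the weak model. -/
def Yw (ω : Om V) : Lb V := fun z =>
  if ω.2.1 z.1 = true then qt (epsf (tim ω.1 z)) (ω.2.2 z)
  else symm (qt (epsf (tim ω.1 z)) (ω.2.2 z))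

/-- The field of the weak model. -/
def Lw (ω : Om V) : Slot V → ℝ := Ly ω.1 (Yw ω)

/-- The innovations of the weak model. -/
def Uw (G : SimpleGraph V) (θ : ℝ) (ω : Om V) : Lb V := Uy G θ ω.1 (Yw ω)

/-- The global spin flip. -/
def flipO (ω : Om V) : Om V := (ω.1, (fun v => !ω.2.1 v, ω.2.2))

/-- `X` depends only on the coordinates over the vertices of `E`. -/
def LocOm (E : Set V) (X : Om V → ℝ) : Prop :=
  ∀ ω ω' : Om V, (∀ v ∈ E, ω.2.1 v = ω'.2.1 v) →
    (∀ z : Slot V, z.1 ∈ E → ω.1 z = ω'.1 z ∧ ω.2.2 z = ω'.2.2 z) → X ω = X ω'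

/-- A measurable choice of slots from the times, within finitely many rounds. -/
structure Mask (A : Lb V → Set (Slot V)) : Prop where
  meas : ∀ z, MeasurableSet {T | z ∈ A T}
  bdd : ∃ K : ℕ, ∀ T z, z ∈ A T → z.2 < K

/-- The field of the weak model seen through a mask. -/
def Lm (A : Lb V → Set (Slot V)) (ω : Om V) : Slot V → ℝ := (A ω.1).indicator (Lw ω)

/-- The field of the weak model on the slots of `A` that ring before `s`. -/
def Lms (A : Set (Slot V)) (s : ℝ) (ω : Om V) : Slot V → ℝ := A.indicator (Lt ω.1 (Lw ω) s)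

/-- `g (T, y)` depends on the signals `y` only through the slots of `A T`. -/
def DataLoc (A : Lb V → Set (Slot V)) (g : Lb V × Lb V → ℝ) : Prop :=
  ∀ T y y', (∀ z ∈ A T, y z = y' z) → g (T, y) = g (T, y')

/-- The round-zero slots over the part of the half tree within distance `n` of `u`. -/
def hbox (G : SimpleGraph V) (u p : V) (n : ℕ) : Finset (Slot V) :=
  ((ball G u n).filter (fun w => w ∈ half G u p)) ×ˢ {0}

/-! ### The strong model -/

/-- Times and innovations. -/
abbrev Lab (V : Type u) := Lb V × Lb V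

/-- The law of the labels. -/
abbrev Pl (V : Type u) : Measure (Lab V) := (nu V).prod (nu V)

/-- One Picard step of the finite-volume sampler. -/
def stepS (G : SimpleGraph V) (θ : ℝ) (J : Finset (Slot V)) (ω : Lab V) (ℓ : Slot V → ℝ) :
    Slot V → ℝ := fun z =>
  if z ∈ J then sig (epsf (tim ω.1 z)) (mag G θ (Lt ω.1 ℓ (tim ω.1 z)) z.1) (ω.2 z) else 0

/-- The finite-volume sampler. -/
def samp (G : SimpleGraph V) (θ : ℝ) (J : Finset (Slot V)) (ω : Lab V) : Slot V → ℝ :=
  (stepS G θ J ω)^[J.card] 0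

/-- The infinite-volume sampler. -/
def Psi (G : SimpleGraph V) (θ : ℝ) (ω : Lab V) : Slot V → ℝ := fun z =>
  limsup (fun R => samp G θ (box G z.1 R) ω z) atTop

/-- The field of the strong model before the time `s`. -/
def Ls (G : SimpleGraph V) (θ s : ℝ) (ω : Lab V) : Slot V → ℝ := Lt ω.1 (Psi G θ ω) s

/-- Two label configurations agree before the time `s`. -/
def Agree (s : ℝ) (ω ω' : Lab V) : Prop :=
  ∀ z, (tim ω.1 z < s ∨ tim ω'.1 z < s) → ω.1 z = ω'.1 z ∧ ω.2 z = ω'.2 z

/-- The action of a vertex map on slots. -/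
def gz (g : V → V) : Slot V → Slot V := Prod.map g id

/-- The action of a vertex map on labels. -/
def actL (g : V → V) (ω : Lab V) : Lab V := (ω.1 ∘ gz g, ω.2 ∘ gz g)

/-- Times and innovations from one label per vertex. -/
def spl (x : V → I) : Lab V :=
  (fun z => R168.xi (x z.1) (2 * z.2), fun z => R168.xi (x z.1) (2 * z.2 + 1))

/-- The difference of the posterior means of two strong models. -/
def dd (G : SimpleGraph V) (θ θ' s : ℝ) (v : V) (ω : Lab V) : ℝ :=
  mag G θ (Ls G θ s ω) v - mag G θ' (Ls G θ' s ω) v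

/-- The mean square difference of two strong models. -/
def uu (G : SimpleGraph V) (θ θ' s : ℝ) (v : V) : ℝ := ∫ ω, dd G θ θ' s v ω ^ 2 ∂(Pl V)

/-- The growth rate of `uu` due to the slots over `v`. -/
def FF (G : SimpleGraph V) (θ θ' s : ℝ) (o v : V) (ω : Lab V) : ℝ :=
  8 * (KK G θ (Ls G θ s ω) o v - KK G θ' (Ls G θ' s ω) o v) ^ 2 +
    32 * KK G θ' (Ls G θ' s ω) o v ^ 2 * dd G θ θ' s v ω ^ 2

/-! ### Scales -/

/-- The accumulated signal strength of round zero. -/
def tt (s : ℝ) : ℝ := (min s (1 / 2)) ^ 15 / 15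

/-- The correlation length at time `s`. -/
def rad (s : ℝ) : ℕ := ⌈1 / Real.sqrt (tt s)⌉₊

/-- The contraction rate at time `s`. -/
def pp (d : ℕ) (s : ℝ) : ℝ := Real.sqrt (tt s) / (6000 * ((d : ℝ) - 1))

/-- Subcritical, but critical on the scale of the correlation length at time `s`. -/
def Near (d : ℕ) (θ s : ℝ) : Prop :=
  Subc d θ ∧ 1 / 2 ≤ (((d : ℝ) - 1) * θ ^ 2) ^ rad s

/-- The equation lemmas of the definitions above, generated once here. -/
theorem anchor : True := by
  have := @half.eq_1.{0}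
  have := @half.eq_def.{0}
  have := @ball.eq_1.{0}
  have := @ball.eq_def.{0}
  have := @geo.eq_1.{0}
  have := @geo.eq_def.{0}
  have := @spin.eq_1
  have := @spin.eq_def
  have := @IsIsing.eq_1.{0}
  have := @IsIsing.eq_def.{0}
  have := @ising.eq_1.{0}
  have := @ising.eq_def.{0}
  have := @Subc.eq_1
  have := @Subc.eq_def
  have := @vm.eq_1.{0}
  have := @vm.eq_def.{0}
  have := @Bd.eq_1.{0}
  have := @Bd.eq_def.{0}
  have := @wt.eq_1.{0}
  have := @wt.eq_def.{0}
  have := @post.eq_1.{0}
  have := @post.eq_def.{0}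
  have := @box.eq_1.{0}
  have := @box.eq_def.{0}
  have := @mag.eq_1.{0}
  have := @mag.eq_def.{0}
  have := @cav.eq_1.{0}
  have := @cav.eq_def.{0}
  have := @kap.eq_1
  have := @kap.eq_def
  have := @PP.eq_1.{0}
  have := @PP.eq_def.{0}
  have := @KK.eq_1.{0}
  have := @KK.eq_def.{0}
  have := @SS.eq_1.{0}
  have := @SS.eq_def.{0}
  have := @Conv.eq_1.{0}
  have := @Conv.eq_def.{0}
  have := @Good.eq_1.{0}
  have := @Good.eq_def.{0}
  have := @clip.eq_1
  have := @clip.eq_def
  have := @lam.eq_1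
  have := @lam.eq_def
  have := @qt.eq_1
  have := @qt.eq_def
  have := @cdq.eq_1
  have := @cdq.eq_def
  have := @lk.eq_1
  have := @lk.eq_def
  have := @sig.eq_1
  have := @sig.eq_def
  have := @phi.eq_1
  have := @phi.eq_def
  have := @nu.eq_1.{0}
  have := @nu.eq_def.{0}
  have := @tim.eq_1.{0}
  have := @tim.eq_def.{0}
  have := @epsf.eq_1
  have := @epsf.eq_def
  have := @tm.eq_1.{0}
  have := @tm.eq_def.{0}
  have := @Lt.eq_1.{0}
  have := @Lt.eq_def.{0}
  have := @Ly.eq_1.{0}
  have := @Ly.eq_def.{0}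
  have := @Uy.eq_1.{0}
  have := @Uy.eq_def.{0}
  have := @jsum.eq_1.{0}
  have := @jsum.eq_def.{0}
  have := @Pw.eq_1.{0}
  have := @Pw.eq_def.{0}
  have := @Yw.eq_1.{0}
  have := @Yw.eq_def.{0}
  have := @Lw.eq_1.{0}
  have := @Lw.eq_def.{0}
  have := @Uw.eq_1.{0}
  have := @Uw.eq_def.{0}
  have := @flipO.eq_1.{0}
  have := @flipO.eq_def.{0}
  have := @LocOm.eq_1.{0}
  have := @LocOm.eq_def.{0}
  have := @Lm.eq_1.{0}
  have := @Lm.eq_def.{0}
  have := @Lms.eq_1.{0}
  have := @Lms.eq_def.{0}
  have := @DataLoc.eq_1.{0}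
  have := @DataLoc.eq_def.{0}
  have := @hbox.eq_1.{0}
  have := @hbox.eq_def.{0}
  have := @Pl.eq_1.{0}
  have := @Pl.eq_def.{0}
  have := @stepS.eq_1.{0}
  have := @stepS.eq_def.{0}
  have := @samp.eq_1.{0}
  have := @samp.eq_def.{0}
  have := @Psi.eq_1.{0}
  have := @Psi.eq_def.{0}
  have := @Ls.eq_1.{0}
  have := @Ls.eq_def.{0}
  have := @Agree.eq_1.{0}
  have := @Agree.eq_def.{0}
  have := @gz.eq_1.{0}
  have := @gz.eq_def.{0}
  have := @actL.eq_1.{0}
  have := @actL.eq_def.{0}
  have := @spl.eq_1.{0}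
  have := @spl.eq_def.{0}
  have := @dd.eq_1.{0}
  have := @dd.eq_def.{0}
  have := @uu.eq_1.{0}
  have := @uu.eq_def.{0}
  have := @FF.eq_1.{0}
  have := @FF.eq_def.{0}
  have := @tt.eq_1
  have := @tt.eq_def
  have := @rad.eq_1
  have := @rad.eq_def
  have := @pp.eq_1
  have := @pp.eq_def
  have := @Near.eq_1
  have := @Near.eq_def
  have := @isingWeight.eq_1.{0}
  have := @isingWeight.eq_def.{0}
  trivial

end Crest.Agent.R160

end
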