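import Crest.Agent.R160.Samp
import Crest.Agent.R160.Aut

/-!
Equivariance of the posterior quantities and of the samplers.
-/

set_option autoImplicit false

open MeasureTheory unitInterval Filter Topology
open Crest.ProbabilityR Crest.ProbabilityR.Labels Crest.ProbabilityR.TreeIsing
open scoped Classical

noncomputable section

namespace Crest.Agent.R160

universe u

variable {V : Type u} {G : SimpleGraph V} [G.LocallyFinite] {d : ℕ}

variable {θ : ℝ}

/-! ### Equivariance -/

omit [G.LocallyFinite] in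
theorem measurePreserving_actL (g : G ≃g G) : MeasurePreserving (actL (V := V) g) (Pl V) (Pl V) := by
  have hi : Function.Injective (gz (g : V → V)) := g.injective.prodMap Function.injective_id
  exact (R168.measurePreserving_comp_inj _ hi).prod (R168.measurePreserving_comp_inj _ hi)

omit [G.LocallyFinite] in
theorem spl_comp (g : V → V) (x : V → I) : spl (x ∘ g) = actL g (spl x) := by
  rfl

namespace EquivAux

theorem post_act (h : RT G d) (hθ : Subc d θ) (g : G ≃g G) (J : Finset (Slot V))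
    (ℓ : Slot V → ℝ) (v : V) :
    post G θ (J.image (gz g)) ℓ (g v) = post G θ J (ℓ ∘ gz g) v := by
  have hi : Function.Injective (gz (g : V → V)) := g.injective.prodMap Function.injective_id
  have h1 : θ ≤ 1 := by
    have h3 : (3 : ℝ) ≤ d := by exact_mod_cast h.three
    nlinarith [hθ.1, hθ.2, sq_nonneg θ]
  have hp := ising_aut h hθ.1 h1 g
  have hw : ∀ η, wt (J.image (gz g)) ℓ η = wt J (ℓ ∘ gz g) (η ∘ g) := fun η => by
    rw [wt, Finset.prod_image fun _ _ _ _ k => hi k]; rfl
  have ms : ∀ w : V, Measurable fun η : V → Bool => spin (η w) := fun w =>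
    (measurable_of_countable spin).comp (measurable_pi_apply w)
  have hm : Measurable (wt J (ℓ ∘ gz g)) :=
    Finset.measurable_prod _ fun z _ => ((ms z.1).mul_const _).const_add _
  have k : ∀ F : (V → Bool) → ℝ, Measurable F →
      ∫ η, F (η ∘ g) ∂(ising G θ) = ∫ η, F η ∂(ising G θ) := fun F hF => by
    rw [← integral_map hp.measurable.aemeasurable hF.aestronglyMeasurable, hp.map_eq]
  simp only [post, hw]
  rw [k _ hm, ← k (fun η => spin (η v) * wt J (ℓ ∘ gz g) η) ((ms v).mul hm)]
  rfl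

end EquivAux

theorem mag_act (h : RT G d) (hθ : Subc d θ) (g : G ≃g G) (ℓ : Slot V → ℝ) (v : V) :
    mag G θ (ℓ ∘ gz g) v = mag G θ ℓ (g v) := by
  simp only [mag, box_map h, EquivAux.post_act h hθ]

theorem cav_act (h : RT G d) (hθ : Subc d θ) (g : G ≃g G) (ℓ : Slot V → ℝ) (u p : V) :
    cav G θ (ℓ ∘ gz g) u p = cav G θ ℓ (g u) (g p) := by
  rw [cav, cav, ← mag_act h hθ]
  congr 1
  funext z
  have := mem_half_map g u p z.1
  by_cases hz : z.1 ∈ half G u p
  · rw [Set.indicator_of_mem (show z ∈ vm (half G u p) from hz), Function.comp_apply,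
      Function.comp_apply,
      Set.indicator_of_mem (show gz g z ∈ vm (half G (g u) (g p)) from this.2 hz)]
  · rw [Set.indicator_of_notMem (show z ∉ vm (half G u p) from hz), Function.comp_apply,
      Set.indicator_of_notMem
        (show gz g z ∉ vm (half G (g u) (g p)) from fun k => hz (this.1 k))]

theorem PP_act (h : RT G d) (hθ : Subc d θ) (g : G ≃g G) (ℓ : Slot V → ℝ) (o z : V) :
    PP G θ (ℓ ∘ gz g) o z = PP G θ ℓ (g o) (g z) := by
  simp only [PP, dist_map, geo_map h, cav_act h hθ]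

theorem KK_act (h : RT G d) (hθ : Subc d θ) (g : G ≃g G) (ℓ : Slot V → ℝ) (o z : V) :
    KK G θ (ℓ ∘ gz g) o z = KK G θ ℓ (g o) (g z) := by
  simp only [KK, dist_map, mag_act h hθ, PP_act h hθ]

theorem SS_act (h : RT G d) (hθ : Subc d θ) (g : G ≃g G) (ℓ : Slot V → ℝ) (N : ℕ) (o : V) :
    SS G d θ (ℓ ∘ gz g) N o = SS G d θ ℓ N (g o) := by
  rw [SS, SS, ball_map h, Finset.sum_image fun _ _ _ _ k => g.injective k]
  simp only [dist_map, PP_act h hθ]

theorem Psi_act (h : RT G d) (hθ : Subc d θ) (g : G ≃g G) (ω : Lab V) :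
    Psi G θ (actL g ω) = Psi G θ ω ∘ gz g := by
  have hi : Function.Injective (gz (g : V → V)) := g.injective.prodMap Function.injective_id
  have step : ∀ (J : Finset (Slot V)) (ℓ : Slot V → ℝ),
      stepS G θ J (actL g ω) (ℓ ∘ gz g) = stepS G θ (J.image (gz g)) ω ℓ ∘ gz g := by
    intro J ℓ
    funext z
    have e : ∀ s, Lt (actL g ω).1 (ℓ ∘ gz g) s = Lt ω.1 ℓ s ∘ gz g := fun s => rfl
    simp only [stepS, Function.comp_apply, hi.mem_finset_image, e, mag_act h hθ]
    rfl
  have it : ∀ (J : Finset (Slot V)) (n : ℕ), (stepS G θ J (actL g ω))^[n] 0 =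
      (stepS G θ (J.image (gz g)) ω)^[n] 0 ∘ gz g := by
    intro J n
    induction n with
    | zero => rfl
    | succ n ih => rw [Function.iterate_succ_apply', Function.iterate_succ_apply', ih, step]
  funext z
  change _ = limsup (fun R => samp G θ (box G (g z.1) R) ω (gz g z)) atTop
  simp only [Psi, samp, it, box_map h, Finset.card_image_of_injective _ hi, Function.comp_apply]

theorem Ls_act (h : RT G d) (hθ : Subc d θ) (g : G ≃g G) (s : ℝ) (ω : Lab V) :
    Ls G θ s (actL g ω) = Ls G θ s ω ∘ gz g := by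
  rw [Ls, Psi_act h hθ]; rfl

theorem dd_act (h : RT G d) {θ θ' : ℝ} (hθ : Subc d θ) (hθ' : Subc d θ') (g : G ≃g G) (s : ℝ)
    (v : V) (ω : Lab V) : dd G θ θ' s v (actL g ω) = dd G θ θ' s (g v) ω := by
  simp only [dd, Ls_act h hθ, Ls_act h hθ', mag_act h hθ, mag_act h hθ']

omit [G.LocallyFinite] in
theorem integral_actL (g : G ≃g G) {F : Lab V → ℝ} (hF : Measurable F) :
    ∫ ω, F (actL g ω) ∂(Pl V) = ∫ ω, F ω ∂(Pl V) := by
  have hp := measurePreserving_actL (G := G) g
  rw [← integral_map hp.measurable.aemeasurable hF.aestronglyMeasurable, hp.map_eq]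

theorem uu_eq (h : RT G d) {θ θ' : ℝ} (hθ : Subc d θ) (hθ' : Subc d θ') (s : ℝ) (v v' : V) :
    uu G θ θ' s v = uu G θ θ' s v' := by
  obtain ⟨g, rfl⟩ := exists_aut_vertex h v v'
  simp only [uu, ← dd_act h hθ hθ']
  exact (integral_actL g ((measurable_dd θ θ' s v).pow_const 2)).symm

omit [G.LocallyFinite] in
theorem uu_nonneg (θ θ' s : ℝ) (v : V) : 0 ≤ uu G θ θ' s v := by
  exact integral_nonneg fun _ => sq_nonneg _

omit [G.LocallyFinite] in
theorem uu_self (θ s : ℝ) (v : V) : uu G θ θ s v = 0 := by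
  simp [uu, dd]

end Crest.Agent.R160

end
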