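import Crest.Agent.R160.Chan

/-!
Elementary facts on fields, times and masks.
-/

set_option autoImplicit false

open MeasureTheory unitInterval Filter Topology
open Crest.ProbabilityR Crest.ProbabilityR.Labels Crest.ProbabilityR.TreeIsing
open scoped Classical

noncomputable section

namespace Crest.Agent.R160

universe u

variable {V : Type u} {G : SimpleGraph V} [G.LocallyFinite] {d : ℕ}

/-! ### Elementary facts on fields -/

omit [G.LocallyFinite] in
theorem Bd.indicator {ℓ : Slot V → ℝ} (hℓ : Bd ℓ) (A : Set (Slot V)) : Bd (A.indicator ℓ) := by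
  intro z
  by_cases hz : z ∈ A
  · rw [Set.indicator_of_mem hz]
    exact hℓ z
  · rw [Set.indicator_of_notMem hz, abs_zero]
    norm_num

omit [G.LocallyFinite] in
theorem Bd.lt {ℓ : Slot V → ℝ} (hℓ : Bd ℓ) (T : Lb V) (s : ℝ) : Bd (Lt T ℓ s) := by
  exact hℓ.indicator _

omit [G.LocallyFinite] in
theorem bd_Ly (T y : Lb V) : Bd (Ly T y) := by
  exact fun z => (abs_lk_le (epsf_nonneg _) _).trans (epsf_le _)

omit [G.LocallyFinite] in
theorem bd_Lw (ω : Om V) : Bd (Lw ω) := by
  exact bd_Ly _ _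

omit [G.LocallyFinite] in
theorem bd_Lm (A : Lb V → Set (Slot V)) (ω : Om V) : Bd (Lm A ω) := by
  exact (bd_Lw ω).indicator _

omit [G.LocallyFinite] in
theorem bd_Lms (A : Set (Slot V)) (s : ℝ) (ω : Om V) : Bd (Lms A s ω) := by
  exact ((bd_Lw ω).lt _ _).indicator _

omit [G.LocallyFinite] in
theorem abs_Lw_le (ω : Om V) (z : Slot V) : |Lw ω z| ≤ epsf (tim ω.1 z) := by
  exact abs_lk_le (epsf_nonneg _) _

omit [G.LocallyFinite] in
theorem Lw_eq (ω : Om V) (z : Slot V) :
    Lw ω z = spin (ω.2.1 z.1) * lk (epsf (tim ω.1 z)) (qt (epsf (tim ω.1 z)) (ω.2.2 z)) := by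
  unfold Lw Ly Yw spin
  split_ifs
  · rw [one_mul]
  · rw [lk_symm, neg_one_mul]

omit [G.LocallyFinite] in
theorem Lw_flipO (ω : Om V) : Lw (flipO ω) = -Lw ω := by
  funext z
  rw [Pi.neg_apply, Lw_eq, Lw_eq, ← neg_mul, ← spin_not]
  rfl

omit [G.LocallyFinite] in
theorem Lms_flipO (A : Set (Slot V)) (s : ℝ) (ω : Om V) : Lms A s (flipO ω) = -Lms A s ω := by
  unfold Lms Lt
  rw [Lw_flipO, Set.indicator_neg', Set.indicator_neg']
  rfl

omit [G.LocallyFinite] in
theorem Lms_eq_Lm (A : Set (Slot V)) (s : ℝ) (ω : Om V) :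
    Lms A s ω = Lm (fun T => A ∩ tm s T) ω := by
  exact Set.indicator_indicator _ _ _

omit [G.LocallyFinite] in
theorem Lms_univ (s : ℝ) (ω : Om V) : Lms Set.univ s ω = Lt ω.1 (Lw ω) s := by
  exact Set.indicator_univ _

omit [G.LocallyFinite] in
theorem indicator_Lms (A B : Set (Slot V)) (s : ℝ) (ω : Om V) :
    B.indicator (Lms A s ω) = Lms (B ∩ A) s ω := by
  exact Set.indicator_indicator _ _ _

omit [G.LocallyFinite] in
/-- The field over `E` depends only on the coordinates over `E`. -/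
theorem Lms_congr {E : Set V} {ω ω' : Om V} (h1 : ∀ v ∈ E, ω.2.1 v = ω'.2.1 v)
    (h2 : ∀ z : Slot V, z.1 ∈ E → ω.1 z = ω'.1 z ∧ ω.2.2 z = ω'.2.2 z) (A : Set (Slot V)) (s : ℝ)
    (z : Slot V) (hz : z.1 ∈ E) : Lms A s ω z = Lms A s ω' z := by
  have h3 : tim ω.1 z = tim ω'.1 z := by
    unfold tim
    rw [(h2 z hz).1]
  have h4 : Lw ω z = Lw ω' z := by
    rw [Lw_eq, Lw_eq, h3, h1 _ hz, (h2 z hz).2]
  simp only [Lms, Lt, tm, Set.indicator, Set.mem_ofPred_eq, h3, h4]
  congr

omit [G.LocallyFinite] in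
theorem measurable_tim (z : Slot V) : Measurable (fun T : Lb V => tim T z) := by
  unfold tim
  fun_prop

omit [G.LocallyFinite] in
theorem mask_tm (s : ℝ) : Mask (V := V) (tm s) := by
  refine ⟨fun z => measurableSet_lt (measurable_tim z) measurable_const, ⌈s⌉₊, fun T z hz => ?_⟩
  have h1 : (z.2 : ℝ) + (T z : ℝ) < s := hz
  have h2 := (T z).2.1
  exact Nat.lt_ceil.2 (by linarith)

omit [G.LocallyFinite] in
theorem mask_tm_tim (w : Slot V) : Mask (fun T : Lb V => tm (tim T w) T) := by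
  refine ⟨fun z => measurableSet_lt (measurable_tim z) (measurable_tim w), w.2 + 1,
    fun T z hz => ?_⟩
  have h1 : (z.2 : ℝ) + (T z : ℝ) < (w.2 : ℝ) + (T w : ℝ) := hz
  have h2 := (T z).2.1
  have h3 := (T w).2.2
  have h4 : (z.2 : ℝ) < ((w.2 + 1 : ℕ) : ℝ) := by
    push_cast
    linarith
  exact_mod_cast h4

omit [G.LocallyFinite] in
theorem Mask.inter {A : Lb V → Set (Slot V)} (hA : Mask A) (B : Set (Slot V)) :
    Mask (fun T => B ∩ A T) := by
  obtain ⟨K, hK⟩ := hA.bdd
  refine ⟨fun z => ?_, K, fun T z hz => hK T z hz.2⟩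
  by_cases hz : z ∈ B
  · simpa [hz] using hA.meas z
  · simp [hz]

omit [G.LocallyFinite] in
theorem ae_tim_injective [Countable V] : ∀ᵐ T ∂(nu V), Function.Injective (tim T) := by
  have key : ∀ i j : Slot V, ∀ᵐ T ∂(nu V), tim T i = tim T j → i = j := by
    intro i j
    by_cases hij : i = j
    · exact Eventually.of_forall fun _ _ => hij
    · have h := Measure.infinitePi_map_eval_prod (P := fun _ : Slot V => (volume : Measure I)) hij
      have hd : MeasurableSet {p : I × I | (i.2 : ℝ) + (p.1 : ℝ) = (j.2 : ℝ) + (p.2 : ℝ)} :=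
        measurableSet_eq_fun (by fun_prop) (by fun_prop)
      have h0 : ((volume : Measure I).prod volume)
          {p : I × I | (i.2 : ℝ) + (p.1 : ℝ) = (j.2 : ℝ) + (p.2 : ℝ)} = 0 := by
        rw [Measure.prod_apply hd]
        have : ∀ x : I, (volume : Measure I) (Prod.mk x ⁻¹'
            {p : I × I | (i.2 : ℝ) + (p.1 : ℝ) = (j.2 : ℝ) + (p.2 : ℝ)}) = 0 := by
          intro x
          refine Set.Subsingleton.measure_zero (fun y hy y' hy' => Subtype.ext ?_) _
          have h1 : (i.2 : ℝ) + (x : ℝ) = (j.2 : ℝ) + (y : ℝ) := hy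
          have h2 : (i.2 : ℝ) + (x : ℝ) = (j.2 : ℝ) + (y' : ℝ) := hy'
          linarith
        simp only [this, lintegral_const, zero_mul]
      rw [← h, Measure.map_apply (by fun_prop) hd] at h0
      rw [ae_iff]
      unfold nu labelMeasure
      convert h0 using 2
      ext t
      simp [hij, tim]
  filter_upwards [ae_all_iff.2 fun i => ae_all_iff.2 fun j => key i j] with t ht i j hij
  exact ht i j hij

end Crest.Agent.R160

end
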