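import Crest.Agent.R160.Cauchy

/-!
Assembly of the factor map.
-/

set_option autoImplicit false

open MeasureTheory unitInterval Filter Topology
open Crest.ProbabilityR Crest.ProbabilityR.Labels Crest.ProbabilityR.TreeIsing
open scoped Classical

noncomputable section

namespace Crest.Agent.R160

universe u

variable {V : Type u} {G : SimpleGraph V} [G.LocallyFinite] {d : ℕ}

namespace FinalAux

theorem real_le_integral {Ω : Type*} [MeasurableSpace Ω] (μ : Measure Ω) [IsFiniteMeasure μ]
    {E : Set Ω} (hE : MeasurableSet E) {f : Ω → ℝ} (hf : Integrable f μ) (h0 : ∀ ω, 0 ≤ f ω)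
    (h1 : ∀ ω ∈ E, 1 ≤ f ω) : μ.real E ≤ ∫ ω, f ω ∂μ := by
  rw [← integral_indicator_one hE]
  refine integral_mono ((integrable_const (1 : ℝ)).indicator hE) hf fun ω => ?_
  by_cases hω : ω ∈ E
  · simpa [hω] using h1 ω hω
  · simpa [hω] using h0 ω

theorem measurable_decide_pos {Ω : Type*} [MeasurableSpace Ω] {f : Ω → ℝ} (hf : Measurable f) :
    Measurable (fun ω => decide (0 < f ω)) := by
  apply measurable_to_bool
  have : (fun ω => decide (0 < f ω)) ⁻¹' {true} = {ω | 0 < f ω} := by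
    ext ω; simp
  rw [this]
  exact measurableSet_lt measurable_const hf

theorem one_le_of_decide_ne {a b : ℝ} (h : decide (0 < a) ≠ decide (0 < b)) :
    1 ≤ (1 - a ^ 2) + (a - b) ^ 2 := by
  by_cases ha : 0 < a <;> by_cases hb : 0 < b <;> simp [ha, hb] at h
  · nlinarith [not_lt.1 hb, sq_nonneg b]
  · nlinarith [not_lt.1 ha, sq_nonneg b]

theorem one_le_of_decide_ne_spin {a : ℝ} {b : Bool} (h : decide (0 < a) ≠ b) :
    1 ≤ (spin b - a) ^ 2 := by
  cases b
  · have ha : 0 < a := by simpa using h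
    have : spin false = -1 := by simp [spin]
    rw [this]; nlinarith
  · have ha : a ≤ 0 := by simpa using h
    have : spin true = 1 := by simp [spin]
    rw [this]; nlinarith

theorem continuous_isingWeight (G : SimpleGraph V) (S : Finset V) (η : V → Bool) :
    Continuous fun θ : ℝ => isingWeight G θ S η := by
  unfold isingWeight
  refine continuous_const.mul (continuous_finsetProd _ fun e _ => ?_)
  split_ifs <;> fun_prop

theorem isingWeight_nonneg (G : SimpleGraph V) {θ : ℝ} (h0 : 0 ≤ θ) (h1 : θ ≤ 1) (S : Finset V)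
    (η : V → Bool) : 0 ≤ isingWeight G θ S η := by
  unfold isingWeight
  refine mul_nonneg (by norm_num) (Finset.prod_nonneg fun e _ => ?_)
  split_ifs <;> linarith

theorem Lms_univ_eq (s : ℝ) (ω : Om V) : Lms Set.univ s ω = Lm (tm s) ω := by
  rw [Lms_univ]; rfl

theorem one_sub_mag_sq (h : RT G d) {θ : ℝ} (hθ : Subc d θ) {k : ℕ} (hk : 1 ≤ k) (v : V) :
    1 - ∫ ω, mag G θ (Lms Set.univ k ω) v ^ 2 ∂(Pw G θ) ≤ 144 / k := by
  have h1 := dec_le h hθ hk v
  have h2 := integral_spin_sub_sq h hθ (mask_tm (V := V) (k : ℝ)) v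
  simp only [Lms_univ_eq] at h1 ⊢
  linarith

end FinalAux

open FinalAux

/-- A fast Cauchy sequence of equivariant rules has an equivariant limit. -/
theorem assemble (h : RT G d) (Φ : ℕ → (V → I) → V → Bool) (hm : ∀ j, Measurable (Φ j))
    (he : ∀ j (g : G ≃g G) x, Φ j (x ∘ g) = Φ j x ∘ g)
    (hc : ∀ v, Summable fun j => (labelMeasure V).real {x | Φ j x v ≠ Φ (j + 1) x v})
    (w : Finset V → (V → Bool) → ℝ)
    (hw : ∀ (S : Finset V) (η : V → Bool), (G.induce (S : Set V)).Connected →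
      Tendsto (fun j => (labelMeasure V).real {x | ∀ v ∈ S, Φ j x v = η v}) atTop (𝓝 (w S η))) :
    ∃ Ψ : (V → I) → (V → Bool), Measurable Ψ ∧
      (∀ (g : G ≃g G) (x : V → I), Ψ (x ∘ ⇑g) = Ψ x ∘ ⇑g) ∧
      ∀ (S : Finset V) (η : V → Bool), (G.induce (S : Set V)).Connected →
        (labelMeasure V).map Ψ {ξ | ∀ v ∈ S, ξ v = η v} = ENNReal.ofReal (w S η) := by
  have _ := h.three
  set Ψ : (V → I) → V → Bool := fun x v => decide (∀ᶠ j in atTop, Φ j x v = true) with hΨ
  have hmv : ∀ j v, Measurable fun x => Φ j x v := fun j v => (measurable_pi_apply v).comp (hm j)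
  have hΨm : Measurable Ψ := by
    refine measurable_pi_lambda _ fun v => measurable_to_bool ?_
    have : (fun x => Ψ x v) ⁻¹' {true} = ⋃ N : ℕ, ⋂ j : ℕ, ⋂ _ : N ≤ j, {x | Φ j x v = true} := by
      ext x
      simp [hΨ, eventually_atTop]
    rw [this]
    exact MeasurableSet.iUnion fun N => MeasurableSet.iInter fun j => MeasurableSet.iInter
      fun _ => (hmv j v) (measurableSet_singleton true)
  have hlim : ∀ v, ∀ᵐ x ∂(labelMeasure V), ∀ᶠ j in atTop, Φ j x v = Ψ x v := by
    intro v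
    have hsum : ∑' j, labelMeasure V {x | Φ j x v ≠ Φ (j + 1) x v} ≠ ⊤ := by
      have e : ∀ j, labelMeasure V {x | Φ j x v ≠ Φ (j + 1) x v} =
          ENNReal.ofReal ((labelMeasure V).real {x | Φ j x v ≠ Φ (j + 1) x v}) := fun j =>
        (ofReal_measureReal (measure_ne_top _ _)).symm
      simp only [e]
      rw [← ENNReal.ofReal_tsum_of_nonneg (fun _ => measureReal_nonneg) (hc v)]
      exact ENNReal.ofReal_ne_top
    filter_upwards [ae_eventually_notMem hsum] with x hx
    obtain ⟨N, hN⟩ := eventually_atTop.1 hx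
    have hconst : ∀ j, N ≤ j → Φ j x v = Φ N x v := by
      intro j hj
      induction j, hj using Nat.le_induction with
      | base => rfl
      | succ j hj ih =>
        have := hN j hj
        simp only [not_not] at this
        rw [← this, ih]
    have hΨx : Ψ x v = Φ N x v := by
      cases hb : Φ N x v
      · simp only [hΨ, decide_eq_false_iff_not]
        intro hev
        obtain ⟨M, hM⟩ := eventually_atTop.1 hev
        have h1 := hM (max M N) (le_max_left _ _)
        rw [hconst _ (le_max_right _ _), hb] at h1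
        exact Bool.false_ne_true h1
      · simp only [hΨ, decide_eq_true_eq]
        exact eventually_atTop.2 ⟨N, fun j hj => by rw [hconst j hj, hb]⟩
    exact eventually_atTop.2 ⟨N, fun j hj => by rw [hconst j hj, hΨx]⟩
  refine ⟨Ψ, hΨm, fun g x => ?_, fun S η hS => ?_⟩
  · funext v
    simp only [hΨ, he, Function.comp_apply]
  · have hcyl : MeasurableSet {ξ : V → Bool | ∀ v ∈ S, ξ v = η v} := by
      have : {ξ : V → Bool | ∀ v ∈ S, ξ v = η v} = ⋂ v ∈ S, (fun ξ : V → Bool => ξ v) ⁻¹' {η v} := by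
        ext ξ; simp
      rw [this]
      exact S.measurableSet_biInter fun v _ => measurable_pi_apply v (measurableSet_singleton _)
    rw [Measure.map_apply hΨm hcyl]
    have hall : ∀ᵐ x ∂(labelMeasure V), ∀ v ∈ S, ∀ᶠ j in atTop, Φ j x v = Ψ x v :=
      (ae_ball_iff S.countable_toSet).2 fun v _ => hlim v
    have ht : Tendsto (fun j => labelMeasure V {x | ∀ v ∈ S, Φ j x v = η v}) atTop
        (𝓝 (labelMeasure V (Ψ ⁻¹' {ξ | ∀ v ∈ S, ξ v = η v}))) := by
      refine tendsto_measure_of_ae_tendsto_indicator_of_isFiniteMeasure atTop (hΨm hcyl)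
        (fun j => hm j hcyl) ?_
      filter_upwards [hall] with x hx
      filter_upwards [(eventually_all_finset S).2 hx] with j hj
      simp only [Set.mem_ofPred_eq, Set.mem_preimage]
      exact forall₂_congr fun v hv => by rw [hj v hv]
    have ht' := (ENNReal.tendsto_toReal (measure_ne_top _ _)).comp ht
    have := tendsto_nhds_unique ht' (hw S η hS)
    rw [← this, ENNReal.ofReal_toReal (measure_ne_top _ _)]

theorem main_of_seq (h : RT G d) {θ : ℝ} (t : ℕ → ℝ) (ht : ∀ j, Subc d (t j))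
    (hlim : Tendsto t atTop (𝓝 θ))
    (hu : ∀ j v, uu G (t j) (t (j + 1)) ((2 ^ j : ℕ) : ℝ) v ≤ (1 / 2) ^ j) :
    ∃ Ψ : (V → I) → (V → Bool), Measurable Ψ ∧
      (∀ (g : G ≃g G) (x : V → I), Ψ (x ∘ ⇑g) = Ψ x ∘ ⇑g) ∧
      ∀ (S : Finset V) (η : V → Bool), (G.induce (S : Set V)).Connected →
        (labelMeasure V).map Ψ {ξ | ∀ v ∈ S, ξ v = η v} =
          ENNReal.ofReal (isingWeight G θ S η) := by
  have hk : ∀ j : ℕ, 1 ≤ 2 ^ j := fun j => Nat.one_le_two_pow
  have hdiv : ∀ j : ℕ, (144 : ℝ) / ((2 ^ j : ℕ) : ℝ) = 144 * (1 / 2) ^ j := by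
    intro j; push_cast; rw [one_div_pow]; ring
  set f : ℕ → Lab V → V → ℝ := fun j ω v => mag G (t j) (Ls G (t j) ((2 ^ j : ℕ) : ℝ) ω) v with hf
  have hfm : ∀ j v, Measurable fun ω => f j ω v := fun j v =>
    (measurable_mag v).comp (measurable_Ls _)
  have hfb : ∀ j ω v, |f j ω v| ≤ 1 := fun j ω v => abs_mag_le (bd_Ls _ _) v
  refine assemble h (fun j x v => decide (0 < f j (spl x) v)) (fun j => ?_) (fun j g x => ?_)
    (fun v => ?_) _ (fun S η hS => ?_)
  · exact measurable_pi_lambda _ fun v =>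
      measurable_decide_pos ((hfm j v).comp measurePreserving_spl.measurable)
  · funext v
    simp only [hf, Function.comp_apply, spl_comp, Ls_act h (ht j), mag_act h (ht j)]
  · refine Summable.of_nonneg_of_le (fun _ => measureReal_nonneg) (fun j => ?_)
      (summable_geometric_two.mul_left (144 + 2 + 2 * 144))
    have hE : MeasurableSet {ω : Lab V | decide (0 < f j ω v) ≠ decide (0 < f (j + 1) ω v)} :=
      (measurableSet_eq_fun (measurable_decide_pos (hfm j v))
        (measurable_decide_pos (hfm (j + 1) v))).compl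
    have e1 := (measurePreserving_spl (V := V)).measureReal_preimage hE.nullMeasurableSet
    refine le_trans (le_of_eq e1) ?_
    set g : Lab V → ℝ := fun ω => mag G (t (j + 1)) (Ls G (t (j + 1)) ((2 ^ j : ℕ) : ℝ) ω) v
      with hg
    have hgm : Measurable g := (measurable_mag v).comp (measurable_Ls _)
    have hgb : ∀ ω, |g ω| ≤ 1 := fun ω => abs_mag_le (bd_Ls _ _) v
    have sqb : ∀ {a : ℝ}, |a| ≤ 1 → |a ^ 2| ≤ 1 := fun {a} ha => by
      rw [abs_pow]; exact pow_le_one₀ (abs_nonneg _) ha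
    have sqb2 : ∀ {a b : ℝ}, |a| ≤ 1 → |b| ≤ 1 → |(a - b) ^ 2| ≤ 4 := fun {a b} ha hb => by
      rw [abs_of_nonneg (sq_nonneg _)]
      obtain ⟨h1, h2⟩ := abs_le.1 ha
      obtain ⟨h3, h4⟩ := abs_le.1 hb
      nlinarith
    have i1 : Integrable (fun ω => f j ω v ^ 2) (Pl V) :=
      R168.integrable_of_abs_le ((hfm j v).pow_const 2) 1 fun ω => sqb (hfb j ω v)
    have i2 : Integrable (fun ω => (f j ω v - g ω) ^ 2) (Pl V) :=
      R168.integrable_of_abs_le (((hfm j v).sub hgm).pow_const 2) 4 fun ω =>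
        sqb2 (hfb j ω v) (hgb ω)
    have i3 : Integrable (fun ω => (f (j + 1) ω v - g ω) ^ 2) (Pl V) :=
      R168.integrable_of_abs_le (((hfm (j + 1) v).sub hgm).pow_const 2) 4 fun ω =>
        sqb2 (hfb (j + 1) ω v) (hgb ω)
    have hle := real_le_integral (Pl V) hE
      (f := fun ω => (1 - f j ω v ^ 2) + (2 * (f j ω v - g ω) ^ 2 + 2 * (f (j + 1) ω v - g ω) ^ 2))
      (((integrable_const 1).sub i1).add ((i2.const_mul 2).add (i3.const_mul 2)))
      (fun ω => by
        have := (abs_le.1 (sqb (hfb j ω v))).2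
        positivity)
      (fun ω hω => by
        have := one_le_of_decide_ne hω
        nlinarith [sq_nonneg (f j ω v + f (j + 1) ω v - 2 * g ω)])
    refine hle.trans ?_
    have j1 : Integrable (fun ω => 1 - f j ω v ^ 2) (Pl V) := (integrable_const 1).sub i1
    have j2 : Integrable (fun ω => 2 * (f j ω v - g ω) ^ 2 + 2 * (f (j + 1) ω v - g ω) ^ 2)
        (Pl V) := (i2.const_mul 2).add (i3.const_mul 2)
    rw [integral_add j1 j2,
      integral_add (i2.const_mul 2) (i3.const_mul 2), integral_sub (integrable_const 1) i1,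
      integral_const_mul, integral_const_mul]
    have a1 : ∫ ω, f j ω v ^ 2 ∂(Pl V) =
        ∫ ω, mag G (t j) (Lms Set.univ ((2 ^ j : ℕ) : ℝ) ω) v ^ 2 ∂(Pw G (t j)) :=
      integral_transfer_Ls h (ht j) _ (F := fun ℓ => mag G (t j) ℓ v ^ 2)
        ((measurable_mag v).pow_const 2)
    have a2 : ∫ ω, (f j ω v - g ω) ^ 2 ∂(Pl V) ≤ (1 / 2) ^ j := hu j v
    have a3 : ∫ ω, (f (j + 1) ω v - g ω) ^ 2 ∂(Pl V) ≤ 144 * (1 / 2) ^ j := by
      have hF : Measurable fun p : Lb V × (Slot V → ℝ) =>
          (mag G (t (j + 1)) (Lt p.1 p.2 ((2 ^ (j + 1) : ℕ) : ℝ)) v -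
            mag G (t (j + 1)) (Lt p.1 p.2 ((2 ^ j : ℕ) : ℝ)) v) ^ 2 := by
        refine (Measurable.sub ?_ ?_).pow_const 2 <;>
        exact (measurable_mag v).comp (measurable_Lt.comp (measurable_const.prodMk measurable_id))
      have b1 := integral_transfer h (ht (j + 1)) hF
      have hsub : ∀ T : Lb V, tm ((2 ^ j : ℕ) : ℝ) T ⊆ tm ((2 ^ (j + 1) : ℕ) : ℝ) T := by
        intro T z hz
        have : ((2 ^ j : ℕ) : ℝ) ≤ ((2 ^ (j + 1) : ℕ) : ℝ) := by
          exact_mod_cast Nat.pow_le_pow_right (by norm_num) (Nat.le_succ j)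
        exact lt_of_lt_of_le hz this
      have b2 := pyth h (ht (j + 1)) (mask_tm _) (mask_tm _) hsub v
      have b3 := one_sub_mag_sq h (ht (j + 1)) (hk j) v
      have b4 : ∫ ω, mag G (t (j + 1)) (Lm (tm ((2 ^ (j + 1) : ℕ) : ℝ)) ω) v ^ 2
          ∂(Pw G (t (j + 1))) ≤ 1 := by
        have := integral_mono_of_nonneg (μ := Pw G (t (j + 1)))
          (f := fun ω => mag G (t (j + 1)) (Lm (tm ((2 ^ (j + 1) : ℕ) : ℝ)) ω) v ^ 2)
          (g := fun _ => (1 : ℝ)) (Eventually.of_forall fun _ => sq_nonneg _) (integrable_const _)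
          (Eventually.of_forall fun ω => (abs_le.1 (sqb (abs_mag_le (bd_Lm _ ω) v))).2)
        simpa using this
      simp only [Lms_univ_eq] at b3
      rw [hdiv] at b3
      calc ∫ ω, (f (j + 1) ω v - g ω) ^ 2 ∂(Pl V) = _ := b1
        _ = _ := b2
        _ ≤ _ := by linarith
    have a4 := one_sub_mag_sq h (ht j) (hk j) v
    rw [hdiv] at a4
    simp only [integral_const, probReal_univ, smul_eq_mul, mul_one]
    linarith
  · have hθ1 : ∀ j, t j ≤ 1 := fun j => (Subc.le h (ht j)).trans (by norm_num)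
    have hcyl : MeasurableSet {ξ : V → Bool | ∀ v ∈ S, ξ v = η v} := by
      have : {ξ : V → Bool | ∀ v ∈ S, ξ v = η v} = ⋂ v ∈ S, (fun ξ : V → Bool => ξ v) ⁻¹' {η v} := by
        ext ξ; simp
      rw [this]
      exact S.measurableSet_biInter fun v _ => measurable_pi_apply v (measurableSet_singleton _)
    have key : ∀ j, |(labelMeasure V).real {x | ∀ v ∈ S, decide (0 < f j (spl x) v) = η v} -
        isingWeight G (t j) S η| ≤ S.card * (144 * (1 / 2) ^ j) := by
      intro j
      set dec : (Slot V → ℝ) → V → Bool := fun ℓ v => decide (0 < mag G (t j) ℓ v) with hdec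
      have hdm : Measurable dec :=
        measurable_pi_lambda _ fun v => measurable_decide_pos (measurable_mag v)
      have hE := hdm hcyl
      have e1 : (labelMeasure V).real {x | ∀ v ∈ S, decide (0 < f j (spl x) v) = η v} =
          (Pw G (t j)).real {ω | Lms Set.univ ((2 ^ j : ℕ) : ℝ) ω ∈
            dec ⁻¹' {ξ | ∀ v ∈ S, ξ v = η v}} := by
        have e2 := (measurePreserving_spl (V := V)).measureReal_preimage
          ((measurable_Ls (G := G) (θ := t j) ((2 ^ j : ℕ) : ℝ)) hE).nullMeasurableSet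
        refine le_antisymm (le_of_eq (e2.trans ?_)) (le_of_eq (e2.trans ?_).symm) <;>
        exact congrArg ENNReal.toReal (measure_transfer_Ls h (ht j) _ hE)
      have e3 : isingWeight G (t j) S η =
          (Pw G (t j)).real {ω | ω.2.1 ∈ {ξ : V → Bool | ∀ v ∈ S, ξ v = η v}} := by
        have hmp : MeasurePreserving (fun ω : Om V => ω.2.1) (Pw G (t j)) (ising G (t j)) :=
          measurePreserving_fst.comp measurePreserving_snd
        have e4 := hmp.measureReal_preimage hcyl.nullMeasurableSet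
        refine Eq.trans ?_ e4.symm
        rw [measureReal_def, (isIsing_ising h (ht j).1 (hθ1 j)).2 S η hS,
          ENNReal.toReal_ofReal (isingWeight_nonneg G (ht j).1 (hθ1 j) S η)]
      rw [e1, e3]
      have hLm := measurable_Lms (V := V) Set.univ ((2 ^ j : ℕ) : ℝ)
      have hsp : Measurable fun ω : Om V => ω.2.1 := measurable_fst.comp measurable_snd
      refine (abs_measureReal_sub_le_measureReal_symmDiff (hLm hE).nullMeasurableSet
        (hsp hcyl).nullMeasurableSet).trans ?_
      have hsub : symmDiff {ω : Om V | Lms Set.univ ((2 ^ j : ℕ) : ℝ) ω ∈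
            dec ⁻¹' {ξ | ∀ v ∈ S, ξ v = η v}}
          {ω | ω.2.1 ∈ {ξ : V → Bool | ∀ v ∈ S, ξ v = η v}} ⊆
          ⋃ v ∈ S, {ω | dec (Lms Set.univ ((2 ^ j : ℕ) : ℝ) ω) v ≠ ω.2.1 v} := by
        intro ω hω
        by_contra hcon
        simp only [Set.mem_iUnion, Set.mem_ofPred_eq, not_exists, not_not] at hcon
        rcases hω with ⟨h1, h2⟩ | ⟨h1, h2⟩
        · exact h2 fun v hv => by rw [← hcon v hv]; exact h1 v hv
        · exact h2 fun v hv => by rw [hcon v hv]; exact h1 v hv
      refine (measureReal_mono hsub (measure_ne_top _ _)).trans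
        ((measureReal_biUnion_finset_le _ _).trans ?_)
      rw [← nsmul_eq_mul]
      refine Finset.sum_le_card_nsmul _ _ _ fun v _ => ?_
      have hm1 : Measurable fun ω : Om V =>
          spin (ω.2.1 v) - mag G (t j) (Lms Set.univ ((2 ^ j : ℕ) : ℝ) ω) v :=
        (measurable_spin.comp ((measurable_pi_apply v).comp hsp)).sub
          ((measurable_mag v).comp hLm)
      have hEv : MeasurableSet {ω : Om V | dec (Lms Set.univ ((2 ^ j : ℕ) : ℝ) ω) v ≠ ω.2.1 v} :=
        (measurableSet_eq_fun (((measurable_pi_apply v).comp hdm).comp hLm)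
          ((measurable_pi_apply v).comp hsp)).compl
      refine (real_le_integral _ hEv (R168.integrable_of_abs_le (hm1.pow_const 2) 4 fun ω => ?_)
        (fun _ => sq_nonneg _) fun ω hω => one_le_of_decide_ne_spin hω).trans ?_
      · rw [abs_of_nonneg (sq_nonneg _)]
        obtain ⟨h1, h2⟩ := abs_le.1 (abs_spin (ω.2.1 v)).le
        obtain ⟨h3, h4⟩ := abs_le.1
          (abs_mag_le (G := G) (θ := t j) (bd_Lms Set.univ ((2 ^ j : ℕ) : ℝ) ω) v)
        nlinarith
      · rw [← hdiv]; exact dec_le h (ht j) (hk j) v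
    have l1 : Tendsto (fun j => isingWeight G (t j) S η) atTop (𝓝 (isingWeight G θ S η)) :=
      ((continuous_isingWeight G S η).tendsto θ).comp hlim
    have l2 : Tendsto (fun j : ℕ => (S.card : ℝ) * (144 * (1 / 2) ^ j)) atTop (𝓝 0) := by
      have := (tendsto_pow_atTop_nhds_zero_of_lt_one (r := (1 / 2 : ℝ)) (by norm_num)
        (by norm_num)).const_mul ((S.card : ℝ) * 144)
      simpa [mul_assoc] using this
    have l3 := squeeze_zero_norm (fun j => (Real.norm_eq_abs _).le.trans (key j)) l2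
    simpa using l3.add l1

theorem main (h : RT G d) {θ : ℝ} (h0 : 0 ≤ θ) (h1 : ((d : ℝ) - 1) * θ ^ 2 ≤ 1) :
    ∃ Ψ : (V → I) → (V → Bool), Measurable Ψ ∧
      (∀ (g : G ≃g G) (x : V → I), Ψ (x ∘ ⇑g) = Ψ x ∘ ⇑g) ∧
      ∀ (S : Finset V) (η : V → Bool), (G.induce (S : Set V)).Connected →
        (labelMeasure V).map Ψ {ξ | ∀ v ∈ S, ξ v = η v} =
          ENNReal.ofReal (isingWeight G θ S η) := by
  rcases h1.lt_or_eq with h1 | h1
  · refine main_of_seq h (fun _ => θ) (fun _ => ⟨h0, h1⟩) tendsto_const_nhds fun j v => ?_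
    rw [uu_self]; positivity
  · have hd := h.two_le
    have hch : ∀ j : ℕ, ∃ θ₀ : ℝ, Subc d θ₀ ∧ ∀ θ θ', Subc d θ → Subc d θ' → θ₀ ≤ θ → θ₀ ≤ θ' →
        ∀ o : V, uu G θ θ' ((2 ^ j : ℕ) : ℝ) o ≤ (1 / 2) ^ j := fun j =>
      cauchy h (2 ^ j) (by positivity)
    choose a ha hua using hch
    have hθpos : 0 < θ := by
      rcases h0.lt_or_eq with h0 | h0
      · exact h0
      · rw [← h0] at h1; norm_num at h1
    have hlt : ∀ x, Subc d x → x ≤ θ := by
      intro x hx
      by_contra hcon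
      have h2 : θ ^ 2 ≤ x ^ 2 := pow_le_pow_left₀ h0 (not_le.1 hcon).le 2
      have := hx.2
      nlinarith
    have hmax : ∀ x y, Subc d x → Subc d y → Subc d (max x y) := by
      intro x y hx hy
      rcases le_total x y with hxy | hxy
      · rwa [max_eq_right hxy]
      · rwa [max_eq_left hxy]
    set b : ℕ → ℝ := fun j => θ * (1 - 1 / ((j : ℝ) + 1)) with hb
    have hbs : ∀ j, Subc d (b j) := by
      intro j
      have hj : (0 : ℝ) < (j : ℝ) + 1 := by positivity
      have e0 : 0 < 1 / ((j : ℝ) + 1) := by positivity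
      have e1 : 1 / ((j : ℝ) + 1) ≤ 1 := by
        rw [div_le_one hj]; linarith [(Nat.cast_nonneg j : (0 : ℝ) ≤ j)]
      refine ⟨mul_nonneg h0 (by linarith), ?_⟩
      have : (1 - 1 / ((j : ℝ) + 1)) ^ 2 < 1 := by nlinarith
      calc ((d : ℝ) - 1) * (b j) ^ 2 = (((d : ℝ) - 1) * θ ^ 2) * (1 - 1 / ((j : ℝ) + 1)) ^ 2 := by
            simp only [hb]; ring
        _ < 1 := by rw [h1, one_mul]; exact this
    have hbl : Tendsto b atTop (𝓝 θ) := by
      have := (tendsto_one_div_add_atTop_nhds_zero_nat (𝕜 := ℝ)).const_sub 1 |>.const_mul θ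
      simpa [hb] using this
    let t : ℕ → ℝ := fun j => Nat.rec (max (a 0) (b 0)) (fun i x => max x (max (a (i + 1)) (b (i + 1)))) j
    have ht0 : t 0 = max (a 0) (b 0) := rfl
    have hts : ∀ j, t (j + 1) = max (t j) (max (a (j + 1)) (b (j + 1))) := fun j => rfl
    have htS : ∀ j, Subc d (t j) := by
      intro j
      induction j with
      | zero => exact hmax _ _ (ha 0) (hbs 0)
      | succ j ih => rw [hts]; exact hmax _ _ ih (hmax _ _ (ha _) (hbs _))
    have hab : ∀ j, max (a j) (b j) ≤ t j := by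
      intro j
      cases j with
      | zero => exact le_rfl
      | succ j => rw [hts]; exact le_max_right _ _
    refine main_of_seq h t htS ?_ fun j v => ?_
    · exact tendsto_of_tendsto_of_tendsto_of_le_of_le hbl tendsto_const_nhds
        (fun j => (le_max_right _ _).trans (hab j)) fun j => hlt _ (htS j)
    · have h3 : a j ≤ t j := (le_max_left _ _).trans (hab j)
      exact hua j _ _ (htS j) (htS (j + 1)) h3 (h3.trans (by rw [hts]; exact le_max_left _ _)) v

end Crest.Agent.R160

end
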