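import Crest.Agent.R160.Transfer

/-!
Increments of the mean square difference of two strong models.
-/

set_option autoImplicit false

open MeasureTheory unitInterval Filter Topology
open Crest.ProbabilityR Crest.ProbabilityR.Labels Crest.ProbabilityR.TreeIsing
open scoped Classical

noncomputable section

namespace Crest.Agent.R160

universe u

variable {V : Type u} {G : SimpleGraph V} [G.LocallyFinite] {d : ℕ}

namespace IncrAux

/-- The jump of one strong model. -/
def jp (G : SimpleGraph V) (θ : ℝ) (o : V) (z : Slot V) (ω : Lab V) (u : I) : ℝ :=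
  KK G θ (Ls G θ (tim ω.1 z) ω) o z.1 *
    phi (epsf (tim ω.1 z)) (mag G θ (Ls G θ (tim ω.1 z) ω) z.1) u

/-- The difference of the jumps of two strong models. -/
def DD (G : SimpleGraph V) (θ θ' : ℝ) (o : V) (z : Slot V) (ω : Lab V) : ℝ :=
  jp G θ o z ω (ω.2 z) - jp G θ' o z ω (ω.2 z)

variable {θ θ' : ℝ}

omit [G.LocallyFinite] in
theorem meas_jp (o : V) (z : Slot V) :
    Measurable fun p : Lab V × I => jp G θ o z p.1 p.2 := by
  have ht : Measurable fun p : Lab V × I => tim p.1.1 z :=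
    (measurable_tim z).comp measurable_fst.fst
  have hL : Measurable fun p : Lab V × I => Ls G θ (tim p.1.1 z) p.1 :=
    measurable_Ls_joint.comp (f := fun p : Lab V × I => (tim p.1.1 z, p.1))
      (ht.prodMk measurable_fst)
  exact ((measurable_KK o z.1).comp hL).mul (measurable_phi.comp
    ((measurable_epsf.comp ht).prodMk (((measurable_mag z.1).comp hL).prodMk measurable_snd)))

omit [G.LocallyFinite] in
theorem meas_jp' (o : V) (z : Slot V) : Measurable fun ω : Lab V => jp G θ o z ω (ω.2 z) :=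
  (meas_jp o z).comp (f := fun ω : Lab V => (ω, ω.2 z))
    (measurable_id.prodMk ((measurable_pi_apply z).comp measurable_snd))

omit [G.LocallyFinite] in
theorem meas_DD (o : V) (z : Slot V) : Measurable (DD G θ θ' o z) :=
  (meas_jp' o z).sub (meas_jp' o z)

theorem abs_jp_le (h : RT G d) (hθ : Subc d θ) (o : V) (z : Slot V) (ω : Lab V) (u : I) :
    |jp G θ o z ω u| ≤ 1 := Step2Aux.abs_jump_le h hθ (bd_Ls _ _) o z.1 _ u

theorem abs_DD_le (h : RT G d) (hθ : Subc d θ) (hθ' : Subc d θ') (o : V) (z : Slot V)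
    (ω : Lab V) : |DD G θ θ' o z ω| ≤ 2 :=
  (abs_sub _ _).trans (by linarith [abs_jp_le h hθ o z ω (ω.2 z), abs_jp_le h hθ' o z ω (ω.2 z)])

omit [G.LocallyFinite] in
theorem integral_jp (o : V) (z : Slot V) (ω : Lab V) : ∫ u : I, jp G θ o z ω u = 0 := by
  unfold jp
  rw [integral_const_mul, integral_phi (epsf_nonneg _) (epsf_le _) (abs_mag_le (bd_Ls _ _) _),
    mul_zero]

omit [G.LocallyFinite] in
theorem jp_update (o : V) (z w : Slot V) (ω : Lab V) (r u : I) (hzw : tim ω.1 z ≤ tim ω.1 w) :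
    jp G θ o z (ω.1, Function.update ω.2 w r) u = jp G θ o z ω u := by
  have := Ls_agree (G := G) (θ := θ) (agree_update_snd ω r hzw)
  unfold jp
  dsimp only
  rw [this]

theorem horth (h : RT G d) (hθ : Subc d θ) (hθ' : Subc d θ') (o : V) (z w : Slot V)
    (E : Set (Lb V)) (hE : MeasurableSet E) (hzw : ∀ T ∈ E, tim T z < tim T w) :
    ∫ ω, (if ω.1 ∈ E then DD G θ θ' o z ω * DD G θ θ' o w ω else 0) ∂(Pl V) = 0 := by
  have hm : Measurable fun ω : Lab V =>
      if ω.1 ∈ E then DD G θ θ' o z ω * DD G θ θ' o w ω else 0 :=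
    Measurable.ite (measurable_fst hE) ((meas_DD o z).mul (meas_DD o w)) measurable_const
  have hb : ∀ ω : Lab V, |if ω.1 ∈ E then DD G θ θ' o z ω * DD G θ θ' o w ω else 0| ≤ 4 := by
    intro ω
    split_ifs
    · rw [abs_mul]
      have h1 := abs_DD_le h hθ hθ' o z ω
      have h2 := abs_DD_le h hθ hθ' o w ω
      nlinarith [abs_nonneg (DD G θ θ' o z ω), abs_nonneg (DD G θ θ' o w ω)]
    · norm_num
  rw [integral_prod _ (R168.integrable_of_abs_le hm 4 hb)]
  refine integral_eq_zero_of_ae (Eventually.of_forall fun T => ?_)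
  by_cases hT : T ∈ E
  · have hlt := hzw T hT
    have hne : z ≠ w := fun e => by rw [e] at hlt; exact lt_irrefl _ hlt
    dsimp only
    refine (R168.integral_eq_integral_update w
      (f := fun U => if T ∈ E then DD G θ θ' o z (T, U) * DD G θ θ' o w (T, U) else 0)
      (hm.comp (measurable_const.prodMk measurable_id)) 4 (fun U => hb (T, U))).trans ?_
    refine integral_eq_zero_of_ae (Eventually.of_forall fun U => ?_)
    have e : ∀ r : I, DD G θ θ' o z (T, Function.update U w r) *
        DD G θ θ' o w (T, Function.update U w r) =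
        DD G θ θ' o z (T, U) * (jp G θ o w (T, U) r - jp G θ' o w (T, U) r) := by
      intro r
      unfold DD
      dsimp only
      rw [Function.update_of_ne hne, Function.update_self,
        jp_update o z w (T, U) r _ hlt.le, jp_update o z w (T, U) r _ hlt.le,
        jp_update o w w (T, U) r _ le_rfl, jp_update o w w (T, U) r _ le_rfl]
    have i1 : ∀ {t : ℝ}, Subc d t → Integrable (fun r : I => jp G t o w (T, U) r) := by
      intro t ht
      have hm1 : Measurable (fun r : I => jp G t o w (T, U) r) :=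
        (meas_jp (G := G) (θ := t) o w).comp (f := fun r : I => (((T, U) : Lab V), r))
          (measurable_const.prodMk measurable_id)
      exact R168.integrable_of_abs_le hm1 1 fun r => abs_jp_le h ht o w _ r
    simp only [if_pos hT, e]
    rw [integral_const_mul, integral_sub (i1 hθ) (i1 hθ'), integral_jp, integral_jp]
    simp
  · simp [hT]

theorem happ (h : RT G d) (hθ : Subc d θ) (hθ' : Subc d θ') (o : V) (s : ℝ) :
    Tendsto (fun R => ∫ ω, (dd G θ θ' s o ω -
      ∑ z ∈ box G o R, if tim ω.1 z < s then DD G θ θ' o z ω else 0) ^ 2 ∂(Pl V)) atTop (𝓝 0) := by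
  set A : ℝ → ℕ → Lab V → ℝ := fun t R ω => mag G t (Ls G t s ω) o -
    ∑ z ∈ box G o R, if tim ω.1 z < s then jp G t o z ω (ω.2 z) else 0 with hA
  have hI : ∀ t, Subc d t → ∀ R, Integrable (fun ω => A t R ω ^ 2) (Pl V) := by
    intro t ht R
    have hm : Measurable (A t R) :=
      ((measurable_mag o).comp (measurable_Ls s)).sub (Finset.measurable_sum _ fun z _ =>
        Measurable.ite (measurableSet_lt ((measurable_tim z).comp measurable_fst) measurable_const)
          (meas_jp' o z) measurable_const)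
    refine R168.integrable_of_abs_le (hm.pow_const 2) ((1 + (box G o R).card) ^ 2) fun ω => ?_
    rw [abs_pow]
    refine pow_le_pow_left₀ (abs_nonneg _) ((abs_sub _ _).trans (add_le_add
      (abs_mag_le (bd_Ls _ _) _) ((Finset.abs_sum_le_sum_abs _ _).trans ?_))) 2
    refine (Finset.sum_le_card_nsmul _ _ 1 fun z _ => ?_).trans (by simp)
    split_ifs
    · exact abs_jp_le h ht o z ω _
    · simp
  have l := ((jr_s h hθ o s).const_mul 2).add ((jr_s h hθ' o s).const_mul 2)
  simp only [mul_zero, add_zero] at l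
  refine squeeze_zero (fun R => integral_nonneg fun _ => sq_nonneg _) (fun R => ?_) l
  change _ ≤ 2 * ∫ ω, A θ R ω ^ 2 ∂(Pl V) + 2 * ∫ ω, A θ' R ω ^ 2 ∂(Pl V)
  rw [← integral_const_mul, ← integral_const_mul,
    ← integral_add ((hI θ hθ R).const_mul 2) ((hI θ' hθ' R).const_mul 2)]
  refine integral_mono_of_nonneg (Eventually.of_forall fun _ => sq_nonneg _)
    (((hI θ hθ R).const_mul 2).add ((hI θ' hθ' R).const_mul 2)) (Eventually.of_forall fun ω => ?_)
  have e : dd G θ θ' s o ω - ∑ z ∈ box G o R, (if tim ω.1 z < s then DD G θ θ' o z ω else 0) =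
      A θ R ω - A θ' R ω := by
    have : ∀ z, (if tim ω.1 z < s then DD G θ θ' o z ω else 0) =
        (if tim ω.1 z < s then jp G θ o z ω (ω.2 z) else 0) -
          if tim ω.1 z < s then jp G θ' o z ω (ω.2 z) else 0 := by
      intro z
      split_ifs
      · rfl
      · simp
    simp only [this, Finset.sum_sub_distrib, hA, dd]
    ring
  dsimp only
  rw [e]
  nlinarith [sq_nonneg (A θ R ω + A θ' R ω)]

theorem iso (h : RT G d) (hθ : Subc d θ) (hθ' : Subc d θ') (o : V) {s₁ s₂ : ℝ} (hs : s₁ ≤ s₂) :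
    uu G θ θ' s₁ o ≤ uu G θ θ' s₂ o ∧
    ∀ b : ℝ, (∀ R, ∑ z ∈ box G o R, ∫ ω, (if s₁ ≤ tim ω.1 z ∧ tim ω.1 z < s₂ then
        DD G θ θ' o z ω ^ 2 else 0) ∂(Pl V) ≤ b) → uu G θ θ' s₂ o ≤ uu G θ θ' s₁ o + b := by
  have := h.countable
  exact iso_incr (nu V) (box G o) (DD G θ θ' o) (meas_DD o) (abs_DD_le h hθ hθ' o)
    (horth h hθ hθ' o) (fun s => dd G θ θ' s o) (fun s => measurable_dd θ θ' s o)
    (fun s ω => abs_dd_le θ θ' s o ω) hs fun s _ => happ h hθ hθ' o s

end IncrAux

open IncrAux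

theorem uu_mono (h : RT G d) {θ θ' : ℝ} (hθ : Subc d θ) (hθ' : Subc d θ') (o : V) {s₁ s₂ : ℝ}
    (hs : s₁ ≤ s₂) : uu G θ θ' s₁ o ≤ uu G θ θ' s₂ o := (iso h hθ hθ' o hs).1

theorem uu_incr (h : RT G d) {θ θ' : ℝ} (hθ : Subc d θ) (hθ' : Subc d θ') (o : V)
    {s₁ s₂ b : ℝ} (hs : s₁ ≤ s₂) (hb : 0 ≤ b)
    (hB : ∀ s ∈ Set.Ico s₁ s₂, ∀ N : ℕ,
      epsf s ^ 2 * ∑ v ∈ ball G o N, ∫ ω, FF G θ θ' s o v ω ∂(Pl V) ≤ b) :
    uu G θ θ' s₂ o ≤ uu G θ θ' s₁ o + 2 * (s₂ - s₁) * b := by
  refine (iso h hθ hθ' o hs).2 _ fun N => ?_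
  have hp := palm_sum (nu V) (ball G o N) N (fun v s ω => FF G θ θ' s o v ω)
    (fun v => measurable_FF_joint θ θ' o v) (fun v s ω => FF_nonneg θ θ' s o v ω)
    (fun v s ω => FF_le h hθ hθ' s o v ω)
    (fun v s T U z r h1 h2 => by
      have ha := agree_update_fst ((T, U) : Lab V) h1 h2
      have e1 := Ls_agree (G := G) (θ := θ) ha
      have e2 := Ls_agree (G := G) (θ := θ') ha
      unfold FF dd
      simp only [e1, e2]) hs hb fun s hs' => hB s hs' N
  refine le_trans (Finset.sum_le_sum fun z _ => ?_) hp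
  have ht : Measurable (fun ω : Lab V => tim ω.1 z) := (measurable_tim z).comp measurable_fst
  have hset : MeasurableSet {ω : Lab V | s₁ ≤ tim ω.1 z ∧ tim ω.1 z < s₂} :=
    (measurableSet_le measurable_const ht).inter (measurableSet_lt ht measurable_const)
  have hF : Measurable (fun ω : Lab V => FF G θ θ' (tim ω.1 z) o z.1 ω) :=
    (measurable_FF_joint θ θ' o z.1).comp (f := fun ω : Lab V => (tim ω.1 z, ω))
      (ht.prodMk measurable_id)
  refine integral_mono_of_nonneg (Eventually.of_forall fun ω => ?_)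
    (R168.integrable_of_abs_le (Measurable.ite hset
      (((measurable_epsf.comp ht).pow_const 2).mul hF) measurable_const) 136 fun ω => ?_)
    (Eventually.of_forall fun ω => ?_)
  · dsimp only
    split_ifs
    · exact sq_nonneg _
    · exact le_rfl
  · split_ifs
    · have h1 := FF_nonneg (G := G) θ θ' (tim ω.1 z) o z.1 ω
      have h2 := FF_le h hθ hθ' (tim ω.1 z) o z.1 ω
      have h3 : epsf (tim ω.1 z) ^ 2 ≤ 1 := by
        nlinarith [epsf_nonneg (tim ω.1 z), epsf_le (tim ω.1 z)]
      rw [abs_of_nonneg (mul_nonneg (sq_nonneg _) h1)]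
      exact (mul_le_of_le_one_left h1 h3).trans h2
    · norm_num
  · dsimp only
    split_ifs
    · exact jump_sub_sq_le (epsf_nonneg _) (epsf_le _) (abs_mag_le (bd_Ls _ _) _)
        (abs_mag_le (bd_Ls _ _) _) _ _ _
    · exact le_rfl

end Crest.Agent.R160

end
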