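import Crest.Agent.R160.Bayes

/-!
The innovations of the weak model are independent uniform labels.
-/

set_option autoImplicit false

open MeasureTheory unitInterval Filter Topology
open Crest.ProbabilityR Crest.ProbabilityR.Labels Crest.ProbabilityR.TreeIsing
open scoped Classical

noncomputable section

namespace Crest.Agent.R160

universe u

variable {V : Type u} {G : SimpleGraph V} [G.LocallyFinite] {d : ℕ}

variable {θ : ℝ}

namespace InnovAux

theorem abs_integral_le {Ω : Type*} [MeasurableSpace Ω] {μ : Measure Ω} [IsProbabilityMeasure μ]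
    {f : Ω → ℝ} {C : ℝ} (hC : ∀ x, |f x| ≤ C) : |∫ x, f x ∂μ| ≤ C := by
  have := norm_integral_le_of_norm_le_const (μ := μ) (f := f) (C := C)
    (Eventually.of_forall fun x => by simpa using hC x)
  simpa using this

omit [G.LocallyFinite] in
/-- Resampling the noise of one slot. -/
theorem integral_resample (w : Slot V) {F : Om V → ℝ} (hF : Measurable F) {C : ℝ}
    (hC : ∀ ω, |F ω| ≤ C) :
    ∫ ω, F ω ∂(Pw G θ) =
      ∫ ω, ∫ r : I, F (ω.1, (ω.2.1, Function.update ω.2.2 w r)) ∂volume ∂(Pw G θ) := by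
  have h1 := (MeasurePreserving.id (nu V)).prod ((MeasurePreserving.id (ising G θ)).prod
    (R168.measurePreserving_update w))
  have h2 := (MeasurePreserving.id (nu V)).prod
    (measurePreserving_prodAssoc (ising G θ) (nu V) (volume : Measure I))
  have h3 := measurePreserving_prodAssoc (nu V) ((ising G θ).prod (nu V)) (volume : Measure I)
  have h : MeasurePreserving
      (fun p : Om V × I => ((p.1.1, (p.1.2.1, Function.update p.1.2.2 w p.2)) : Om V))
      ((Pw G θ).prod volume) (Pw G θ) := h1.comp (h2.comp h3)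
  conv_lhs => rw [← h.map_eq]
  rw [integral_map h.measurable.aemeasurable hF.aestronglyMeasurable]
  exact integral_prod
    (fun p : Om V × I => F (p.1.1, (p.1.2.1, Function.update p.1.2.2 w p.2)))
    (R168.integrable_of_abs_le (hF.comp h.measurable) C fun _ => hC _)

theorem Lt_congr {T y y' : Lb V} {s : ℝ} (hy : ∀ z, tim T z < s → y z = y' z) :
    Lt T (Ly T y) s = Lt T (Ly T y') s := by
  funext z
  by_cases hz : z ∈ tm s T
  · simp only [Lt, Set.indicator_of_mem hz, Ly, hy z hz]
  · simp only [Lt, Set.indicator_of_notMem hz]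

omit [G.LocallyFinite] in
theorem Uy_congr {T y y' : Lb V} {s : ℝ} (hy : ∀ z, tim T z < s → y z = y' z) {z : Slot V}
    (hz : tim T z < s) : Uy G θ T y z = Uy G θ T y' z := by
  simp only [Uy]
  rw [hy z hz, Lt_congr (y := y) (y' := y') (fun x hx => hy x (hx.trans hz))]

/-- The posterior mean at the vertex of `w` just before `w` rings. -/
def mm (G : SimpleGraph V) (θ : ℝ) (w : Slot V) (p : Lb V × Lb V) : ℝ :=
  mag G θ (Lt p.1 (Ly p.1 p.2) (tim p.1 w)) w.1

theorem mm_anchor : type_of% @mm.eq_1.{0} := @mm.eq_1.{0}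

omit [G.LocallyFinite] in
theorem measurable_mm (w : Slot V) : Measurable (mm G θ w) := by
  have h1 : Measurable (fun p : Lb V × Lb V => Lt p.1 (Ly p.1 p.2) (tim p.1 w)) :=
    measurable_Lt.comp (((measurable_tim w).comp measurable_fst).prodMk
      (measurable_fst.prodMk measurable_Ly))
  exact (measurable_mag w.1).comp h1

omit [G.LocallyFinite] in
theorem abs_mm_le (w : Slot V) (p : Lb V × Lb V) : |mm G θ w p| ≤ 1 :=
  abs_mag_le ((bd_Ly p.1 p.2).lt _ _) _

omit [G.LocallyFinite] in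
theorem mm_congr (w : Slot V) {T y y' : Lb V} (hy : ∀ z ∈ tm (tim T w) T, y z = y' z) :
    mm G θ w (T, y) = mm G θ w (T, y') := by
  simp only [mm]
  rw [Lt_congr (y := y) (y' := y') hy]

theorem abs_lk_le_one (s : ℝ) (y : I) : |lk (epsf s) y| ≤ 1 :=
  (abs_lk_le (epsf_nonneg s) y).trans ((epsf_le s).trans (by norm_num))

end InnovAux

open InnovAux

/-- The innovation of a slot is uniform and independent of the past signals. -/
theorem innov (h : RT G d) (hθ : Subc d θ) (w : Slot V) {H : (Lb V × Lb V) × I → ℝ}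
    (hH : Measurable H) {C : ℝ} (hC : ∀ p, |H p| ≤ C)
    (hl : ∀ u, DataLoc (fun T => tm (tim T w) T) (fun p => H (p, u))) :
    ∫ ω, H ((ω.1, Yw ω), Uw G θ ω w) ∂(Pw G θ) =
      ∫ ω, ∫ u : I, H ((ω.1, Yw ω), u) ∂volume ∂(Pw G θ) := by
  have hC0 : 0 ≤ C := (abs_nonneg _).trans (hC ((0, 0), 0))
  -- the integrand in terms of the signal of `w`
  let K : (Lb V × Lb V) × I → ℝ := fun q =>
    H (q.1, cdq (epsf (tim q.1.1 w) * mm G θ w q.1) q.2)
  have he : Measurable (fun p : Lb V × Lb V => epsf (tim p.1 w)) :=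
    measurable_epsf.comp ((measurable_tim w).comp measurable_fst)
  have hK : Measurable K := by
    refine hH.comp (measurable_fst.prodMk ?_)
    exact measurable_cdq.comp
      (((he.mul (measurable_mm w)).comp measurable_fst).prodMk measurable_snd)
  have hKC : ∀ q, |K q| ≤ C := fun q => hC _
  have hKl : ∀ (T y y' : Lb V) (u : I), (∀ z ∈ tm (tim T w) T, y z = y' z) →
      K ((T, y), u) = K ((T, y'), u) := by
    intro T y y' u hy
    simp only [K]
    rw [mm_congr w hy]
    exact hl _ T y y' hy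
  let K1 : (Lb V × Lb V) × I → ℝ := fun q => K q * lk (epsf (tim q.1.1 w)) q.2
  have hK1 : Measurable K1 :=
    hK.mul (measurable_lk.comp ((he.comp measurable_fst).prodMk measurable_snd))
  have hK1C : ∀ q, |K1 q| ≤ C := by
    intro q
    simp only [K1, abs_mul]
    calc _ ≤ C * 1 := mul_le_mul (hKC q) (abs_lk_le_one _ _) (abs_nonneg _) hC0
      _ = C := mul_one C
  let G0 : Lb V × Lb V → ℝ := fun p => ∫ y : I, K (p, y)
  let G1 : Lb V × Lb V → ℝ := fun p => ∫ y : I, K1 (p, y)
  have hG0 : Measurable G0 := hK.stronglyMeasurable.integral_prod_right'.measurable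
  have hG1 : Measurable G1 := hK1.stronglyMeasurable.integral_prod_right'.measurable
  have hG0C : ∀ p, |G0 p| ≤ C := fun p => abs_integral_le fun y => hKC _
  have hG1C : ∀ p, |G1 p| ≤ C := fun p => abs_integral_le fun y => hK1C _
  have hG1l : DataLoc (fun T => tm (tim T w) T) G1 := by
    intro T y y' hy
    simp only [G1, K1]
    congr 1
    funext u
    rw [hKl T y y' u hy]
  have hsum : ∀ (p : Lb V × Lb V) (a : ℝ),
      ∫ y : I, K (p, y) * (1 + epsf (tim p.1 w) * a * (2 * (y : ℝ) - 1)) = G0 p + a * G1 p := by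
    intro p a
    simp only [G0, G1]
    rw [← integral_const_mul, ← integral_add]
    · congr 1
      funext y
      simp only [K1, lk]
      ring
    · exact R168.integrable_of_abs_le (hK.comp measurable_prodMk_left) C fun _ => hKC _
    · exact (R168.integrable_of_abs_le (hK1.comp measurable_prodMk_left) C
        fun _ => hK1C _).const_mul a
  have hP : Measurable (fun ω : Om V => ((ω.1, Yw ω) : Lb V × Lb V)) :=
    measurable_fst.prodMk measurable_Yw
  have hhalf : ∀ s : ℝ, |epsf s| ≤ 1 / 2 := fun s => by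
    rw [abs_of_nonneg (epsf_nonneg s)]; exact epsf_le s
  -- resample the noise of `w`
  have step1 : ∫ ω, H ((ω.1, Yw ω), Uw G θ ω w) ∂(Pw G θ) =
      ∫ ω, (G0 (ω.1, Yw ω) + spin (ω.2.1 w.1) * G1 (ω.1, Yw ω)) ∂(Pw G θ) := by
    have hF : Measurable (fun ω : Om V => K ((ω.1, Yw ω), Yw ω w)) :=
      hK.comp (hP.prodMk ((measurable_pi_apply w).comp measurable_Yw))
    have e0 : ∫ ω, H ((ω.1, Yw ω), Uw G θ ω w) ∂(Pw G θ) =
        ∫ ω, K ((ω.1, Yw ω), Yw ω w) ∂(Pw G θ) := rfl
    rw [e0, integral_resample w hF (fun _ => hKC _)]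
    congr 1
    funext ω
    have e1 : ∀ r : I, K ((ω.1, Yw (ω.1, (ω.2.1, Function.update ω.2.2 w r))),
        Yw (ω.1, (ω.2.1, Function.update ω.2.2 w r)) w) =
        K ((ω.1, Yw ω), if ω.2.1 w.1 = true then qt (epsf (tim ω.1 w)) r
          else symm (qt (epsf (tim ω.1 w)) r)) := by
      intro r
      rw [hKl ω.1 _ (Yw ω)]
      · simp only [Yw, Function.update_self]
      · intro z hz
        have hzw : z ≠ w := by
          rintro rfl
          exact lt_irrefl (tim ω.1 z) hz
        simp only [Yw, Function.update_of_ne hzw]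
    simp only [e1]
    rw [← hsum (ω.1, Yw ω) (spin (ω.2.1 w.1))]
    by_cases hb : ω.2.1 w.1 = true
    · simp only [hb, if_true, spin, mul_one]
      exact integral_qt (hhalf _) (fun y => K ((ω.1, Yw ω), y))
    · simp only [hb, spin]
      rw [if_neg (by simp)]
      simp only [Bool.false_eq_true, if_false]
      rw [integral_symm_qt (hhalf _) (fun y => K ((ω.1, Yw ω), y))]
      congr 1
      funext y
      ring
  have hi0 : Integrable (fun ω : Om V => G0 (ω.1, Yw ω)) (Pw G θ) :=
    R168.integrable_of_abs_le (hG0.comp hP) C fun _ => hG0C _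
  have hi1 : Integrable (fun ω : Om V => spin (ω.2.1 w.1) * G1 (ω.1, Yw ω)) (Pw G θ) :=
    BayesAux.integrable_mul (BayesAux.measurable_spinv w.1) (hG1.comp hP) (A := 1)
      (fun _ => (abs_spin _).le) (fun _ => hG1C _)
  have hi2 : Integrable (fun ω : Om V => mm G θ w (ω.1, Yw ω) * G1 (ω.1, Yw ω)) (Pw G θ) :=
    BayesAux.integrable_mul ((measurable_mm w).comp hP) (hG1.comp hP) (A := 1)
      (fun _ => abs_mm_le _ _) (fun _ => hG1C _)
  have step2 : ∫ ω, spin (ω.2.1 w.1) * G1 (ω.1, Yw ω) ∂(Pw G θ) =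
      ∫ ω, mm G θ w (ω.1, Yw ω) * G1 (ω.1, Yw ω) ∂(Pw G θ) :=
    bayes h hθ (mask_tm_tim w) w.1 hG1 hG1C hG1l
  rw [step1, integral_add hi0 hi1, step2, ← integral_add hi0 hi2]
  congr 1
  funext ω
  rw [← hsum (ω.1, Yw ω) (mm G θ w (ω.1, Yw ω))]
  have hc : |epsf (tim ω.1 w) * mm G θ w (ω.1, Yw ω)| ≤ 1 / 2 := by
    rw [abs_mul]
    calc _ ≤ 1 / 2 * 1 := mul_le_mul (hhalf _) (abs_mm_le _ _) (abs_nonneg _) (by norm_num)
      _ = 1 / 2 := by norm_num
  exact integral_cdq hc (fun u => H ((ω.1, Yw ω), u))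

namespace InnovAux

/-- The indicator that `w` rings after all other slots of `S`. -/
def last (S : Finset (Slot V)) (w : Slot V) (T : Lb V) : ℝ :=
  if ∀ z ∈ S.erase w, tim T z < tim T w then 1 else 0

theorem last_anchor : type_of% @last.eq_1.{0} := @last.eq_1.{0}

theorem measurable_last (S : Finset (Slot V)) (w : Slot V) : Measurable (last S w) := by
  refine Measurable.ite ?_ measurable_const measurable_const
  have : {T : Lb V | ∀ z ∈ S.erase w, tim T z < tim T w} =
      ⋂ z ∈ S.erase w, {T : Lb V | tim T z < tim T w} := by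
    ext T; simp only [Set.mem_ofPred_eq, Set.mem_iInter]
  rw [this]
  exact Finset.measurableSet_biInter _ fun z _ =>
    measurableSet_lt (measurable_tim z) (measurable_tim w)

theorem abs_last_le (S : Finset (Slot V)) (w : Slot V) (T : Lb V) : |last S w T| ≤ 1 := by
  unfold last; split_ifs <;> simp

theorem sum_last {S : Finset (Slot V)} (hS : S.Nonempty) {T : Lb V}
    (hT : Function.Injective (tim T)) : ∑ w ∈ S, last S w T = 1 := by
  obtain ⟨w, hw, hmax⟩ := S.exists_max_image (tim T) hS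
  rw [Finset.sum_eq_single_of_mem w hw]
  · unfold last
    rw [if_pos]
    intro z hz
    obtain ⟨hzw, hz⟩ := Finset.mem_erase.1 hz
    exact lt_of_le_of_ne (hmax z hz) (fun e => hzw (hT e))
  · intro v hv hvw
    unfold last
    rw [if_neg]
    intro hlt
    exact absurd (hlt w (Finset.mem_erase.2 ⟨hvw.symm, hw⟩)) (not_lt.2 (hmax v hv))

theorem abs_prod_le_one {ι : Type*} (S : Finset ι) (a : ι → ℝ) (ha : ∀ i, |a i| ≤ 1) :
    |∏ i ∈ S, a i| ≤ 1 := by
  rw [Finset.abs_prod]
  exact Finset.prod_le_one (fun _ _ => abs_nonneg _) (fun i _ => ha i)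

theorem abs_mul_le_one {a b : ℝ} (ha : |a| ≤ 1) (hb : |b| ≤ 1) : |a * b| ≤ 1 := by
  rw [abs_mul]; exact mul_le_one₀ ha (abs_nonneg _) hb

/-- The innovations are independent uniform variables, independent of the times. -/
theorem integral_prod_innov (h : RT G d) (hθ : Subc d θ) (f : Slot V → I → ℝ)
    (hf : ∀ z, Measurable (f z)) (hf1 : ∀ z u, |f z u| ≤ 1) (n : ℕ) :
    ∀ (S : Finset (Slot V)), S.card = n → ∀ φ : Lb V → ℝ, Measurable φ → (∀ T, |φ T| ≤ 1) →
      ∫ ω, φ ω.1 * ∏ z ∈ S, f z (Uw G θ ω z) ∂(Pw G θ) =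
        (∫ ω, φ ω.1 ∂(Pw G θ)) * ∏ z ∈ S, ∫ u, f z u := by
  have := h.countable
  have hinj : ∀ᵐ ω ∂(Pw G θ), Function.Injective (tim ω.1) :=
    Measure.quasiMeasurePreserving_fst.ae (ae_tim_injective (V := V))
  have hmU : ∀ S : Finset (Slot V), Measurable (fun ω : Om V => ∏ z ∈ S, f z (Uw G θ ω z)) :=
    fun S => Finset.measurable_prod _ fun z _ =>
      (hf z).comp ((measurable_pi_apply z).comp measurable_Uw)
  -- splitting according to the slot that rings last
  have hsplit : ∀ (S : Finset (Slot V)), S.Nonempty → ∀ X : Om V → ℝ, Measurable X →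
      (∀ ω, |X ω| ≤ 1) →
      ∫ ω, X ω ∂(Pw G θ) = ∑ w ∈ S, ∫ ω, last S w ω.1 * X ω ∂(Pw G θ) := by
    intro S hS X hX hX1
    rw [← integral_finsetSum]
    · refine integral_congr_ae ?_
      filter_upwards [hinj] with ω hω
      rw [← Finset.sum_mul, sum_last hS hω, one_mul]
    · intro w _
      exact R168.integrable_of_abs_le (((measurable_last S w).comp measurable_fst).mul hX) 1
        fun ω => abs_mul_le_one (abs_last_le _ _ _) (hX1 ω)
  induction n with
  | zero =>
    intro S hS φ _ _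
    rw [Finset.card_eq_zero.1 hS]
    simp
  | succ n ih =>
    intro S hS φ hφ hφ1
    have hne : S.Nonempty := Finset.card_pos.1 (by omega)
    rw [hsplit S hne (fun ω => φ ω.1 * ∏ z ∈ S, f z (Uw G θ ω z))
        ((hφ.comp measurable_fst).mul (hmU S))
        (fun ω => abs_mul_le_one (hφ1 _) (abs_prod_le_one _ _ fun z => hf1 z _)),
      hsplit S hne (fun ω => φ ω.1) (hφ.comp measurable_fst) (fun ω => hφ1 _), Finset.sum_mul]
    refine Finset.sum_congr rfl fun w hw => ?_
    let ψ : Lb V × Lb V → ℝ := fun p =>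
      last S w p.1 * φ p.1 * ∏ z ∈ S.erase w, f z (Uy G θ p.1 p.2 z)
    have hψ : Measurable ψ :=
      (((measurable_last S w).comp measurable_fst).mul (hφ.comp measurable_fst)).mul
        (Finset.measurable_prod _ fun z _ =>
          (hf z).comp ((measurable_pi_apply z).comp measurable_Uy))
    have hψ1 : ∀ p, |ψ p| ≤ 1 := fun p =>
      abs_mul_le_one (abs_mul_le_one (abs_last_le _ _ _) (hφ1 _))
        (abs_prod_le_one _ _ fun z => hf1 z _)
    have hψl : DataLoc (fun T => tm (tim T w) T) ψ := by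
      intro T y y' hy
      simp only [ψ]
      by_cases hlast : ∀ z ∈ S.erase w, tim T z < tim T w
      · congr 1
        exact Finset.prod_congr rfl fun z hz => by rw [Uy_congr hy (hlast z hz)]
      · simp only [last, if_neg hlast, zero_mul]
    have h1 := innov h hθ w (H := fun q => ψ q.1 * f w q.2)
      ((hψ.comp measurable_fst).mul ((hf w).comp measurable_snd)) (C := 1)
      (fun q => abs_mul_le_one (hψ1 _) (hf1 _ _))
      (fun u T y y' hy => by simp only [hψl T y y' hy])
    have h2 := ih (S.erase w) (by rw [Finset.card_erase_of_mem hw]; omega)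
      (fun T => last S w T * φ T) ((measurable_last S w).mul hφ)
      (fun T => abs_mul_le_one (abs_last_le _ _ _) (hφ1 _))
    calc ∫ ω, last S w ω.1 * (φ ω.1 * ∏ z ∈ S, f z (Uw G θ ω z)) ∂(Pw G θ)
        = ∫ ω, ψ (ω.1, Yw ω) * f w (Uw G θ ω w) ∂(Pw G θ) := by
          congr 1
          funext ω
          rw [← Finset.prod_erase_mul _ _ hw]
          simp only [ψ, Uw]
          ring
      _ = ∫ ω, ψ (ω.1, Yw ω) * (∫ u, f w u) ∂(Pw G θ) := by
          rw [h1]
          congr 1
          funext ω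
          exact integral_const_mul (ψ (ω.1, Yw ω)) (f w)
      _ = (∫ ω, ψ (ω.1, Yw ω) ∂(Pw G θ)) * ∫ u, f w u := integral_mul_const _ _
      _ = _ := by
          have h3 : ∫ ω, ψ (ω.1, Yw ω) ∂(Pw G θ) =
              ∫ ω, (last S w ω.1 * φ ω.1) * ∏ z ∈ S.erase w, f z (Uw G θ ω z) ∂(Pw G θ) := rfl
          rw [h3, h2, ← Finset.prod_erase_mul _ _ hw, mul_assoc]

theorem measure_cyl (h : RT G d) (hθ : Subc d θ) {A : Set (Lb V)} (hA : MeasurableSet A)
    (S : Finset (Slot V)) (t : Slot V → Set I) (ht : ∀ z, MeasurableSet (t z)) :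
    Pw G θ {ω | ω.1 ∈ A ∧ ∀ z ∈ S, Uw G θ ω z ∈ t z} = nu V A * ∏ z ∈ S, volume (t z) := by
  have hind : ∀ {X : Type u} (B : Set X) (x : X), |B.indicator (1 : X → ℝ) x| ≤ 1 := by
    intro X B x
    by_cases hx : x ∈ B <;> simp [hx]
  have hind' : ∀ (B : Set I) (x : I), |B.indicator (1 : I → ℝ) x| ≤ 1 := by
    intro B x
    by_cases hx : x ∈ B <;> simp [hx]
  have h1 := integral_prod_innov h hθ (fun z => (t z).indicator 1)
    (fun z => measurable_one.indicator (ht z)) (fun z u => hind' _ _) S.card S rfl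
    (A.indicator 1) (measurable_one.indicator hA) (hind A)
  have hB : MeasurableSet {ω : Om V | ω.1 ∈ A ∧ ∀ z ∈ S, Uw G θ ω z ∈ t z} := by
    have : {ω : Om V | ω.1 ∈ A ∧ ∀ z ∈ S, Uw G θ ω z ∈ t z} =
        (Prod.fst ⁻¹' A) ∩ ⋂ z ∈ S, (fun ω => Uw G θ ω z) ⁻¹' t z := by
      ext ω; simp
    rw [this]
    exact (measurable_fst hA).inter (Finset.measurableSet_biInter _ fun z _ =>
      ((measurable_pi_apply z).comp measurable_Uw) (ht z))
  have e1 : (fun ω : Om V => A.indicator (1 : Lb V → ℝ) ω.1 *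
      ∏ z ∈ S, (t z).indicator (1 : I → ℝ) (Uw G θ ω z)) =
      {ω : Om V | ω.1 ∈ A ∧ ∀ z ∈ S, Uw G θ ω z ∈ t z}.indicator 1 := by
    funext ω
    by_cases hω : ω.1 ∈ A
    · by_cases hU : ∀ z ∈ S, Uw G θ ω z ∈ t z
      · rw [Set.indicator_of_mem hω, Set.indicator_of_mem (by exact ⟨hω, hU⟩),
          Finset.prod_eq_one (fun z hz => by rw [Set.indicator_of_mem (hU z hz)]; rfl)]
        simp
      · rw [Set.indicator_of_notMem (s := {ω : Om V | ω.1 ∈ A ∧ ∀ z ∈ S, Uw G θ ω z ∈ t z})
          (fun hh => hU hh.2)]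
        push Not at hU
        obtain ⟨z, hz, hzt⟩ := hU
        rw [Finset.prod_eq_zero hz (Set.indicator_of_notMem hzt _), mul_zero]
    · rw [Set.indicator_of_notMem hω, zero_mul,
        Set.indicator_of_notMem (s := {ω : Om V | ω.1 ∈ A ∧ ∀ z ∈ S, Uw G θ ω z ∈ t z})
          (fun hh => hω hh.1)]
  have e2 : ∫ ω, A.indicator (1 : Lb V → ℝ) ω.1 ∂(Pw G θ) = (nu V).real A := by
    have : (fun ω : Om V => A.indicator (1 : Lb V → ℝ) ω.1) = (Prod.fst ⁻¹' A).indicator 1 := by
      funext ω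
      by_cases hω : ω.1 ∈ A <;> simp [Set.indicator, hω]
    rw [this, integral_indicator_one (measurable_fst hA)]
    exact (measurePreserving_fst (μ := nu V) (ν := (ising G θ).prod (nu V))).measureReal_preimage
      hA.nullMeasurableSet
  rw [e1, integral_indicator_one hB, e2] at h1
  simp only [integral_indicator_one (ht _)] at h1
  rw [← ENNReal.toReal_eq_toReal_iff' (measure_ne_top _ _)
    (ENNReal.mul_ne_top (measure_ne_top _ _) (ENNReal.prod_ne_top fun _ _ => measure_ne_top _ _)),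
    ENNReal.toReal_mul, ENNReal.toReal_prod]
  exact h1

end InnovAux

theorem law_TU (h : RT G d) (hθ : Subc d θ) :
    MeasurePreserving (fun ω : Om V => ((ω.1, Uw G θ ω) : Lab V)) (Pw G θ) (Pl V) := by
  have hm : Measurable (fun ω : Om V => (Sum.elim ω.1 (Uw G θ ω) : Slot V ⊕ Slot V → I)) :=
    R168.measurePreserving_sumElim.measurable.comp (measurable_fst.prodMk measurable_Uw)
  have h1 : MeasurePreserving
      (fun ω : Om V => (Sum.elim ω.1 (Uw G θ ω) : Slot V ⊕ Slot V → I)) (Pw G θ)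
      (labelMeasure (Slot V ⊕ Slot V)) := by
    refine ⟨hm, ?_⟩
    unfold labelMeasure
    refine Measure.eq_infinitePi _ fun s t ht => ?_
    rw [Measure.map_apply hm (MeasurableSet.pi s.countable_toSet fun _ _ => ht _)]
    have : (fun ω : Om V => (Sum.elim ω.1 (Uw G θ ω) : Slot V ⊕ Slot V → I)) ⁻¹'
        (Set.pi (s : Set (Slot V ⊕ Slot V)) t) =
        {ω | ω.1 ∈ Set.pi (s.toLeft : Set (Slot V)) (fun a => t (Sum.inl a)) ∧
          ∀ z ∈ s.toRight, Uw G θ ω z ∈ t (Sum.inr z)} := by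
      ext p
      simp [Set.mem_pi, Sum.forall]
    rw [this, measure_cyl h hθ (MeasurableSet.pi s.toLeft.countable_toSet fun _ _ => ht _)
      s.toRight (fun z => t (Sum.inr z)) (fun _ => ht _),
      Finset.prod_sum_eq_prod_toLeft_mul_prod_toRight]
    congr 1
    exact Measure.infinitePi_pi _ (fun _ _ => ht _)
  exact R168.measurePreserving_sumSplit.comp h1

end Crest.Agent.R160

end
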