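import Crest.Agent.R160.TreeSum
import Crest.Agent.R160.Field

/-!
The free Ising state on the tree: existence, symmetries, Markov property across an edge.
-/

set_option autoImplicit false

open MeasureTheory unitInterval Filter Topology
open Crest.ProbabilityR Crest.ProbabilityR.Labels Crest.ProbabilityR.TreeIsing
open scoped Classical

noncomputable section

namespace Crest.Agent.R160

universe u

variable {V : Type u} {G : SimpleGraph V} [G.LocallyFinite] {d : ℕ}

namespace IsingAux

/-! ### Parents and rooted sets -/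

/-- The neighbour of `v` towards the root `o`. -/
def par (G : SimpleGraph V) (o v : V) : V := geo G o v (G.dist o v - 1)

theorem dist_pos (h : RT G d) {o v : V} (hne : v ≠ o) : 0 < G.dist o v :=
  h.tree.connected.pos_dist_of_ne hne.symm

theorem par_adj (h : RT G d) {o v : V} (hne : v ≠ o) : G.Adj v (par G o v) := by
  have hp := dist_pos h hne
  have := geo_adj h o v (i := G.dist o v - 1) (by omega)
  rwa [Nat.sub_add_cancel hp, geo_dist h] at this

theorem dist_par (h : RT G d) {o v : V} (hne : v ≠ o) :
    G.dist o (par G o v) + 1 = G.dist o v := by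
  have hp := dist_pos h hne
  have := (geo_spec h o v (i := G.dist o v - 1) (by omega)).1
  unfold par
  omega

theorem geo_par (h : RT G d) (o v : V) {j : ℕ} (hj : j ≤ G.dist o v - 1) :
    geo G o (par G o v) j = geo G o v j :=
  geo_geo_left h o v hj (by omega)

theorem root_mem_half (h : RT G d) {o v : V} (hne : v ≠ o) : o ∈ half G (par G o v) v := by
  have := dist_par h hne
  show G.dist v o = G.dist (par G o v) o + 1
  rw [G.dist_comm (u := v), G.dist_comm (u := par G o v)]
  omega

theorem eq_par (h : RT G d) {o v w : V} (hadj : G.Adj v w) (ho : o ∈ half G w v) :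
    v ≠ o ∧ w = par G o v := by
  have h1 : G.dist v o = G.dist w o + 1 := ho
  rw [G.dist_comm (u := v), G.dist_comm (u := w)] at h1
  refine ⟨?_, ?_⟩
  · rintro rfl
    simp at h1
  · symm
    apply geo_eq_of h
    · omega
    · rw [SimpleGraph.dist_eq_one_iff_adj.2 hadj.symm]
      omega

theorem adj_cases (h : RT G d) (o : V) {v w : V} (hadj : G.Adj v w) :
    (v ≠ o ∧ w = par G o v) ∨ (w ≠ o ∧ v = par G o w) := by
  by_cases ho : o ∈ half G w v
  · exact Or.inl (eq_par h hadj ho)
  · exact Or.inr (eq_par h hadj.symm ((mem_half_iff_not h hadj o).2 ho))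

/-- `S` hangs below its vertex `s`, for the root `o`. -/
structure Rooted (G : SimpleGraph V) (o s : V) (S : Finset V) : Prop where
  mem : s ∈ S
  min : ∀ v ∈ S, G.dist o s ≤ G.dist o v
  up : ∀ v ∈ S, v ≠ s → par G o v ∈ S

theorem Rooted.ne_root (h : RT G d) {o s : V} {S : Finset V} (hS : Rooted G o s S) {v : V}
    (hv : v ∈ S) (hne : v ≠ s) : v ≠ o := by
  rintro rfl
  have h1 := hS.min v hv
  rw [SimpleGraph.dist_self] at h1
  have := dist_pos h (o := v) (v := s) hne.symm
  omega

theorem Rooted.lt (h : RT G d) {o s : V} {S : Finset V} (hS : Rooted G o s S) {v : V}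
    (hv : v ∈ S) (hne : v ≠ s) : G.dist o s < G.dist o v := by
  have h1 := hS.min _ (hS.up v hv hne)
  have h2 := dist_par h (hS.ne_root h hv hne)
  omega

theorem Rooted.induction (h : RT G d) {o s : V} {P : Finset V → Prop} (base : P {s})
    (step : ∀ (S : Finset V) (v : V), Rooted G o s S → v ∉ S → v ≠ o → par G o v ∈ S →
      (∀ w ∈ S, G.dist o w ≤ G.dist o v) → P S → P (insert v S)) :
    ∀ S : Finset V, Rooted G o s S → P S := by
  intro S
  induction S using Finset.induction_on_max_value (fun v => G.dist o v) with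
  | empty => intro hS; exact absurd hS.mem (by simp)
  | insert a S ha hmax ih =>
    intro hS
    by_cases has : a = s
    · subst has
      have : S = ∅ := by
        by_contra hne
        obtain ⟨w, hw⟩ := Finset.nonempty_iff_ne_empty.2 hne
        have h1 := hS.lt h (Finset.mem_insert_of_mem hw) (fun e => ha (e ▸ hw))
        have h2 := hmax w hw
        omega
      subst this
      exact base
    · have hao := hS.ne_root h (Finset.mem_insert_self a S) has
      have hS' : Rooted G o s S := by
        refine ⟨?_, fun v hv => hS.min v (Finset.mem_insert_of_mem hv), fun v hv hvs => ?_⟩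
        · rcases Finset.mem_insert.1 hS.mem with e | e
          · exact absurd e.symm has
          · exact e
        · rcases Finset.mem_insert.1 (hS.up v (Finset.mem_insert_of_mem hv) hvs) with e | e
          · have h1 := dist_par h (hS.ne_root h (Finset.mem_insert_of_mem hv) hvs)
            have h2 := hmax v hv
            rw [e] at h1
            omega
          · exact e
      refine step S a hS' ha hao ?_ hmax (ih hS')
      rcases Finset.mem_insert.1 (hS.up a (Finset.mem_insert_self a S) has) with e | e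
      · exact absurd e (par_adj h hao).ne'
      · exact e

theorem rooted_of_connected (h : RT G d) (o : V) {S : Finset V}
    (hS : (G.induce (S : Set V)).Connected) : ∃ s, Rooted G o s S := by
  obtain ⟨⟨a, ha⟩⟩ := hS.nonempty
  obtain ⟨s, hs, hmin⟩ := Finset.exists_min_image S (fun v => G.dist o v) ⟨a, ha⟩
  refine ⟨s, hs, hmin, fun v hv hvs => ?_⟩
  have hvo : v ≠ o := by
    rintro rfl
    have h1 := hmin v hv
    simp only [SimpleGraph.dist_self] at h1
    have := dist_pos h (o := v) (v := s) hvs.symm
    omega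
  by_contra hpar
  have hadj := par_adj h hvo
  have key : ∀ (x y : (S : Set V)) (_ : (G.induce (S : Set V)).Walk x y),
      (x : V) ∈ half G v (par G o v) → (y : V) ∈ half G v (par G o v) := by
    intro x y w
    induction w with
    | nil => exact id
    | @cons a b c hab _ ih =>
      intro hx
      apply ih
      by_contra hb
      have hb' : (b : V) ∈ half G (par G o v) v := (mem_half_iff_not h hadj.symm _).2 hb
      have := (eq_of_adj_half h hadj hx hb' hab).2
      exact hpar (this ▸ b.2)
  obtain ⟨w⟩ := hS.preconnected ⟨v, hv⟩ ⟨s, hs⟩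
  have hs' : s ∈ half G v (par G o v) := key _ _ w (self_mem_half h hadj)
  have h1 := dist_of_half h hadj hs' (root_mem_half h hvo)
  have h2 := dist_par h hvo
  have h3 := hmin v hv
  have h4 := dist_pos h (o := s) (v := v) hvs
  rw [G.dist_comm (u := s) (v := o), G.dist_comm (u := par G o v)] at h1
  omega

theorem rooted_ball (h : RT G d) (o : V) (R : ℕ) : Rooted G o o (ball G o R) := by
  refine ⟨(mem_ball h).2 (by simp), fun v _ => by simp, fun v hv hvo => ?_⟩
  have := dist_par h hvo
  rw [mem_ball h] at hv ⊢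
  omega

/-! ### The weights -/

/-- The weight of an edge. -/
def ew (θ : ℝ) (a b : Bool) : ℝ := (1 + θ * spin a * spin b) / 2

theorem ew_nonneg {θ : ℝ} (h0 : 0 ≤ θ) (h1 : θ ≤ 1) (a b : Bool) : 0 ≤ ew θ a b := by
  cases a <;> cases b <;> simp [ew, spin] <;> linarith

/-- The weight of a rooted set. -/
def wf (G : SimpleGraph V) (o s : V) (θ : ℝ) (S : Finset V) (η : V → Bool) : ℝ :=
  1 / 2 * ∏ v ∈ S.erase s, ew θ (η v) (η (par G o v))

omit [G.LocallyFinite] in
theorem wf_nonneg {θ : ℝ} (h0 : 0 ≤ θ) (h1 : θ ≤ 1) (o s : V) (S : Finset V) (η : V → Bool) :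
    0 ≤ wf G o s θ S η :=
  mul_nonneg (by norm_num) (Finset.prod_nonneg fun _ _ => ew_nonneg h0 h1 _ _)

omit [G.LocallyFinite] in
theorem wf_insert {o s : V} {θ : ℝ} {S : Finset V} {v : V} (hs : s ∈ S) (hv : v ∉ S)
    (η : V → Bool) :
    wf G o s θ (insert v S) η = wf G o s θ S η * ew θ (η v) (η (par G o v)) := by
  unfold wf
  have hne : v ≠ s := fun e => hv (e ▸ hs)
  rw [Finset.erase_insert_of_ne hne, Finset.prod_insert (by simp [hv])]
  ring

omit [G.LocallyFinite] in
theorem isingWeight_eq (θ : ℝ) (S : Finset V) (η : V → Bool) :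
    isingWeight G θ S η = 1 / 2 * ∏ e ∈ S.sym2.filter (· ∈ G.edgeSet),
      (if (Sym2.map η e).IsDiag then (1 + θ) / 2 else (1 - θ) / 2) := by
  unfold isingWeight
  congr

theorem isingWeight_rooted (h : RT G d) {o s : V} (θ : ℝ) (η : V → Bool) :
    ∀ S : Finset V, Rooted G o s S → isingWeight G θ S η = wf G o s θ S η := by
  refine Rooted.induction h ?_ ?_
  · rw [isingWeight_eq, wf]
    have : ({s} : Finset V).sym2.filter (· ∈ G.edgeSet) = ∅ := by
      simp
    rw [this]
    simp
  · intro S v hS hv hvo hpar hmax ih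
    rw [wf_insert hS.mem hv, ← ih, isingWeight_eq, isingWeight_eq]
    have e1 : (insert v S).sym2.filter (· ∈ G.edgeSet) =
        insert s(v, par G o v) (S.sym2.filter (· ∈ G.edgeSet)) := by
      ext e
      induction e using Sym2.ind with
      | _ a b =>
        simp only [Finset.mem_filter, Finset.mk_mem_sym2_iff, Finset.mem_insert,
          SimpleGraph.mem_edgeSet, Sym2.eq_iff]
        have key : ∀ c, c ∈ S → G.Adj v c → c = par G o v := by
          intro c hc hadj
          rcases adj_cases h o hadj with ⟨_, e⟩ | ⟨hco, e⟩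
          · exact e
          · have h1 := dist_par h hco
            have h2 := hmax c hc
            rw [← e] at h1
            omega
        constructor
        · rintro ⟨⟨ha | ha, hb | hb⟩, hadj⟩
          · subst ha; subst hb; exact absurd hadj (G.loopless.irrefl _)
          · subst ha; exact Or.inl (Or.inl ⟨rfl, key b hb hadj⟩)
          · subst hb; exact Or.inl (Or.inr ⟨key a ha hadj.symm, rfl⟩)
          · exact Or.inr ⟨⟨ha, hb⟩, hadj⟩
        · rintro ((⟨rfl, rfl⟩ | ⟨rfl, rfl⟩) | ⟨⟨ha, hb⟩, hadj⟩)
          · exact ⟨⟨Or.inl rfl, Or.inr hpar⟩, par_adj h hvo⟩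
          · exact ⟨⟨Or.inr hpar, Or.inl rfl⟩, (par_adj h hvo).symm⟩
          · exact ⟨⟨Or.inr ha, Or.inr hb⟩, hadj⟩
    have e2 : s(v, par G o v) ∉ S.sym2.filter (· ∈ G.edgeSet) := by
      simp [hv]
    rw [e1, Finset.prod_insert e2]
    have e3 : (if (Sym2.map η s(v, par G o v)).IsDiag then (1 + θ) / 2 else (1 - θ) / 2) =
        ew θ (η v) (η (par G o v)) := by
      simp only [Sym2.map_mk, Sym2.mk_isDiag_iff, ew]
      cases η v <;> cases η (par G o v) <;> simp [spin] <;> ring
    rw [e3]
    ring

/-! ### The construction -/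

/-- A random sign, `+1` with probability `a`. -/
def sg (a : ℝ) (y : I) : ℝ := if (y : ℝ) ≤ a then 1 else -1

theorem sg_cases (a : ℝ) (y : I) : sg a y = 1 ∨ sg a y = -1 := by
  unfold sg; split_ifs <;> simp

theorem measurable_sg (a : ℝ) : Measurable (sg a) :=
  Measurable.ite (measurableSet_le measurable_subtype_coe measurable_const) measurable_const
    measurable_const

theorem abs_sg (a : ℝ) (y : I) : |sg a y| = 1 := by
  rcases sg_cases a y with e | e <;> simp [e]

theorem integral_sg {a : ℝ} (h0 : 0 ≤ a) (h1 : a ≤ 1) : ∫ y, sg a y = 2 * a - 1 := by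
  have e : sg a = fun y => 2 * (Set.Iic (⟨a, h0, h1⟩ : I)).indicator (fun _ => (1 : ℝ)) y - 1 := by
    funext y
    unfold sg
    by_cases hy : (y : ℝ) ≤ a
    · have : y ∈ Set.Iic (⟨a, h0, h1⟩ : I) := hy
      rw [if_pos hy, Set.indicator_of_mem this]; norm_num
    · have : y ∉ Set.Iic (⟨a, h0, h1⟩ : I) := hy
      rw [if_neg hy, Set.indicator_of_notMem this]; norm_num
  rw [e, integral_sub (((integrable_const _).indicator measurableSet_Iic).const_mul _)
    (integrable_const _), integral_const_mul, integral_indicator measurableSet_Iic]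
  simp [Measure.real, unitInterval.volume_Iic, h0]

theorem integral_affine_sg {a : ℝ} (h0 : 0 ≤ a) (h1 : a ≤ 1) (A B : ℝ) :
    ∫ y, (A + B * sg a y) = A + B * (2 * a - 1) := by
  rw [integral_add (integrable_const _)
    ((R168.integrable_of_abs_le (measurable_sg a) 1 fun y => (abs_sg a y).le).const_mul _),
    integral_const_mul, integral_sg h0 h1]
  simp

/-- The threshold of the vertex `y`. -/
def thr (o : V) (θ : ℝ) (y : V) : ℝ := if y = o then 1 / 2 else (1 + θ) / 2

/-- The real spin at `v`. -/
def sp (G : SimpleGraph V) (o : V) (θ : ℝ) (x : V → I) (v : V) : ℝ :=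
  ∏ i ∈ Finset.range (G.dist o v + 1), sg (thr o θ (geo G o v i)) (x (geo G o v i))

omit [G.LocallyFinite] in
theorem sp_cases (o : V) (θ : ℝ) (x : V → I) (v : V) :
    sp G o θ x v = 1 ∨ sp G o θ x v = -1 := by
  unfold sp
  refine Finset.prod_induction _ (fun r : ℝ => r = 1 ∨ r = -1) ?_ (Or.inl rfl)
    (fun i _ => sg_cases _ _)
  rintro a b (rfl | rfl) (rfl | rfl) <;> simp

omit [G.LocallyFinite] in
theorem measurable_sp (o : V) (θ : ℝ) (v : V) : Measurable (fun x => sp G o θ x v) :=
  Finset.measurable_prod _ fun _ _ => (measurable_sg _).comp (measurable_pi_apply _)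

theorem sp_par (h : RT G d) {o v : V} (hne : v ≠ o) (θ : ℝ) (x : V → I) :
    sp G o θ x v = sp G o θ x (par G o v) * sg ((1 + θ) / 2) (x v) := by
  unfold sp
  have h1 := dist_par h hne
  rw [Finset.prod_range_succ, geo_dist h, h1]
  congr 1
  · refine Finset.prod_congr rfl fun i hi => ?_
    rw [geo_par h o v (by have := Finset.mem_range.1 hi; omega)]
  · rw [thr, if_neg hne]

theorem sp_update (h : RT G d) {o v w : V} (hle : G.dist o w ≤ G.dist o v) (hne : w ≠ v) (θ : ℝ)
    (x : V → I) (y : I) : sp G o θ (Function.update x v y) w = sp G o θ x w := by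
  unfold sp
  refine Finset.prod_congr rfl fun i hi => ?_
  have hi' : i ≤ G.dist o w := by have := Finset.mem_range.1 hi; omega
  rw [Function.update_of_ne]
  intro e
  have h1 := (geo_spec h o w hi').1
  rw [e] at h1
  have h2 : i = G.dist o w := by omega
  rw [h2, geo_dist h] at e
  exact hne e

theorem sp_update_root (h : RT G d) (o v : V) (θ : ℝ) (x : V → I) :
    ∃ r : ℝ, ∀ y : I, sp G o θ (Function.update x o y) v = r * sg (1 / 2) y := by
  refine ⟨∏ i ∈ Finset.range (G.dist o v),
    sg (thr o θ (geo G o v (i + 1))) (x (geo G o v (i + 1))), fun y => ?_⟩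
  unfold sp
  rw [Finset.prod_range_succ', geo_zero h, Function.update_self]
  congr 1
  · refine Finset.prod_congr rfl fun i hi => ?_
    have hi' : i + 1 ≤ G.dist o v := Finset.mem_range.1 hi
    rw [Function.update_of_ne]
    intro e
    have h1 := (geo_spec h o v hi').1
    rw [e] at h1
    simp at h1
  · rw [thr, if_pos rfl]

/-- The indicator of a cylinder. -/
def ind (G : SimpleGraph V) (o : V) (θ : ℝ) (S : Finset V) (η : V → Bool) (x : V → I) : ℝ :=
  ∏ v ∈ S, (1 + spin (η v) * sp G o θ x v) / 2

omit [G.LocallyFinite] in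
theorem measurable_ind (o : V) (θ : ℝ) (S : Finset V) (η : V → Bool) :
    Measurable (ind G o θ S η) :=
  Finset.measurable_prod _ fun v _ =>
    (((measurable_sp o θ v).const_mul _).const_add _).div_const _

omit [G.LocallyFinite] in
theorem fac_eq (o : V) (θ : ℝ) (b : Bool) (x : V → I) (v : V) :
    (1 + spin b * sp G o θ x v) / 2 = if sp G o θ x v = spin b then 1 else 0 := by
  rcases sp_cases (G := G) o θ x v with e | e <;> cases b <;> simp [e, spin] <;> norm_num

omit [G.LocallyFinite] in
theorem ind_eq (o : V) (θ : ℝ) (S : Finset V) (η : V → Bool) (x : V → I) :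
    ind G o θ S η x = if ∀ v ∈ S, sp G o θ x v = spin (η v) then 1 else 0 := by
  unfold ind
  simp only [fac_eq]
  rw [Finset.prod_boole]

omit [G.LocallyFinite] in
theorem abs_ind_le (o : V) (θ : ℝ) (S : Finset V) (η : V → Bool) (x : V → I) :
    |ind G o θ S η x| ≤ 1 := by
  rw [ind_eq]
  split_ifs <;> simp

theorem integral_ind (h : RT G d) {θ : ℝ} (h0 : 0 ≤ θ) (h1 : θ ≤ 1) {o s : V} (η : V → Bool) :
    ∀ S : Finset V, Rooted G o s S →
      ∫ x, ind G o θ S η x ∂(labelMeasure V) = wf G o s θ S η := by
  refine Rooted.induction h ?_ ?_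
  · rw [R168.integral_eq_integral_update o (measurable_ind o θ _ η) 1 (abs_ind_le o θ _ η)]
    have : ∀ x : V → I, ∫ y, ind G o θ {s} η (Function.update x o y) = 1 / 2 := by
      intro x
      obtain ⟨r, hr⟩ := sp_update_root h o s θ x
      have e : (fun y => ind G o θ {s} η (Function.update x o y)) =
          fun y => 1 / 2 + (spin (η s) * r / 2) * sg (1 / 2) y := by
        funext y
        rw [ind, Finset.prod_singleton, hr]
        ring
      rw [e, integral_affine_sg (by norm_num) (by norm_num)]
      ring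
    simp [this, wf]
  · intro S v hS hv hvo hpar hmax ih
    rw [wf_insert hS.mem hv, ← ih,
      R168.integral_eq_integral_update v (measurable_ind o θ _ η) 1 (abs_ind_le o θ _ η),
      ← integral_mul_const]
    refine integral_congr_ae (Eventually.of_forall fun x => ?_)
    have e : (fun y => ind G o θ (insert v S) η (Function.update x v y)) =
        fun y => ind G o θ S η x / 2 +
          (ind G o θ S η x * spin (η v) * sp G o θ x (par G o v) / 2) * sg ((1 + θ) / 2) y := by
      funext y
      have e1 : ind G o θ S η (Function.update x v y) = ind G o θ S η x :=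
        Finset.prod_congr rfl fun w hw => by
          rw [sp_update h (hmax w hw) (fun e => hv (e ▸ hw))]
      have e2 : ind G o θ (insert v S) η (Function.update x v y) =
          (1 + spin (η v) * sp G o θ (Function.update x v y) v) / 2 *
            ind G o θ S η (Function.update x v y) := by
        rw [ind, Finset.prod_insert hv]; rfl
      rw [e2, e1, sp_par h hvo, sp_update h (hmax _ hpar) (fun e => hv (e ▸ hpar)),
        Function.update_self]
      ring
    show ∫ y, ind G o θ (insert v S) η (Function.update x v y) =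
      ind G o θ S η x * ew θ (η v) (η (par G o v))
    rw [e, integral_affine_sg (by linarith) (by linarith), ew, ind_eq]
    split_ifs with hx
    · rw [hx _ hpar]; ring
    · ring

/-- The spins as a function of the labels. -/
def cf (G : SimpleGraph V) (o : V) (θ : ℝ) (x : V → I) (v : V) : Bool := decide (sp G o θ x v = 1)

omit [G.LocallyFinite] in
theorem measurable_cf (o : V) (θ : ℝ) : Measurable (cf G o θ) := by
  refine measurable_pi_lambda _ fun v => ?_
  refine measurable_to_bool ?_
  have : (fun x => cf G o θ x v) ⁻¹' {true} = (fun x => sp G o θ x v) ⁻¹' {1} := by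
    ext x; simp [cf]
  rw [this]
  exact measurable_sp o θ v (measurableSet_singleton _)

omit [G.LocallyFinite] in
theorem cf_eq_iff (o : V) (θ : ℝ) (x : V → I) (v : V) (b : Bool) :
    cf G o θ x v = b ↔ sp G o θ x v = spin b := by
  rcases sp_cases (G := G) o θ x v with e | e <;> cases b <;> simp [cf, e, spin] <;> norm_num

/-- Cylinders. -/
def cyl (S : Finset V) (η : V → Bool) : Set (V → Bool) := {ξ | ∀ v ∈ S, ξ v = η v}

theorem measurableSet_cyl (S : Finset V) (η : V → Bool) : MeasurableSet (cyl S η) := by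
  have : cyl S η = ⋂ v ∈ S, (fun ξ : V → Bool => ξ v) ⁻¹' {η v} := by
    ext ξ; simp [cyl]
  rw [this]
  exact Finset.measurableSet_biInter S fun v _ =>
    measurable_pi_apply v (measurableSet_singleton _)

/-- The constructed state. -/
def cm (G : SimpleGraph V) (o : V) (θ : ℝ) : Measure (V → Bool) :=
  (labelMeasure V).map (cf G o θ)

theorem cm_cyl (h : RT G d) {θ : ℝ} (h0 : 0 ≤ θ) (h1 : θ ≤ 1) {o s : V} (η : V → Bool)
    {S : Finset V} (hS : Rooted G o s S) :
    cm G o θ (cyl S η) = ENNReal.ofReal (wf G o s θ S η) := by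
  rw [cm, Measure.map_apply (measurable_cf o θ) (measurableSet_cyl S η),
    ← integral_ind h h0 h1 η S hS]
  have e : ind G o θ S η = (cf G o θ ⁻¹' cyl S η).indicator 1 := by
    funext x
    rw [ind_eq, Set.indicator_apply]
    simp only [Set.mem_preimage, cyl, Set.mem_ofPred_eq, cf_eq_iff, Pi.one_apply]
  rw [e, integral_indicator_one (measurable_cf o θ (measurableSet_cyl S η)),
    ofReal_measureReal (measure_ne_top _ _)]

theorem isIsing_cm (h : RT G d) {θ : ℝ} (h0 : 0 ≤ θ) (h1 : θ ≤ 1) (o : V) :
    IsIsing G θ (cm G o θ) := by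
  refine ⟨Measure.isProbabilityMeasure_map (measurable_cf o θ).aemeasurable, fun S η hS => ?_⟩
  obtain ⟨s, hs⟩ := rooted_of_connected h o hS
  rw [isingWeight_rooted h θ η S hs]
  exact cm_cyl h h0 h1 η hs

/-- The cylinders over large balls determine a finite measure. -/
theorem ext_ball (h : RT G d) (o : V) {μ μ' : Measure (V → Bool)} [IsFiniteMeasure μ]
    (hb : ∀ R, 1 ≤ R → ∀ η, μ (cyl (ball G o R) η) = μ' (cyl (ball G o R) η)) : μ = μ' := by
  have key : ∀ R, 1 ≤ R → μ.map (ball G o R).restrict = μ'.map (ball G o R).restrict := by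
    intro R hR
    refine Measure.ext_of_singleton fun a => ?_
    rw [Measure.map_apply (Finset.measurable_restrict _) (measurableSet_singleton _),
      Measure.map_apply (Finset.measurable_restrict _) (measurableSet_singleton _)]
    have e : (Finset.restrict (π := fun _ => Bool) (ball G o R)) ⁻¹' {a} =
        cyl (ball G o R) (fun v => if hv : v ∈ ball G o R then a ⟨v, hv⟩ else true) := by
      ext ξ
      simp only [Set.mem_preimage, Set.mem_singleton_iff, cyl, Set.mem_ofPred_eq]
      constructor
      · rintro rfl v hv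
        rw [dif_pos hv]; rfl
      · intro hξ
        funext v
        have := hξ v v.2
        rw [dif_pos v.2] at this
        exact this
    rw [e]
    exact hb R hR _
  refine IsProjectiveLimit.unique (P := fun J : Finset V => μ.map J.restrict) (fun _ => rfl)
    (fun J => ?_)
  have hJ : J ⊆ ball G o (J.sup (fun v => G.dist o v) + 1) := fun v hv =>
    (mem_ball h).2 ((Finset.le_sup (f := fun v => G.dist o v) hv).trans (Nat.le_succ _))
  show μ'.map J.restrict = μ.map J.restrict
  rw [← Finset.restrict₂_comp_restrict (π := fun _ => Bool) hJ,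
    ← Measure.map_map (Finset.measurable_restrict₂ hJ) (Finset.measurable_restrict _),
    ← Measure.map_map (Finset.measurable_restrict₂ hJ) (Finset.measurable_restrict _),
    key _ (by omega)]

end IsingAux

open IsingAux

theorem isIsing_ising (h : RT G d) {θ : ℝ} (h0 : 0 ≤ θ) (h1 : θ ≤ 1) :
    IsIsing G θ (ising G θ) := by
  obtain ⟨o⟩ := h.nonempty
  have hex : ∃ μ, IsIsing G θ μ := ⟨_, isIsing_cm h h0 h1 o⟩
  unfold ising
  rw [dif_pos hex]
  exact hex.choose_spec

/-- The cylinder weights on connected sets determine the law. -/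
theorem IsIsing.unique (h : RT G d) {θ : ℝ} {μ μ' : Measure (V → Bool)} (hμ : IsIsing G θ μ)
    (hμ' : IsIsing G θ μ') : μ = μ' := by
  obtain ⟨o⟩ := h.nonempty
  have := hμ.1
  exact ext_ball h o fun R _ η =>
    (hμ.2 _ η (ball_connected h o R)).trans (hμ'.2 _ η (ball_connected h o R)).symm

namespace IsingAux

theorem ising_cyl (h : RT G d) {θ : ℝ} (h0 : 0 ≤ θ) (h1 : θ ≤ 1) {o s : V} (η : V → Bool)
    {S : Finset V} (hS : Rooted G o s S) :
    ising G θ (cyl S η) = ENNReal.ofReal (wf G o s θ S η) := by
  rw [(isIsing_ising h h0 h1).unique h (isIsing_cm h h0 h1 o), cm_cyl h h0 h1 η hS]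

theorem par_map (h : RT G d) (g : G ≃g G) (o v : V) : par G (g o) (g v) = g (par G o v) := by
  unfold par
  rw [geo_map h, dist_map]

end IsingAux

theorem ising_flip (h : RT G d) {θ : ℝ} (h0 : 0 ≤ θ) (h1 : θ ≤ 1) :
    MeasurePreserving (fun (η : V → Bool) v => !η v) (ising G θ) (ising G θ) := by
  obtain ⟨o⟩ := h.nonempty
  have hm : Measurable (fun (η : V → Bool) v => !η v) :=
    measurable_pi_lambda _ fun v => (measurable_of_countable (fun b : Bool => !b)).comp
      (measurable_pi_apply v)
  refine ⟨hm, (ext_ball h o fun R _ η => ?_).symm⟩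
  rw [Measure.map_apply hm (measurableSet_cyl _ _)]
  have e : (fun (η : V → Bool) v => !η v) ⁻¹' cyl (ball G o R) η =
      cyl (ball G o R) (fun v => !η v) := by
    ext ξ
    simp only [cyl, Set.mem_preimage, Set.mem_ofPred_eq]
    refine forall₂_congr fun v _ => ?_
    cases ξ v <;> cases η v <;> simp
  rw [e, ising_cyl h h0 h1 _ (rooted_ball h o R), ising_cyl h h0 h1 _ (rooted_ball h o R)]
  simp only [wf, ew, spin_not, mul_neg, neg_mul, neg_neg]

theorem ising_aut (h : RT G d) {θ : ℝ} (h0 : 0 ≤ θ) (h1 : θ ≤ 1) (g : G ≃g G) :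
    MeasurePreserving (fun η : V → Bool => η ∘ g) (ising G θ) (ising G θ) := by
  obtain ⟨o⟩ := h.nonempty
  have hm : Measurable (fun η : V → Bool => η ∘ g) :=
    measurable_pi_lambda _ fun v => measurable_pi_apply (g v)
  refine ⟨hm, (ext_ball h o fun R _ η => ?_).symm⟩
  rw [Measure.map_apply hm (measurableSet_cyl _ _)]
  have e : (fun η : V → Bool => η ∘ g) ⁻¹' cyl (ball G o R) η =
      cyl (ball G (g o) R) (η ∘ g.symm) := by
    ext ξ
    simp [cyl, ball_map h]
  rw [e, ising_cyl h h0 h1 _ (rooted_ball h o R), ising_cyl h h0 h1 _ (rooted_ball h (g o) R)]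
  congr 1
  unfold wf
  rw [ball_map h, ← Finset.image_erase g.injective,
    Finset.prod_image (fun a _ b _ e => g.injective e)]
  simp [par_map h]

theorem integral_spin (h : RT G d) {θ : ℝ} (h0 : 0 ≤ θ) (h1 : θ ≤ 1) (v : V) :
    ∫ η, spin (η v) ∂(ising G θ) = 0 := by
  have hf := ising_flip h h0 h1
  have hm : Measurable (fun η : V → Bool => spin (η v)) :=
    (measurable_of_countable spin).comp (measurable_pi_apply v)
  have e : ∫ η, spin (η v) ∂(ising G θ) = ∫ η, spin (!η v) ∂(ising G θ) := by
    conv_lhs => rw [← hf.map_eq]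
    rw [integral_map hf.measurable.aemeasurable hm.aestronglyMeasurable]
  simp only [spin_not, integral_neg] at e
  linarith

namespace IsingAux

/-- Gluing two configurations along a set of vertices. -/
def glue (E : Set V) (q : (V → Bool) × (V → Bool)) : V → Bool :=
  fun w => if w ∈ E then q.1 w else q.2 w

theorem measurable_glue (E : Set V) : Measurable (glue E) := by
  refine measurable_pi_lambda _ fun w => ?_
  unfold glue
  split_ifs
  · exact (measurable_pi_apply w).comp measurable_fst
  · exact (measurable_pi_apply w).comp measurable_snd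

/-- The density of the edge. -/
def den (θ : ℝ) (u p : V) (q : (V → Bool) × (V → Bool)) : ℝ :=
  1 + θ * spin (q.1 u) * spin (q.2 p)

theorem measurable_spin_at (v : V) : Measurable (fun η : V → Bool => spin (η v)) :=
  (measurable_of_countable spin).comp (measurable_pi_apply v)

theorem measurable_den (θ : ℝ) (u p : V) : Measurable (den θ u p) :=
  ((((measurable_spin_at u).comp measurable_fst).const_mul θ).mul
    ((measurable_spin_at p).comp measurable_snd)).const_add 1

theorem den_nonneg {θ : ℝ} (h0 : 0 ≤ θ) (h1 : θ ≤ 1) (u p : V) (q : (V → Bool) × (V → Bool)) :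
    0 ≤ den θ u p q := by
  have := ew_nonneg h0 h1 (q.1 u) (q.2 p)
  unfold ew at this
  unfold den
  linarith

theorem par_mem_half (h : RT G d) {u p v : V} (hup : G.Adj u p) (hvu : v ≠ u) (hvp : v ≠ p) :
    par G u v ∈ half G u p ↔ v ∈ half G u p := by
  have hadj := par_adj h hvu
  constructor
  · intro h1
    by_contra h2
    have h3 : v ∈ half G p u := (mem_half_iff_not h hup.symm v).2 h2
    exact hvp (eq_of_adj_half h hup h1 h3 hadj.symm).2
  · intro h1
    by_contra h2
    have h3 : par G u v ∈ half G p u := (mem_half_iff_not h hup.symm _).2 h2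
    exact hvu (eq_of_adj_half h hup h1 h3 hadj).1

theorem ising_eq_glue (h : RT G d) {θ : ℝ} (h0 : 0 ≤ θ) (h1 : θ ≤ 1) {u p : V}
    (hup : G.Adj u p) :
    ising G θ = (((ising G θ).prod (ising G θ)).withDensity
      (fun q => ENNReal.ofReal (den θ u p q))).map (glue (half G u p)) := by
  refine ext_ball h u fun R hR η => ?_
  set S := ball G u R with hS
  set S₁ := S.filter (· ∈ half G u p) with hS₁
  set S₂ := S.filter (· ∉ half G u p) with hS₂
  have hu : u ∈ half G u p := self_mem_half h hup
  have hp : p ∉ half G u p := (mem_half_iff_not h hup.symm p).1 (self_mem_half h hup.symm)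
  have hd : G.dist u p = 1 := SimpleGraph.dist_eq_one_iff_adj.2 hup
  have hr : Rooted G u u S := rooted_ball h u R
  have hpS : p ∈ S := (mem_ball h).2 (by omega)
  have hu1 : u ∈ S₁ := Finset.mem_filter.2 ⟨hr.mem, hu⟩
  have hp2 : p ∈ S₂ := Finset.mem_filter.2 ⟨hpS, hp⟩
  have hr1 : Rooted G u u S₁ := by
    refine ⟨hu1, fun v _ => by simp, fun v hv hvu => ?_⟩
    obtain ⟨hv1, hv2⟩ := Finset.mem_filter.1 hv
    exact Finset.mem_filter.2 ⟨hr.up v hv1 hvu,
      (par_mem_half h hup hvu (fun e => hp (e ▸ hv2))).2 hv2⟩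
  have hr2 : Rooted G u p S₂ := by
    refine ⟨hp2, fun v hv => ?_, fun v hv hvp => ?_⟩
    · obtain ⟨hv1, hv2⟩ := Finset.mem_filter.1 hv
      have := dist_pos h (o := u) (v := v) (fun e => hv2 (e ▸ hu))
      omega
    · obtain ⟨hv1, hv2⟩ := Finset.mem_filter.1 hv
      have hvu : v ≠ u := fun e => hv2 (e ▸ hu)
      exact Finset.mem_filter.2 ⟨hr.up v hv1 hvu, fun h3 => hv2 ((par_mem_half h hup hvu hvp).1 h3)⟩
  have e : glue (half G u p) ⁻¹' cyl S η = cyl S₁ η ×ˢ cyl S₂ η := by
    ext q
    simp only [Set.mem_preimage, cyl, Set.mem_ofPred_eq, Set.mem_prod, hS₁, hS₂,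
      Finset.mem_filter, glue]
    constructor
    · intro hq
      refine ⟨fun v hv => ?_, fun v hv => ?_⟩
      · have := hq v hv.1
        rwa [if_pos hv.2] at this
      · have := hq v hv.1
        rwa [if_neg hv.2] at this
    · rintro ⟨hq1, hq2⟩ v hv
      split_ifs with hv'
      · exact hq1 v ⟨hv, hv'⟩
      · exact hq2 v ⟨hv, hv'⟩
  have hms : MeasurableSet (cyl S₁ η ×ˢ cyl S₂ η) :=
    (measurableSet_cyl _ _).prod (measurableSet_cyl _ _)
  rw [Measure.map_apply (measurable_glue _) (measurableSet_cyl _ _), e, withDensity_apply _ hms,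
    setLIntegral_congr_fun hms (g := fun _ => ENNReal.ofReal (den θ u p (η, η))) (fun q hq => by
      simp only [den]
      rw [hq.1 u hu1, hq.2 p hp2]),
    setLIntegral_const, Measure.prod_prod, ising_cyl h h0 h1 η hr, ising_cyl h h0 h1 η hr1,
    ising_cyl h h0 h1 η hr2, ← ENNReal.ofReal_mul (wf_nonneg h0 h1 _ _ _ _),
    ← ENNReal.ofReal_mul (den_nonneg h0 h1 _ _ _)]
  congr 1
  unfold wf
  have e1 : (S.erase u).filter (· ∈ half G u p) = S₁.erase u := by
    ext v
    simp only [hS₁, Finset.mem_filter, Finset.mem_erase, and_assoc]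
  have e2 : (S.erase u).filter (· ∉ half G u p) = S₂ := by
    ext v
    simp only [hS₂, Finset.mem_filter, Finset.mem_erase]
    exact ⟨fun hv => ⟨hv.1.2, hv.2⟩, fun hv => ⟨⟨fun e => hv.2 (e ▸ hu), hv.1⟩, hv.2⟩⟩
  have e3 : par G u p = u := (eq_par h hup.symm hu).2.symm
  rw [← Finset.prod_filter_mul_prod_filter_not (S.erase u) (· ∈ half G u p), e1, e2,
    ← Finset.mul_prod_erase S₂ _ hp2, e3]
  simp only [den, ew]
  ring

end IsingAux

/-- The Markov property across the edge `u p`. -/
theorem ising_edge (h : RT G d) {θ : ℝ} (h0 : 0 ≤ θ) (h1 : θ ≤ 1) {u p : V} (hup : G.Adj u p)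
    {F H : (V → Bool) → ℝ} (hF : Measurable F) (hH : Measurable H) {C : ℝ}
    (hFb : ∀ η, |F η| ≤ C) (hHb : ∀ η, |H η| ≤ C)
    (hFd : DependsOn F (half G u p)) (hHd : DependsOn H (half G p u)) :
    ∫ η, F η * H η ∂(ising G θ) =
      (∫ η, F η ∂(ising G θ)) * (∫ η, H η ∂(ising G θ)) +
        θ * (∫ η, spin (η u) * F η ∂(ising G θ)) * (∫ η, spin (η p) * H η ∂(ising G θ)) := by
  have hsF : ∀ η, |spin (η u) * F η| ≤ C := fun η => by rw [abs_mul, abs_spin, one_mul]; exact hFb η
  have hsH : ∀ η, |spin (η p) * H η| ≤ C := fun η => by rw [abs_mul, abs_spin, one_mul]; exact hHb η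
  have iF := R168.integrable_of_abs_le (μ := ising G θ) hF C hFb
  have iH := R168.integrable_of_abs_le (μ := ising G θ) hH C hHb
  have isF := R168.integrable_of_abs_le (μ := ising G θ) ((measurable_spin_at u).fun_mul hF) C hsF
  have isH := R168.integrable_of_abs_le (μ := ising G θ) ((measurable_spin_at p).fun_mul hH) C hsH
  conv_lhs => rw [ising_eq_glue h h0 h1 hup]
  rw [integral_map (measurable_glue _).aemeasurable (hF.fun_mul hH).aestronglyMeasurable,
    integral_withDensity_eq_integral_toReal_smul (measurable_den θ u p).ennreal_ofReal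
      (Eventually.of_forall fun _ => ENNReal.ofReal_lt_top)]
  have e : (fun q : (V → Bool) × (V → Bool) => (ENNReal.ofReal (den θ u p q)).toReal •
      (F (glue (half G u p) q) * H (glue (half G u p) q))) =
      fun q => F q.1 * H q.2 + θ * ((spin (q.1 u) * F q.1) * (spin (q.2 p) * H q.2)) := by
    funext q
    have e1 : F (glue (half G u p) q) = F q.1 := hFd fun w hw => by simp [glue, hw]
    have e2 : H (glue (half G u p) q) = H q.2 := hHd fun w hw => by
      have : w ∉ half G u p := (mem_half_iff_not h hup.symm w).1 hw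
      simp [glue, this]
    rw [ENNReal.toReal_ofReal (den_nonneg h0 h1 u p q), e1, e2, smul_eq_mul, den]
    ring
  rw [e, integral_add (iF.mul_prod iH) ((isF.mul_prod isH).const_mul θ), integral_const_mul,
    integral_prod_mul F H,
    integral_prod_mul (fun η : V → Bool => spin (η u) * F η) (fun η => spin (η p) * H η)]
  ring

end Crest.Agent.R160

end
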