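import Crest.Agent.R160.Ising

/-!
The Markov property and the spin flip in the weak model; comparison of two temperatures.
-/

set_option autoImplicit false

open MeasureTheory unitInterval Filter Topology
open Crest.ProbabilityR Crest.ProbabilityR.Labels Crest.ProbabilityR.TreeIsing
open scoped Classical

noncomputable section

namespace Crest.Agent.R160

universe u

variable {V : Type u} {G : SimpleGraph V} [G.LocallyFinite] {d : ℕ}

namespace IsingOmAux

theorem pw_mp {A : Type u} (E : Set A) :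
    MeasurePreserving (fun (p : (A → I) × (A → I)) (a : A) => if a ∈ E then p.1 a else p.2 a)
      ((labelMeasure A).prod (labelMeasure A)) (labelMeasure A) := by
  have hinj : Function.Injective
      (fun a : A => if a ∈ E then (Sum.inl a : A ⊕ A) else Sum.inr a) := by
    intro a b hab
    by_cases ha : a ∈ E <;> by_cases hb : b ∈ E <;> simp_all
  have := (R168.measurePreserving_comp_inj _ hinj).comp
    (R168.measurePreserving_sumElim (A := A) (B := A))
  convert this using 1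
  funext p a
  by_cases ha : a ∈ E <;> simp [ha]

theorem integral_mul_of_dep {A : Type u} (E : Set A) {f g : (A → I) → ℝ} (hf : Measurable f)
    (hg : Measurable g) (hfd : ∀ x y, (∀ a ∈ E, x a = y a) → f x = f y)
    (hgd : ∀ x y, (∀ a, a ∉ E → x a = y a) → g x = g y) :
    ∫ x, f x * g x ∂(labelMeasure A) =
      (∫ x, f x ∂(labelMeasure A)) * ∫ x, g x ∂(labelMeasure A) := by
  have h := pw_mp E
  rw [← integral_prod_mul]
  conv_lhs => rw [← h.map_eq]
  rw [integral_map (f := fun x => f x * g x) h.measurable.aemeasurable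
    (hf.mul hg).aestronglyMeasurable]
  refine integral_congr_ae (Eventually.of_forall fun p => ?_)
  show f _ * g _ = f p.1 * g p.2
  rw [hfd _ p.1 (fun a ha => by simp [ha]), hgd _ p.2 (fun a ha => by simp [ha])]

theorem abs_integral_le {Ω : Type*} [MeasurableSpace Ω] {μ : Measure Ω} [IsProbabilityMeasure μ]
    {f : Ω → ℝ} {C : ℝ} (hC : ∀ x, |f x| ≤ C) : |∫ x, f x ∂μ| ≤ C := by
  have := norm_integral_le_of_norm_le_const (μ := μ) (f := f) (C := C) (Eventually.of_forall hC)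
  simpa using this

/-- the noise integrated out -/
def av1 (F : Om V → ℝ) (T : Lb V) (η : V → Bool) : ℝ := ∫ W, F (T, (η, W)) ∂(nu V)

/-- times and noise integrated out -/
def av (F : Om V → ℝ) (η : V → Bool) : ℝ := ∫ T, av1 F T η ∂(nu V)

theorem measurable_av1 {F : Om V → ℝ} (hF : Measurable F) :
    Measurable (fun q : Lb V × (V → Bool) => av1 F q.1 q.2) := by
  have h1 : Measurable (fun r : (Lb V × (V → Bool)) × Lb V => F (r.1.1, (r.1.2, r.2))) :=
    hF.comp (by fun_prop)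
  exact (h1.stronglyMeasurable.integral_prod_right' (ν := nu V)).measurable

theorem measurable_av {F : Om V → ℝ} (hF : Measurable F) : Measurable (av F) := by
  have h1 : Measurable (fun r : (V → Bool) × Lb V => av1 F r.2 r.1) :=
    (measurable_av1 hF).comp measurable_swap
  exact (h1.stronglyMeasurable.integral_prod_right' (ν := nu V)).measurable

theorem abs_av1_le {F : Om V → ℝ} {C : ℝ} (hC : ∀ ω, |F ω| ≤ C) (T : Lb V) (η : V → Bool) :
    |av1 F T η| ≤ C := abs_integral_le fun _ => hC _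

theorem abs_av_le {F : Om V → ℝ} {C : ℝ} (hC : ∀ ω, |F ω| ≤ C) (η : V → Bool) :
    |av F η| ≤ C := abs_integral_le fun _ => abs_av1_le hC _ _

omit [G.LocallyFinite] in
theorem integral_Pw (θ : ℝ) {F : Om V → ℝ} (hF : Measurable F) {C : ℝ} (hC : ∀ ω, |F ω| ≤ C) :
    ∫ ω, F ω ∂(Pw G θ) = ∫ η, av F η ∂(ising G θ) := by
  rw [integral_prod _ (R168.integrable_of_abs_le hF C hC)]
  have h1 : ∀ T : Lb V, ∫ y, F (T, y) ∂((ising G θ).prod (nu V)) = ∫ η, av1 F T η ∂(ising G θ) := by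
    intro T
    rw [integral_prod _ (R168.integrable_of_abs_le (f := fun y => F (T, y))
      (hF.comp measurable_prodMk_left) C (fun _ => hC _))]
    rfl
  simp_rw [h1]
  exact integral_integral_swap
    (R168.integrable_of_abs_le (measurable_av1 hF) C (fun q => abs_av1_le hC _ _))

theorem av_spin_mul (F : Om V → ℝ) (v : V) (η : V → Bool) :
    av (fun ω => spin (ω.2.1 v) * F ω) η = spin (η v) * av F η := by
  unfold av av1
  simp only [integral_const_mul]

theorem av_dep {E : Set V} {F : Om V → ℝ} (hFd : LocOm E F) : DependsOn (av F) E := by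
  intro η η' hη
  unfold av av1
  congr 1
  funext T
  congr 1
  funext W
  exact hFd _ _ hη (fun z _ => ⟨rfl, rfl⟩)

theorem av_mul {E E' : Set V} (hE : ∀ w, w ∈ E' → w ∉ E) {F H : Om V → ℝ} (hF : Measurable F)
    (hH : Measurable H) (hFd : LocOm E F) (hHd : LocOm E' H) (η : V → Bool) :
    av (fun ω => F ω * H ω) η = av F η * av H η := by
  have h1 : ∀ T, av1 (fun ω => F ω * H ω) T η = av1 F T η * av1 H T η := by
    intro T
    refine integral_mul_of_dep (vm E) (f := fun W => F (T, (η, W))) (g := fun W => H (T, (η, W)))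
      (hF.comp (by fun_prop)) (hH.comp (by fun_prop)) (fun x y hxy => ?_) (fun x y hxy => ?_)
    · exact hFd _ _ (fun _ _ => rfl) (fun z hz => ⟨rfl, hxy z hz⟩)
    · exact hHd _ _ (fun _ _ => rfl) (fun z hz => ⟨rfl, hxy z (hE _ hz)⟩)
  unfold av
  simp_rw [h1]
  refine integral_mul_of_dep (vm E) (f := fun T => av1 F T η) (g := fun T => av1 H T η)
    ((measurable_av1 hF).comp (measurable_prodMk_right (y := η)))
    ((measurable_av1 hH).comp (measurable_prodMk_right (y := η)))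
    (fun x y hxy => ?_) (fun x y hxy => ?_)
  · unfold av1
    congr 1
    funext W
    exact hFd _ _ (fun _ _ => rfl) (fun z hz => ⟨hxy z hz, rfl⟩)
  · unfold av1
    congr 1
    funext W
    exact hHd _ _ (fun _ _ => rfl) (fun z hz => ⟨hxy z (hE _ hz), rfl⟩)

theorem measurable_spin_mul {F : Om V → ℝ} (hF : Measurable F) (v : V) :
    Measurable (fun ω : Om V => spin (ω.2.1 v) * F ω) :=
  (measurable_spin.comp (by fun_prop)).mul hF

theorem abs_spin_mul_le {F : Om V → ℝ} {C : ℝ} (hC : ∀ ω, |F ω| ≤ C) (v : V) (ω : Om V) :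
    |spin (ω.2.1 v) * F ω| ≤ C := by
  rw [abs_mul, abs_spin, one_mul]; exact hC ω

theorem factor_le {θ θ' : ℝ} (h' : θ' ≤ 3 / 4) (h0' : 0 ≤ θ') (P : Prop) [Decidable P] :
    (if P then (1 + θ) / 2 else (1 - θ) / 2) ≤
      (1 + 4 * |θ - θ'|) * (if P then (1 + θ') / 2 else (1 - θ') / 2) := by
  have h1 := le_abs_self (θ - θ')
  have h2 := neg_abs_le (θ - θ')
  have h3 := abs_nonneg (θ - θ')
  split_ifs <;> nlinarith

omit [G.LocallyFinite] in
theorem weight_nonneg {θ : ℝ} (h0 : 0 ≤ θ) (h1 : θ ≤ 1) (S : Finset V) (η : V → Bool) :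
    0 ≤ isingWeight G θ S η := by
  unfold isingWeight
  refine mul_nonneg (by norm_num) (Finset.prod_nonneg fun e _ => ?_)
  split_ifs <;> linarith

omit [G.LocallyFinite] in
theorem weight_le {θ θ' : ℝ} (h0 : 0 ≤ θ) (h1 : θ ≤ 1) (h0' : 0 ≤ θ') (h' : θ' ≤ 3 / 4)
    (S : Finset V) (η : V → Bool) {n : ℕ} (hn : S.sym2.card ≤ n) :
    isingWeight G θ S η ≤ (1 + 4 * |θ - θ'|) ^ n * isingWeight G θ' S η := by
  have hw := weight_nonneg (G := G) h0' (by linarith) S η
  have hr : (1 : ℝ) ≤ 1 + 4 * |θ - θ'| := by linarith [abs_nonneg (θ - θ')]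
  refine le_trans ?_ (mul_le_mul_of_nonneg_right
    (pow_le_pow_right₀ hr ((Finset.card_filter_le S.sym2 (fun e => e ∈ G.edgeSet)).trans hn)) hw)
  unfold isingWeight
  rw [mul_left_comm]
  refine mul_le_mul_of_nonneg_left ?_ (by norm_num)
  rw [← Finset.prod_const, ← Finset.prod_mul_distrib]
  refine Finset.prod_le_prod (fun e _ => ?_) (fun e _ => factor_le h' h0' _)
  split_ifs <;> linarith

/-- extension of a pattern -/
def ext (S : Finset V) (ξ : S → Bool) : V → Bool := fun v => if h : v ∈ S then ξ ⟨v, h⟩ else true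

omit [G.LocallyFinite] in
theorem integral_eq_sum {θ : ℝ} (h0 : 0 ≤ θ) (h1 : θ ≤ 1) {μ : Measure (V → Bool)}
    (hμ : IsIsing G θ μ) (S : Finset V) (hS : (G.induce (S : Set V)).Connected)
    {F : (V → Bool) → ℝ} (hFd : DependsOn F (S : Set V)) :
    ∫ η, F η ∂μ = ∑ ξ : S → Bool, F (ext S ξ) * isingWeight G θ S (ext S ξ) := by
  have := hμ.1
  have hm : ∀ ξ : S → Bool, MeasurableSet {η : V → Bool | ∀ v ∈ S, η v = ext S ξ v} := by
    intro ξ
    have : {η : V → Bool | ∀ v ∈ S, η v = ext S ξ v} =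
        Set.pi (S : Set V) (fun v => {ext S ξ v}) := by
      ext η; simp [Set.mem_pi]
    rw [this]
    exact MeasurableSet.pi S.countable_toSet fun _ _ => measurableSet_singleton _
  have hF : F = fun η => ∑ ξ : S → Bool,
      ({η : V → Bool | ∀ v ∈ S, η v = ext S ξ v}).indicator (fun _ => F (ext S ξ)) η := by
    funext η
    rw [Finset.sum_eq_single (fun v : S => η v)]
    · have hmem : ∀ v ∈ S, η v = ext S (fun v : S => η v) v := by
        intro v hv; simp [ext, hv]
      rw [Set.indicator_of_mem (by exact hmem)]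
      exact hFd (fun v hv => hmem v hv)
    · intro ξ _ hξ
      refine Set.indicator_of_notMem (fun hmem => hξ ?_) _
      funext v
      have := hmem v.1 v.2
      simpa [ext, v.2] using this.symm
    · simp
  conv_lhs => rw [hF]
  rw [integral_finsetSum _ (fun ξ _ => (integrable_const _).indicator (hm ξ))]
  refine Finset.sum_congr rfl fun ξ _ => ?_
  rw [integral_indicator_const _ (hm ξ), Measure.real, hμ.2 S _ hS,
    ENNReal.toReal_ofReal (weight_nonneg h0 h1 S _), smul_eq_mul, mul_comm]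

end IsingOmAux

open IsingOmAux

theorem flipO_mp (h : RT G d) {θ : ℝ} (h0 : 0 ≤ θ) (h1 : θ ≤ 1) :
    MeasurePreserving (flipO (V := V)) (Pw G θ) (Pw G θ) := by
  exact (MeasurePreserving.id (nu V)).prod ((ising_flip h h0 h1).prod (MeasurePreserving.id (nu V)))

/-- An even functional is orthogonal to every spin. -/
theorem integral_spin_mul_of_even (h : RT G d) {θ : ℝ} (h0 : 0 ≤ θ) (h1 : θ ≤ 1) (v : V)
    {F : Om V → ℝ} (hF : Measurable F) (he : ∀ ω, F (flipO ω) = F ω) :
    ∫ ω, spin (ω.2.1 v) * F ω ∂(Pw G θ) = 0 := by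
  have hmp := flipO_mp h h0 h1
  have h2 : ∫ ω, spin (ω.2.1 v) * F ω ∂(Pw G θ) =
      ∫ ω, spin ((flipO ω).2.1 v) * F (flipO ω) ∂(Pw G θ) := by
    conv_lhs => rw [← hmp.map_eq]
    rw [integral_map hmp.measurable.aemeasurable (measurable_spin_mul hF v).aestronglyMeasurable]
  have h3 : ∀ ω : Om V, spin ((flipO ω).2.1 v) * F (flipO ω) = -(spin (ω.2.1 v) * F ω) := by
    intro ω
    rw [he]
    show spin (!ω.2.1 v) * F ω = _
    rw [spin_not, neg_mul]
  simp_rw [h3, integral_neg] at h2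
  linarith

/-- An odd functional is centred. -/
theorem integral_of_odd (h : RT G d) {θ : ℝ} (h0 : 0 ≤ θ) (h1 : θ ≤ 1)
    {F : Om V → ℝ} (hF : Measurable F) (he : ∀ ω, F (flipO ω) = -F ω) :
    ∫ ω, F ω ∂(Pw G θ) = 0 := by
  have hmp := flipO_mp h h0 h1
  have h2 : ∫ ω, F ω ∂(Pw G θ) = ∫ ω, F (flipO ω) ∂(Pw G θ) := by
    conv_lhs => rw [← hmp.map_eq]
    rw [integral_map hmp.measurable.aemeasurable hF.aestronglyMeasurable]
  simp_rw [he, integral_neg] at h2
  linarith

/-- The Markov property across the edge `u p` in the weak model. -/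
theorem edge_om (h : RT G d) {θ : ℝ} (h0 : 0 ≤ θ) (h1 : θ ≤ 1) {u p : V} (hup : G.Adj u p)
    {F H : Om V → ℝ} (hF : Measurable F) (hH : Measurable H) {C : ℝ}
    (hFb : ∀ ω, |F ω| ≤ C) (hHb : ∀ ω, |H ω| ≤ C)
    (hFd : LocOm (half G u p) F) (hHd : LocOm (half G p u) H) :
    ∫ ω, F ω * H ω ∂(Pw G θ) =
      (∫ ω, F ω ∂(Pw G θ)) * (∫ ω, H ω ∂(Pw G θ)) +
        θ * (∫ ω, spin (ω.2.1 u) * F ω ∂(Pw G θ)) * (∫ ω, spin (ω.2.1 p) * H ω ∂(Pw G θ)) := by
  have hC : ∀ ω, |F ω * H ω| ≤ C * C := fun ω => by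
    rw [abs_mul]
    exact mul_le_mul (hFb ω) (hHb ω) (abs_nonneg _) ((abs_nonneg _).trans (hFb ω))
  rw [integral_Pw θ (F := fun ω => F ω * H ω) (hF.mul hH) hC, integral_Pw θ hF hFb,
    integral_Pw θ hH hHb, integral_Pw θ (measurable_spin_mul hF u) (abs_spin_mul_le hFb u),
    integral_Pw θ (measurable_spin_mul hH p) (abs_spin_mul_le hHb p)]
  simp_rw [av_spin_mul, av_mul (fun w hw => (mem_half_iff_not h hup.symm w).1 hw) hF hH hFd hHd]
  exact ising_edge h h0 h1 hup (measurable_av hF) (measurable_av hH) (abs_av_le hFb)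
    (abs_av_le hHb) (av_dep hFd) (av_dep hHd)

/-- Nonnegative functionals of the two halves are positively correlated up to `1 - θ`. -/
theorem edge_om_ge (h : RT G d) {θ : ℝ} (h0 : 0 ≤ θ) (h1 : θ ≤ 1) {u p : V} (hup : G.Adj u p)
    {F H : Om V → ℝ} (hF : Measurable F) (hH : Measurable H) {C : ℝ}
    (hF0 : ∀ ω, 0 ≤ F ω) (hH0 : ∀ ω, 0 ≤ H ω) (hFb : ∀ ω, F ω ≤ C) (hHb : ∀ ω, H ω ≤ C)
    (hFd : LocOm (half G u p) F) (hHd : LocOm (half G p u) H) :
    (1 - θ) * ((∫ ω, F ω ∂(Pw G θ)) * (∫ ω, H ω ∂(Pw G θ))) ≤ ∫ ω, F ω * H ω ∂(Pw G θ) := by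
  have hFa : ∀ ω, |F ω| ≤ C := fun ω => by rw [abs_of_nonneg (hF0 ω)]; exact hFb ω
  have hHa : ∀ ω, |H ω| ≤ C := fun ω => by rw [abs_of_nonneg (hH0 ω)]; exact hHb ω
  have key : ∀ (X : Om V → ℝ) (v : V), (∀ ω, 0 ≤ X ω) →
      |∫ ω, spin (ω.2.1 v) * X ω ∂(Pw G θ)| ≤ ∫ ω, X ω ∂(Pw G θ) := by
    intro X v hX
    refine (abs_integral_le_integral_abs).trans (le_of_eq ?_)
    refine integral_congr_ae (Eventually.of_forall fun ω => ?_)
    show |spin (ω.2.1 v) * X ω| = X ω
    rw [abs_mul, abs_spin, one_mul, abs_of_nonneg (hX ω)]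
  rw [edge_om h h0 h1 hup hF hH hFa hHa hFd hHd]
  have k1 := key F u hF0
  have k2 := key H p hH0
  have k3 := mul_le_mul k1 k2 (abs_nonneg _) ((abs_nonneg _).trans k1)
  rw [← abs_mul] at k3
  have k4 := mul_le_mul_of_nonneg_left (neg_le_of_abs_le k3) h0
  nlinarith

/-- Even functionals of the half trees hanging at the neighbours of `u` are independent. -/
theorem prod_om_even (h : RT G d) {θ : ℝ} (h0 : 0 ≤ θ) (h1 : θ ≤ 1) (u : V) (N : Finset V)
    (hN : ∀ c ∈ N, G.Adj c u) (F : V → Om V → ℝ) (hF : ∀ c ∈ N, Measurable (F c)) {C : ℝ}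
    (hFb : ∀ c ∈ N, ∀ ω, |F c ω| ≤ C) (hFd : ∀ c ∈ N, LocOm (half G c u) (F c))
    (he : ∀ c ∈ N, ∀ ω, F c (flipO ω) = F c ω) :
    ∫ ω, ∏ c ∈ N, F c ω ∂(Pw G θ) = ∏ c ∈ N, ∫ ω, F c ω ∂(Pw G θ) := by
  induction N using Finset.induction_on with
  | empty => simp
  | insert c N hc ih =>
    have hsub : ∀ c' ∈ N, c' ∈ insert c N := fun c' hc' => Finset.mem_insert_of_mem hc'
    have hcm : c ∈ insert c N := Finset.mem_insert_self c N
    simp_rw [Finset.prod_insert hc]
    have hP : ∀ ω, |∏ c' ∈ N, F c' ω| ≤ max C (|C| ^ N.card) := fun ω => by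
      refine le_trans ?_ (le_max_right _ _)
      rw [Finset.abs_prod, ← Finset.prod_const]
      exact Finset.prod_le_prod (fun _ _ => abs_nonneg _)
        (fun c' hc' => (hFb c' (hsub c' hc') ω).trans (le_abs_self C))
    have hL : LocOm (half G u c) (fun ω => ∏ c' ∈ N, F c' ω) := by
      intro ω ω' e1 e2
      refine Finset.prod_congr rfl fun c' hc' => ?_
      have hs : half G c' u ⊆ half G u c :=
        half_subset h (hN c' (hsub c' hc')) (hN c hcm).symm (fun e => hc (e ▸ hc'))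
      exact hFd c' (hsub c' hc') ω ω' (fun v hv => e1 v (hs hv)) (fun z hz => e2 z (hs hz))
    rw [edge_om h h0 h1 (hN c hcm) (hF c hcm) (H := fun ω => ∏ c' ∈ N, F c' ω)
      (Finset.measurable_prod _ fun c' hc' => hF c' (hsub c' hc'))
      (fun ω => (hFb c hcm ω).trans (le_max_left _ _)) hP (hFd c hcm) hL,
      integral_spin_mul_of_even h h0 h1 c (hF c hcm) (he c hcm),
      ih (fun c' hc' => hN c' (hsub c' hc')) (fun c' hc' => hF c' (hsub c' hc'))
        (fun c' hc' => hFb c' (hsub c' hc')) (fun c' hc' => hFd c' (hsub c' hc'))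
        (fun c' hc' => he c' (hsub c' hc'))]
    ring

/-- On a ball the states of two temperatures have comparable densities. -/
theorem ising_ratio (h : RT G d) {θ θ' : ℝ} (hθ : Subc d θ) (hθ' : Subc d θ') (c : V) (R : ℕ)
    {F : (V → Bool) → ℝ} (hF0 : ∀ η, 0 ≤ F η) (hFd : DependsOn F (ball G c R : Set V)) :
    ∫ η, F η ∂(ising G θ) ≤ (1 + 4 * |θ - θ'|) ^ ((d + 1) ^ (2 * R)) * ∫ η, F η ∂(ising G θ') := by
  have a1 : θ ≤ 1 := by linarith [Subc.le h hθ]
  have a2 : θ' ≤ 1 := by linarith [Subc.le h hθ']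
  rw [integral_eq_sum hθ.1 a1 (isIsing_ising h hθ.1 a1) _ (ball_connected h c R) hFd,
    integral_eq_sum hθ'.1 a2 (isIsing_ising h hθ'.1 a2) _ (ball_connected h c R) hFd,
    Finset.mul_sum]
  have hn : (ball G c R).sym2.card ≤ (d + 1) ^ (2 * R) := by
    have h1 := card_ball_le h c R
    have h2 : 1 ≤ (ball G c R).card :=
      Finset.card_pos.2 ⟨c, (mem_ball h).2 (by simp)⟩
    rw [Finset.card_sym2, Nat.choose_two_right, Nat.add_sub_cancel, mul_comm 2 R, pow_mul]
    refine le_trans ?_ (Nat.pow_le_pow_left h1 2)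
    apply Nat.div_le_of_le_mul
    nlinarith
  refine Finset.sum_le_sum fun ξ _ => ?_
  rw [mul_left_comm]
  exact mul_le_mul_of_nonneg_left (weight_le hθ.1 a1 hθ'.1 (Subc.le h hθ') _ _ hn) (hF0 _)

end Crest.Agent.R160

end
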