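import Crest.Agent.R160.Bayes

/-!
The posterior mean of the weak model is the sum of its jumps.
-/

set_option autoImplicit false

open MeasureTheory unitInterval Filter Topology
open Crest.ProbabilityR Crest.ProbabilityR.Labels Crest.ProbabilityR.TreeIsing
open scoped Classical

noncomputable section

namespace Crest.Agent.R160

universe u

variable {V : Type u} {G : SimpleGraph V} [G.LocallyFinite] {d : ℕ}

namespace JRAux

/-- The square of a sum of bounded pairwise orthogonal functions. -/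
theorem integral_sum_sq {Ω ι : Type*} [MeasurableSpace Ω] {μ : Measure Ω} [IsFiniteMeasure μ]
    (S : Finset ι) (f : ι → Ω → ℝ) (hm : ∀ i, Measurable (f i)) (hb : ∀ i ω, |f i ω| ≤ 1)
    (ho : ∀ i ∈ S, ∀ j ∈ S, i ≠ j → ∫ ω, f i ω * f j ω ∂μ = 0) :
    ∫ ω, (∑ i ∈ S, f i ω) ^ 2 ∂μ = ∑ i ∈ S, ∫ ω, f i ω ^ 2 ∂μ := by
  have hint : ∀ i j, Integrable (fun ω => f i ω * f j ω) μ := fun i j =>
    R168.integrable_of_abs_le ((hm i).mul (hm j)) 1 fun ω => by
      rw [abs_mul]
      exact mul_le_one₀ (hb i ω) (abs_nonneg _) (hb j ω)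
  have h1 : ∀ ω, (∑ i ∈ S, f i ω) ^ 2 = ∑ i ∈ S, ∑ j ∈ S, f i ω * f j ω := fun ω => by
    rw [sq, Finset.sum_mul_sum]
  simp_rw [h1]
  rw [integral_finsetSum _ fun i _ => integrable_finsetSum _ fun j _ => hint i j]
  refine Finset.sum_congr rfl fun i hi => ?_
  rw [integral_finsetSum _ fun j _ => hint i j, Finset.sum_eq_single_of_mem i hi]
  · simp_rw [sq]
  · intro j hj hne
    exact ho i hi j hj hne.symm

/-- One jump. -/
def jt (G : SimpleGraph V) (θ : ℝ) (o : V) (s : ℝ) (T : Lb V) (ℓ : Slot V → ℝ) (z : Slot V) : ℝ :=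
  if tim T z < s then
    KK G θ (Lt T ℓ (tim T z)) o z.1 * (ℓ z / (1 + ℓ z * mag G θ (Lt T ℓ (tim T z)) z.1)) else 0

variable {θ : ℝ}

omit [G.LocallyFinite] in
theorem jsum_eq (o : V) (J : Finset (Slot V)) (s : ℝ) (T : Lb V) (ℓ : Slot V → ℝ) :
    jsum G θ o J s T ℓ = ∑ z ∈ J, jt G θ o s T ℓ z := rfl

omit [G.LocallyFinite] in
theorem measurable_jt (o : V) (s : ℝ) (z : Slot V) :
    Measurable (fun p : Lb V × (Slot V → ℝ) => jt G θ o s p.1 p.2 z) := by
  have := measurable_jsum (G := G) (θ := θ) o {z} s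
  simpa only [jsum_eq, Finset.sum_singleton] using this

theorem abs_div_le {a m : ℝ} (ha : |a| ≤ 1 / 2) (hm : |m| ≤ 1) : |a / (1 + a * m)| ≤ 1 := by
  have h1 : |a * m| ≤ 1 / 2 := by
    rw [abs_mul]
    calc |a| * |m| ≤ 1 / 2 * 1 := mul_le_mul ha hm (abs_nonneg _) (by norm_num)
      _ = 1 / 2 := by norm_num
  have h2 : 1 / 2 ≤ 1 + a * m := by linarith [(abs_le.1 h1).1]
  rw [abs_div, abs_of_pos (show 0 < 1 + a * m by linarith), div_le_one (by linarith)]
  linarith

theorem add_mul_pos {a m : ℝ} (ha : |a| ≤ 1 / 2) (hm : |m| ≤ 1) : 0 < 1 + a * m := by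
  have h1 : |a * m| ≤ 1 / 2 := by
    rw [abs_mul]
    calc |a| * |m| ≤ 1 / 2 * 1 := mul_le_mul ha hm (abs_nonneg _) (by norm_num)
      _ = 1 / 2 := by norm_num
  linarith [(abs_le.1 h1).1]

theorem abs_jt_le (h : RT G d) (hθ : Subc d θ) (o : V) (s : ℝ) (T : Lb V) {ℓ : Slot V → ℝ}
    (hℓ : Bd ℓ) (z : Slot V) : |jt G θ o s T ℓ z| ≤ θ ^ G.dist o z.1 := by
  unfold jt
  split_ifs with hz
  · rw [abs_mul, abs_of_nonneg (KK_nonneg h hθ (hℓ.lt T _) o z.1)]
    calc _ ≤ θ ^ G.dist o z.1 * 1 :=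
          mul_le_mul (KK_le_pow h hθ (hℓ.lt T _) o z.1)
            (abs_div_le (hℓ z) (abs_mag_le (hℓ.lt T _) z.1)) (abs_nonneg _) (pow_nonneg hθ.1 _)
      _ = _ := mul_one _
  · rw [abs_zero]
    exact pow_nonneg hθ.1 _

theorem abs_jt_le_one (h : RT G d) (hθ : Subc d θ) (o : V) (s : ℝ) (T : Lb V) {ℓ : Slot V → ℝ}
    (hℓ : Bd ℓ) (z : Slot V) : |jt G θ o s T ℓ z| ≤ 1 :=
  (abs_jt_le h hθ o s T hℓ z).trans
    (pow_le_one₀ hθ.1 ((Subc.le h hθ).trans (by norm_num)))

omit [G.LocallyFinite] in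
theorem jt_eq_zero (o : V) {s : ℝ} (T : Lb V) (ℓ : Slot V → ℝ) {z : Slot V} (hz : s ≤ z.2) :
    jt G θ o s T ℓ z = 0 := by
  unfold jt
  rw [if_neg]
  unfold tim
  have := (T z).2.1
  intro hlt
  linarith

omit [G.LocallyFinite] in
theorem Lt_Lt (T : Lb V) (ℓ : Slot V → ℝ) {t t' : ℝ} (ht : t ≤ t') :
    Lt T (Lt T ℓ t') t = Lt T ℓ t := by
  simp only [Lt]
  rw [Set.indicator_indicator, Set.inter_eq_left.2]
  intro z hz
  exact lt_of_lt_of_le (show tim T z < t from hz) ht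

omit [G.LocallyFinite] in
theorem jt_Lt (o : V) (s : ℝ) (T : Lb V) (ℓ : Slot V → ℝ) {z : Slot V} {t : ℝ}
    (hz : tim T z < t) : jt G θ o s T (Lt T ℓ t) z = jt G θ o s T ℓ z := by
  have h1 : Lt T ℓ t z = ℓ z := Set.indicator_of_mem (show z ∈ tm t T from hz) ℓ
  unfold jt
  rw [Lt_Lt T ℓ hz.le, h1]

omit [G.LocallyFinite] in
theorem Lt_indicator (B : Set (Slot V)) (T : Lb V) (ℓ : Slot V → ℝ) (t : ℝ) :
    Lt T (B.indicator ℓ) t = B.indicator (Lt T ℓ t) := by
  unfold Lt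
  rw [Set.indicator_indicator, Set.indicator_indicator, Set.inter_comm]

omit [G.LocallyFinite] in
theorem Lm_eq (B : Set (Slot V)) (w : Slot V) (ω : Om V) :
    Lm (fun T => B ∩ tm (tim T w) T) ω = Lt ω.1 (B.indicator (Lw ω)) (tim ω.1 w) := by
  unfold Lm Lt
  rw [Set.indicator_indicator, Set.inter_comm]

omit [G.LocallyFinite] in
theorem Lm_insert (B : Set (Slot V)) {w : Slot V} (hw : w ∈ B) (ω : Om V) :
    Lm (fun T => insert w (B ∩ tm (tim T w) T)) ω =
      Function.update (Lt ω.1 (B.indicator (Lw ω)) (tim ω.1 w)) w (B.indicator (Lw ω) w) := by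
  rw [← Lm_eq]
  funext z
  by_cases hz : z = w
  · subst hz
    rw [Function.update_self, Set.indicator_of_mem hw]
    exact Set.indicator_of_mem (Set.mem_insert _ _) _
  · rw [Function.update_of_ne hz]
    unfold Lm
    by_cases hz' : z ∈ B ∩ tm (tim ω.1 w) ω.1
    · rw [Set.indicator_of_mem hz', Set.indicator_of_mem (Set.mem_insert_of_mem _ hz')]
    · rw [Set.indicator_of_notMem hz', Set.indicator_of_notMem]
      rintro (h | h)
      exacts [hz h, hz' h]

omit [G.LocallyFinite] in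
theorem mask_insert {A : Lb V → Set (Slot V)} (hA : Mask A) (w : Slot V) :
    Mask (fun T => insert w (A T)) := by
  refine ⟨fun z => ?_, ?_⟩
  · by_cases hz : z = w
    · simp [hz]
    · simpa [hz] using hA.meas z
  · obtain ⟨K, hK⟩ := hA.bdd
    refine ⟨max K (w.2 + 1), fun T z hz => ?_⟩
    rcases hz with rfl | hz
    · exact lt_max_of_lt_right (Nat.lt_succ_self _)
    · exact lt_max_of_lt_left (hK T z hz)

theorem jt_eq_sub (h : RT G d) (hθ : Subc d θ) (o : V) (s : ℝ) (B : Finset (Slot V))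
    {w : Slot V} (hw : w ∈ B) (ω : Om V) :
    jt G θ o s ω.1 ((B : Set (Slot V)).indicator (Lw ω)) w =
      if tim ω.1 w < s then
        mag G θ (Lm (fun T => insert w ((B : Set (Slot V)) ∩ tm (tim T w) T)) ω) o -
          mag G θ (Lm (fun T => (B : Set (Slot V)) ∩ tm (tim T w) T) ω) o else 0 := by
  unfold jt
  split_ifs with hs
  · have hb : Bd ((B : Set (Slot V)).indicator (Lw ω)) := (bd_Lw ω).indicator _
    rw [Lm_insert _ (Finset.mem_coe.2 hw), Lm_eq,
      mag_update h hθ (J := B) (hb.lt _ _) ?_ ?_ (hb w) o]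
    · ring
    · intro z hz
      rw [Lt_indicator]
      exact Set.indicator_of_notMem (fun h => hz (Finset.mem_coe.1 h)) _
    · exact Set.indicator_of_notMem (show w ∉ tm (tim ω.1 w) ω.1 from lt_irrefl (tim ω.1 w)) _
  · rfl

omit [G.LocallyFinite] in
theorem measurable_jt_om (o : V) (s : ℝ) (B : Set (Slot V)) (z : Slot V) :
    Measurable (fun ω : Om V => jt G θ o s ω.1 (B.indicator (Lw ω)) z) :=
  (measurable_jt (G := G) (θ := θ) o s z).comp
    (measurable_fst.prodMk ((measurable_indicator_field B).comp measurable_Lw))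

theorem orth_lt (h : RT G d) (hθ : Subc d θ) (o : V) (s : ℝ) (B : Finset (Slot V))
    (z : Slot V) {w : Slot V} (hw : w ∈ B) :
    ∫ ω, (if tim ω.1 z < tim ω.1 w then
      jt G θ o s ω.1 ((B : Set (Slot V)).indicator (Lw ω)) z *
        jt G θ o s ω.1 ((B : Set (Slot V)).indicator (Lw ω)) w else 0) ∂(Pw G θ) = 0 := by
  have hA : Mask (fun T : Lb V => (B : Set (Slot V)) ∩ tm (tim T w) T) := (mask_tm_tim w).inter _
  have hg : Measurable (fun p : Lb V × (Slot V → ℝ) =>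
      if tim p.1 z < tim p.1 w ∧ tim p.1 w < s then jt G θ o s p.1 p.2 z else 0) := by
    refine Measurable.ite ?_ (measurable_jt o s z) measurable_const
    exact (measurableSet_lt ((measurable_tim z).comp measurable_fst)
      ((measurable_tim w).comp measurable_fst)).inter
      (measurableSet_lt ((measurable_tim w).comp measurable_fst) measurable_const)
  have key := incr_orth h hθ hA (mask_insert hA w) (fun T => Set.subset_insert _ _) o hg (C := 1)
    (fun T ℓ hℓ => by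
      dsimp only
      split_ifs
      · exact abs_jt_le_one h hθ o s T hℓ z
      · simp)
  refine Eq.trans ?_ key
  refine integral_congr_ae (Eventually.of_forall fun ω => ?_)
  dsimp only
  by_cases h1 : tim ω.1 z < tim ω.1 w
  · rw [if_pos h1, jt_eq_sub h hθ o s B hw ω]
    by_cases h2 : tim ω.1 w < s
    · rw [if_pos h2, if_pos ⟨h1, h2⟩, Lm_eq, jt_Lt o s ω.1 _ h1, mul_comm]
    · rw [if_neg h2, if_neg (fun h => h2 h.2), mul_zero, mul_zero]
  · rw [if_neg h1, if_neg (fun h => h1 h.1), mul_zero]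

theorem ae_inj (h : RT G d) (θ : ℝ) : ∀ᵐ ω ∂(Pw G θ), Function.Injective (tim ω.1) := by
  have := h.countable
  exact (measurePreserving_fst (μ := nu V)
    (ν := (ising G θ).prod (nu V))).quasiMeasurePreserving.ae ae_tim_injective

theorem orth (h : RT G d) (hθ : Subc d θ) (o : V) (s : ℝ) (B : Finset (Slot V))
    {z w : Slot V} (hz : z ∈ B) (hw : w ∈ B) (hne : z ≠ w) :
    ∫ ω, jt G θ o s ω.1 ((B : Set (Slot V)).indicator (Lw ω)) z *
        jt G θ o s ω.1 ((B : Set (Slot V)).indicator (Lw ω)) w ∂(Pw G θ) = 0 := by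
  have hint : ∀ z w : Slot V, Integrable (fun ω : Om V => if tim ω.1 z < tim ω.1 w then
      jt G θ o s ω.1 ((B : Set (Slot V)).indicator (Lw ω)) z *
        jt G θ o s ω.1 ((B : Set (Slot V)).indicator (Lw ω)) w else 0) (Pw G θ) := by
    intro z w
    refine R168.integrable_of_abs_le ?_ 1 fun ω => ?_
    · exact Measurable.ite (measurableSet_lt ((measurable_tim z).comp measurable_fst)
        ((measurable_tim w).comp measurable_fst))
        ((measurable_jt_om o s _ z).mul (measurable_jt_om o s _ w)) measurable_const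
    · split_ifs
      · rw [abs_mul]
        exact mul_le_one₀ (abs_jt_le_one h hθ o s _ ((bd_Lw ω).indicator _) z) (abs_nonneg _)
          (abs_jt_le_one h hθ o s _ ((bd_Lw ω).indicator _) w)
      · simp
  have h1 := orth_lt h hθ o s B z hw
  have h2 := orth_lt h hθ o s B w hz
  have h3 := integral_add (hint z w) (hint w z)
  rw [h1, h2, add_zero] at h3
  refine Eq.trans (integral_congr_ae ?_) h3
  filter_upwards [ae_inj h θ] with ω hω
  rcases lt_trichotomy (tim ω.1 z) (tim ω.1 w) with hlt | heq | hgt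
  · rw [if_pos hlt, if_neg hlt.not_gt, add_zero]
  · exact absurd (hω heq) hne
  · rw [if_neg hgt.not_gt, if_pos hgt, zero_add, mul_comm]

theorem tail_le (h : RT G d) (hθ : Subc d θ) (o : V) (s : ℝ) {R : ℕ} (hR : ⌈s⌉₊ ≤ R) (R' : ℕ) :
    ∑ z ∈ box G o R' \ box G o R, (if (z.2 : ℝ) < s then (θ ^ G.dist o z.1) ^ 2 else 0) ≤
      ⌈s⌉₊ * (3 / 2 * ((((d : ℝ) - 1) * θ ^ 2) ^ R / (1 - ((d : ℝ) - 1) * θ ^ 2))) := by
  set q : ℝ := ((d : ℝ) - 1) * θ ^ 2 with hq
  have hq0 : 0 ≤ q := mul_nonneg (by linarith [h.two_le]) (sq_nonneg _)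
  have hq1 : q < 1 := hθ.2
  let f : ℕ → ℝ := fun n => if R ≤ n then (θ ^ n) ^ 2 else 0
  have hf : ∀ n, 0 ≤ f n := fun n => by
    simp only [f]
    split_ifs
    · exact sq_nonneg _
    · exact le_rfl
  have h1 : ∑ z ∈ box G o R' \ box G o R, (if (z.2 : ℝ) < s then (θ ^ G.dist o z.1) ^ 2 else 0) ≤
      ∑ z ∈ ball G o R' ×ˢ Finset.range ⌈s⌉₊, f (G.dist o z.1) := by
    rw [← Finset.sum_filter]
    refine le_trans (le_of_eq ?_) (Finset.sum_le_sum_of_subset_of_nonneg
      (s := (box G o R' \ box G o R).filter (fun z => (z.2 : ℝ) < s)) ?_ fun z _ _ => hf _)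
    · refine Finset.sum_congr rfl fun z hz => ?_
      rw [Finset.mem_filter, Finset.mem_sdiff, mem_box h, mem_box h] at hz
      have h2 : z.2 < R := lt_of_lt_of_le (Nat.lt_ceil.2 hz.2) hR
      have h3 : R ≤ G.dist o z.1 := by
        by_contra hc
        exact hz.1.2 ⟨by omega, h2⟩
      simp only [f, if_pos h3]
    · intro z hz
      rw [Finset.mem_filter, Finset.mem_sdiff, mem_box h] at hz
      rw [Finset.mem_product, mem_ball h, Finset.mem_range]
      exact ⟨hz.1.1.1, Nat.lt_ceil.2 hz.2⟩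
  refine h1.trans ?_
  rw [Finset.sum_product_right]
  simp only [Finset.sum_const, Finset.card_range, nsmul_eq_mul]
  refine mul_le_mul_of_nonneg_left ?_ (Nat.cast_nonneg _)
  refine (sum_ball_radial_le h o R' hf).trans (mul_le_mul_of_nonneg_left ?_ (by norm_num))
  have h2 : ∑ n ∈ Finset.range (R' + 1), ((d : ℝ) - 1) ^ n * f n =
      ∑ n ∈ Finset.Ico R (R' + 1), q ^ n := by
    have : Finset.Ico R (R' + 1) = (Finset.range (R' + 1)).filter (fun n => R ≤ n) := by
      ext n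
      simp only [Finset.mem_Ico, Finset.mem_filter, Finset.mem_range]
      tauto
    rw [this, Finset.sum_filter]
    refine Finset.sum_congr rfl fun n _ => ?_
    simp only [f]
    split_ifs
    · rw [hq, mul_pow, ← pow_mul, ← pow_mul, mul_comm n 2]
    · exact mul_zero _
  rw [h2]
  exact geom_sum_Ico_le_of_lt_one hq0 hq1

/-- The finite-volume estimate. -/
theorem fin_le (h : RT G d) (hθ : Subc d θ) (o : V) (s : ℝ) {R : ℕ} (hR : ⌈s⌉₊ ≤ R) {R' : ℕ}
    (hRR : box G o R ⊆ box G o R') :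
    ∫ ω, (mag G θ (Lt ω.1 ((box G o R' : Set (Slot V)).indicator (Lw ω)) s) o -
      jsum G θ o (box G o R) s ω.1 ((box G o R' : Set (Slot V)).indicator (Lw ω))) ^ 2 ∂(Pw G θ) ≤
      ⌈s⌉₊ * (3 / 2 * ((((d : ℝ) - 1) * θ ^ 2) ^ R / (1 - ((d : ℝ) - 1) * θ ^ 2))) := by
  have h1 : ∫ ω, (mag G θ (Lt ω.1 ((box G o R' : Set (Slot V)).indicator (Lw ω)) s) o -
      jsum G θ o (box G o R) s ω.1 ((box G o R' : Set (Slot V)).indicator (Lw ω))) ^ 2 ∂(Pw G θ) =
      ∫ ω, (∑ z ∈ box G o R' \ box G o R,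
        jt G θ o s ω.1 ((box G o R' : Set (Slot V)).indicator (Lw ω)) z) ^ 2 ∂(Pw G θ) := by
    refine integral_congr_ae ?_
    filter_upwards [ae_inj h θ] with ω hω
    rw [jsum_exact h hθ (J := box G o R') ((bd_Lw ω).indicator _)
      (fun z hz => Set.indicator_of_notMem (fun h => hz (Finset.mem_coe.1 h)) _) hω o s,
      jsum_eq, jsum_eq, ← Finset.sum_sdiff hRR, add_sub_cancel_right]
  rw [h1, integral_sum_sq _ (fun z (ω : Om V) =>
    jt G θ o s ω.1 ((box G o R' : Set (Slot V)).indicator (Lw ω)) z)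
    (fun z => measurable_jt_om o s _ z)
    (fun z ω => abs_jt_le_one h hθ o s _ ((bd_Lw ω).indicator _) z)
    (fun z hz w hw hne => orth h hθ o s _ (Finset.mem_sdiff.1 hz).1 (Finset.mem_sdiff.1 hw).1 hne)]
  refine le_trans (Finset.sum_le_sum fun z _ => ?_) (tail_le h hθ o s hR R')
  split_ifs with hz
  · have hle : ∀ ω : Om V, jt G θ o s ω.1 ((box G o R' : Set (Slot V)).indicator (Lw ω)) z ^ 2 ≤
        (θ ^ G.dist o z.1) ^ 2 := fun ω => by
      rw [← sq_abs]
      exact pow_le_pow_left₀ (abs_nonneg _) (abs_jt_le h hθ o s _ ((bd_Lw ω).indicator _) z) 2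
    calc _ ≤ ∫ _ω, (θ ^ G.dist o z.1) ^ 2 ∂(Pw G θ) :=
          integral_mono_of_nonneg (Eventually.of_forall fun ω => sq_nonneg _)
            (integrable_const _) (Eventually.of_forall hle)
      _ = _ := by simp
  · simp only [jt_eq_zero o _ _ (not_lt.1 hz)]
    simp

theorem tendsto_jt (h : RT G d) (hθ : Subc d θ) (o : V) (s : ℝ) (T : Lb V) {ℓ : Slot V → ℝ}
    (hℓ : Bd ℓ) (z : Slot V) (hg : Good G θ (Lt T ℓ (tim T z))) :
    Tendsto (fun R => jt G θ o s T ((box G o R : Set (Slot V)).indicator ℓ) z) atTop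
      (𝓝 (jt G θ o s T ℓ z)) := by
  have h1 := Good.tendsto_KK h hθ (hℓ.lt T _) hg o o z.1
  have h2 := Good.tendsto_mag h hg o z.1
  have h3 : Tendsto (fun R => if tim T z < s then
      KK G θ ((box G o R : Set (Slot V)).indicator (Lt T ℓ (tim T z))) o z.1 *
        (ℓ z / (1 + ℓ z * mag G θ ((box G o R : Set (Slot V)).indicator (Lt T ℓ (tim T z))) z.1))
      else 0) atTop (𝓝 (jt G θ o s T ℓ z)) := by
    unfold jt
    split_ifs
    · exact h1.mul (tendsto_const_nhds.div (tendsto_const_nhds.add (h2.const_mul _))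
        (add_mul_pos (hℓ z) (abs_mag_le (hℓ.lt T _) z.1)).ne')
    · exact tendsto_const_nhds
  refine h3.congr' ?_
  filter_upwards [eventually_subset_box h o {z}] with R hR
  have hz : z ∈ (box G o R : Set (Slot V)) := Finset.mem_coe.2 (hR (Finset.mem_singleton_self z))
  unfold jt
  rw [Lt_indicator, Set.indicator_of_mem hz]

theorem abs_jsum_le (h : RT G d) (hθ : Subc d θ) (o : V) (J : Finset (Slot V)) (s : ℝ) (T : Lb V)
    {ℓ : Slot V → ℝ} (hℓ : Bd ℓ) : |jsum G θ o J s T ℓ| ≤ J.card := by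
  rw [jsum_eq]
  refine (Finset.abs_sum_le_sum_abs _ _).trans ?_
  calc _ ≤ ∑ _z ∈ J, (1 : ℝ) := Finset.sum_le_sum fun z _ => abs_jt_le_one h hθ o s T hℓ z
    _ = _ := by simp

theorem tendsto_fin (h : RT G d) (hθ : Subc d θ) (o : V) (s : ℝ) (J : Finset (Slot V)) :
    Tendsto (fun R' => ∫ ω, (mag G θ (Lt ω.1 ((box G o R' : Set (Slot V)).indicator (Lw ω)) s) o -
      jsum G θ o J s ω.1 ((box G o R' : Set (Slot V)).indicator (Lw ω))) ^ 2 ∂(Pw G θ)) atTop
      (𝓝 (∫ ω, (mag G θ (Lt ω.1 (Lw ω) s) o - jsum G θ o J s ω.1 (Lw ω)) ^ 2 ∂(Pw G θ))) := by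
  have := h.countable
  refine tendsto_integral_of_dominated_convergence (fun _ => (1 + (J.card : ℝ)) ^ 2)
    (fun R' => Measurable.aestronglyMeasurable ?_) (integrable_const _)
    (fun R' => Eventually.of_forall fun ω => ?_) ?_
  · have hL : Measurable (fun ω : Om V => (box G o R' : Set (Slot V)).indicator (Lw ω)) :=
      (measurable_indicator_field _).comp measurable_Lw
    refine Measurable.pow_const (Measurable.sub ?_ ?_) 2
    · exact (measurable_mag o).comp
        (measurable_Lt.comp (measurable_const.prodMk (measurable_fst.prodMk hL)))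
    · exact (measurable_jsum o J s).comp (measurable_fst.prodMk hL)
  · rw [Real.norm_eq_abs, abs_pow]
    refine pow_le_pow_left₀ (abs_nonneg _) ((abs_sub _ _).trans (add_le_add ?_ ?_)) 2
    · exact abs_mag_le (((bd_Lw ω).indicator _).lt _ _) o
    · exact abs_jsum_le h hθ o J s _ ((bd_Lw ω).indicator _)
  · have h1 : ∀ᵐ ω ∂(Pw G θ), ∀ z : Slot V, Good G θ (Lm (fun T => tm (tim T z) T) ω) :=
      ae_all_iff.2 fun z => good_ae h hθ (mask_tm_tim z)
    filter_upwards [h1, good_ae h hθ (mask_tm s)] with ω hω hs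
    refine Tendsto.pow (Tendsto.sub ?_ ?_) 2
    · simp only [Lt_indicator]
      exact Good.tendsto_mag h hs o o
    · simp only [jsum_eq]
      exact tendsto_finsetSum _ fun z _ => tendsto_jt h hθ o s _ (bd_Lw ω) z (hω z)

end JRAux

theorem jr (h : RT G d) {θ : ℝ} (hθ : Subc d θ) (o : V) (s : ℝ) :
    Tendsto (fun R => ∫ ω, (mag G θ (Lt ω.1 (Lw ω) s) o -
      jsum G θ o (box G o R) s ω.1 (Lw ω)) ^ 2 ∂(Pw G θ)) atTop (𝓝 0) := by
  have hq0 : 0 ≤ ((d : ℝ) - 1) * θ ^ 2 := mul_nonneg (by linarith [h.two_le]) (sq_nonneg _)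
  have hlim : Tendsto (fun R : ℕ => (⌈s⌉₊ : ℝ) *
      (3 / 2 * ((((d : ℝ) - 1) * θ ^ 2) ^ R / (1 - ((d : ℝ) - 1) * θ ^ 2)))) atTop (𝓝 0) := by
    have := (((tendsto_pow_atTop_nhds_zero_of_lt_one hq0 hθ.2).div_const
      (1 - ((d : ℝ) - 1) * θ ^ 2)).const_mul (3 / 2)).const_mul (⌈s⌉₊ : ℝ)
    simpa using this
  refine squeeze_zero' (Eventually.of_forall fun R => integral_nonneg fun ω => sq_nonneg _) ?_ hlim
  filter_upwards [eventually_ge_atTop ⌈s⌉₊] with R hR
  refine le_of_tendsto (JRAux.tendsto_fin h hθ o s (box G o R)) ?_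
  filter_upwards [eventually_subset_box h o (box G o R)] with R' hR'
  exact JRAux.fin_le h hθ o s hR hR'

end Crest.Agent.R160

end
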