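import Crest.Agent.R160.PostEdge

/-!
Measurability of the posterior quantities and of the samplers.
-/

set_option autoImplicit false

open MeasureTheory unitInterval Filter Topology
open Crest.ProbabilityR Crest.ProbabilityR.Labels Crest.ProbabilityR.TreeIsing
open scoped Classical

noncomputable section

namespace Crest.Agent.R160

universe u

variable {V : Type u} {G : SimpleGraph V} [G.LocallyFinite] {d : ℕ}

variable {θ : ℝ}

namespace MeasAux

theorem measurable_tim (z : Slot V) : Measurable (fun T : Lb V => tim T z) :=
  measurable_const.add (measurable_subtype_coe.comp (measurable_pi_apply z))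

theorem measurable_eps (z : Slot V) : Measurable (fun T : Lb V => epsf (tim T z)) :=
  measurable_epsf.comp (measurable_tim z)

end MeasAux

/-! ### Measurability -/

omit [G.LocallyFinite] in
theorem measurable_post (J : Finset (Slot V)) (v : V) :
    Measurable (fun ℓ : Slot V → ℝ => post G θ J ℓ v) := by
  have hw : Measurable (fun q : (Slot V → ℝ) × (V → Bool) => wt J q.1 q.2) :=
    Finset.measurable_prod _ fun z _ => measurable_const.add
      ((measurable_spin.comp ((measurable_pi_apply z.1).comp measurable_snd)).mul
        ((measurable_pi_apply z).comp measurable_fst))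
  have hs : Measurable (fun q : (Slot V → ℝ) × (V → Bool) => spin (q.2 v) * wt J q.1 q.2) :=
    (measurable_spin.comp ((measurable_pi_apply v).comp measurable_snd)).mul hw
  exact (hs.stronglyMeasurable.integral_prod_right' (ν := ising G θ)).measurable.div
    (hw.stronglyMeasurable.integral_prod_right' (ν := ising G θ)).measurable

omit [G.LocallyFinite] in
theorem measurable_mag (v : V) : Measurable (fun ℓ : Slot V → ℝ => mag G θ ℓ v) := by
  exact ((Measurable.limsup fun R => measurable_post (box G v R) v).add
    (Measurable.liminf fun R => measurable_post (box G v R) v)).div_const 2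

omit [G.LocallyFinite] in
theorem measurable_indicator_field (A : Set (Slot V)) :
    Measurable (fun ℓ : Slot V → ℝ => A.indicator ℓ) := by
  refine measurable_pi_lambda _ fun z => ?_
  by_cases hz : z ∈ A
  · simp only [Set.indicator_of_mem hz]
    exact measurable_pi_apply z
  · simp only [Set.indicator_of_notMem hz]
    exact measurable_const

omit [G.LocallyFinite] in
theorem measurable_cav (u p : V) : Measurable (fun ℓ : Slot V → ℝ => cav G θ ℓ u p) := by
  exact (measurable_mag u).comp (measurable_indicator_field _)

theorem measurable_kap (θ : ℝ) : Measurable (kap θ) := by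
  show Measurable fun a : ℝ => (1 - a ^ 2) / (1 - θ ^ 2 * a ^ 2)
  fun_prop

theorem measurable_lam (θ : ℝ) : Measurable (lam θ) := by
  have hc : Measurable clip := by
    show Measurable fun a : ℝ => max (-(1 / 2)) (min a (1 / 2))
    fun_prop
  exact (Real.measurable_log.comp ((measurable_kap θ).comp hc)).neg

omit [G.LocallyFinite] in
theorem measurable_PP (o z : V) : Measurable (fun ℓ : Slot V → ℝ => PP G θ ℓ o z) := by
  exact Finset.measurable_prod _ fun i _ => (measurable_kap θ).comp (measurable_cav _ _)

omit [G.LocallyFinite] in
theorem measurable_KK (o z : V) : Measurable (fun ℓ : Slot V → ℝ => KK G θ ℓ o z) := by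
  exact ((measurable_const.sub ((measurable_mag o).pow_const 2)).mul_const _).mul
    (measurable_PP o z)

omit [G.LocallyFinite] in
theorem measurable_SS (N : ℕ) (o : V) : Measurable (fun ℓ : Slot V → ℝ => SS G d θ ℓ N o) := by
  exact Finset.measurable_sum _ fun x _ => (measurable_PP o x).const_mul _

theorem measurableSet_good (h : RT G d) : MeasurableSet {ℓ : Slot V → ℝ | Good G θ ℓ} := by
  have := h.countable
  have hc : MeasurableSet {ℓ : Slot V → ℝ | Conv G θ ℓ} := by
    unfold Conv
    simp only [Set.ofPred_forall]
    exact MeasurableSet.iInter fun c => MeasurableSet.iInter fun v =>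
      measurableSet_tendsto_fun (fun R => measurable_post _ _) (measurable_mag v)
  unfold Good
  simp only [Set.ofPred_and, Set.ofPred_forall]
  exact hc.inter (MeasurableSet.iInter fun u => MeasurableSet.iInter fun p =>
    MeasurableSet.iInter fun _ => measurable_indicator_field _ hc)

omit [G.LocallyFinite] in
theorem measurable_Lt :
    Measurable (fun p : ℝ × Lb V × (Slot V → ℝ) => Lt p.2.1 p.2.2 p.1) := by
  refine measurable_pi_lambda _ fun z => ?_
  simp only [Lt, Set.indicator_apply, tm, Set.mem_ofPred_eq]
  exact Measurable.ite (measurableSet_lt ((MeasAux.measurable_tim z).comp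
    (measurable_fst.comp measurable_snd)) measurable_fst)
    ((measurable_pi_apply z).comp (measurable_snd.comp measurable_snd)) measurable_const

theorem MeasAux.measurable_Lt' {Ω : Type*} [MeasurableSpace Ω] {s : Ω → ℝ} {T : Ω → Lb V}
    {ℓ : Ω → Slot V → ℝ} (hs : Measurable s) (hT : Measurable T) (hℓ : Measurable ℓ) :
    Measurable (fun ω => Lt (T ω) (ℓ ω) (s ω)) :=
  measurable_Lt.comp (hs.prodMk (hT.prodMk hℓ))

omit [G.LocallyFinite] in
theorem measurable_Ly : Measurable (fun p : Lb V × Lb V => Ly p.1 p.2) := by
  refine measurable_pi_lambda _ fun z => ?_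
  exact measurable_lk.comp (((MeasAux.measurable_eps z).comp measurable_fst).prodMk
    ((measurable_pi_apply z).comp measurable_snd))

omit [G.LocallyFinite] in
theorem measurable_Uy : Measurable (fun p : Lb V × Lb V => Uy G θ p.1 p.2) := by
  refine measurable_pi_lambda _ fun z => ?_
  exact measurable_cdq.comp ((((MeasAux.measurable_eps z).comp measurable_fst).mul
    ((measurable_mag z.1).comp (MeasAux.measurable_Lt'
      ((MeasAux.measurable_tim z).comp measurable_fst) measurable_fst measurable_Ly))).prodMk
    ((measurable_pi_apply z).comp measurable_snd))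

omit [G.LocallyFinite] in
theorem measurable_jsum (o : V) (J : Finset (Slot V)) (s : ℝ) :
    Measurable (fun p : Lb V × (Slot V → ℝ) => jsum G θ o J s p.1 p.2) := by
  refine Finset.measurable_sum _ fun z _ => ?_
  have h1 : Measurable (fun p : Lb V × (Slot V → ℝ) => Lt p.1 p.2 (tim p.1 z)) :=
    MeasAux.measurable_Lt' ((MeasAux.measurable_tim z).comp measurable_fst) measurable_fst
      measurable_snd
  have h2 : Measurable (fun p : Lb V × (Slot V → ℝ) => p.2 z) :=
    (measurable_pi_apply z).comp measurable_snd
  exact Measurable.ite (measurableSet_lt ((MeasAux.measurable_tim z).comp measurable_fst)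
    measurable_const) (((measurable_KK o z.1).comp h1).mul
      (h2.div (measurable_const.add (h2.mul ((measurable_mag z.1).comp h1))))) measurable_const

omit [G.LocallyFinite] in
theorem measurable_Yw : Measurable (Yw (V := V)) := by
  refine measurable_pi_lambda _ fun z => ?_
  have h1 : Measurable (fun ω : Om V => qt (epsf (tim ω.1 z)) (ω.2.2 z)) :=
    measurable_qt.comp (((MeasAux.measurable_eps z).comp measurable_fst).prodMk
      ((measurable_pi_apply z).comp (measurable_snd.comp measurable_snd)))
  have h2 : Measurable (fun ω : Om V => ω.2.1 z.1) :=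
    (measurable_pi_apply z.1).comp (measurable_fst.comp measurable_snd)
  exact Measurable.ite (h2 (measurableSet_singleton true)) h1
    (unitInterval.continuous_symm.measurable.comp h1)

omit [G.LocallyFinite] in
theorem measurable_Lw : Measurable (Lw (V := V)) := by
  exact measurable_Ly.comp (measurable_fst.prodMk measurable_Yw)

omit [G.LocallyFinite] in
theorem measurable_Uw : Measurable (Uw G θ) := by
  exact measurable_Uy.comp (measurable_fst.prodMk measurable_Yw)

omit [G.LocallyFinite] in
theorem measurable_Lm {A : Lb V → Set (Slot V)} (hA : ∀ z, MeasurableSet {T | z ∈ A T}) :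
    Measurable (Lm A) := by
  refine measurable_pi_lambda _ fun z => ?_
  simp only [Lm, Set.indicator_apply]
  exact Measurable.ite (measurable_fst (hA z)) ((measurable_pi_apply z).comp measurable_Lw)
    measurable_const

omit [G.LocallyFinite] in
theorem measurable_Lms (A : Set (Slot V)) (s : ℝ) : Measurable (Lms A s) := by
  exact (measurable_indicator_field A).comp
    (MeasAux.measurable_Lt' measurable_const measurable_fst measurable_Lw)

omit [G.LocallyFinite] in
theorem measurable_samp (J : Finset (Slot V)) : Measurable (samp G θ J) := by
  have key : ∀ n : ℕ, Measurable (fun ω : Lab V => (stepS G θ J ω)^[n] 0) := by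
    intro n
    induction n with
    | zero => exact measurable_const
    | succ n ih =>
      simp only [Function.iterate_succ_apply']
      refine measurable_pi_lambda _ fun z => ?_
      by_cases hz : z ∈ J
      · simp only [stepS, if_pos hz]
        exact measurable_sig.comp (((MeasAux.measurable_eps z).comp measurable_fst).prodMk
          (((measurable_mag z.1).comp (MeasAux.measurable_Lt'
            ((MeasAux.measurable_tim z).comp measurable_fst) measurable_fst ih)).prodMk
            ((measurable_pi_apply z).comp measurable_snd)))
      · simp only [stepS, if_neg hz]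
        exact measurable_const
  exact key _

omit [G.LocallyFinite] in
theorem measurable_Psi : Measurable (Psi G θ) := by
  exact measurable_pi_lambda _ fun z => Measurable.limsup fun R =>
    (measurable_pi_apply z).comp (measurable_samp _)

omit [G.LocallyFinite] in
theorem measurable_Ls_joint : Measurable (fun p : ℝ × Lab V => Ls G θ p.1 p.2) := by
  exact MeasAux.measurable_Lt' measurable_fst (measurable_fst.comp measurable_snd)
    (measurable_Psi.comp measurable_snd)

omit [G.LocallyFinite] in
theorem measurable_Ls (s : ℝ) : Measurable (Ls G θ s) := by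
  exact MeasAux.measurable_Lt' measurable_const measurable_fst measurable_Psi

omit [G.LocallyFinite] in
theorem measurable_dd_joint (θ θ' : ℝ) (v : V) :
    Measurable (fun p : ℝ × Lab V => dd G θ θ' p.1 v p.2) := by
  exact ((measurable_mag v).comp measurable_Ls_joint).sub
    ((measurable_mag v).comp measurable_Ls_joint)

omit [G.LocallyFinite] in
theorem measurable_dd (θ θ' s : ℝ) (v : V) : Measurable (dd G θ θ' s v) := by
  exact ((measurable_mag v).comp (measurable_Ls s)).sub
    ((measurable_mag v).comp (measurable_Ls s))

omit [G.LocallyFinite] in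
theorem measurable_FF_joint (θ θ' : ℝ) (o v : V) :
    Measurable (fun p : ℝ × Lab V => FF G θ θ' p.1 o v p.2) := by
  exact (((((measurable_KK o v).comp measurable_Ls_joint).sub
    ((measurable_KK o v).comp measurable_Ls_joint)).pow_const 2).const_mul 8).add
    (((((measurable_KK o v).comp measurable_Ls_joint).pow_const 2).const_mul 32).mul
      ((measurable_dd_joint θ θ' v).pow_const 2))

omit [G.LocallyFinite] in
theorem measurable_FF (θ θ' s : ℝ) (o v : V) : Measurable (FF G θ θ' s o v) := by
  exact (((((measurable_KK o v).comp (measurable_Ls s)).sub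
    ((measurable_KK o v).comp (measurable_Ls s))).pow_const 2).const_mul 8).add
    (((((measurable_KK o v).comp (measurable_Ls s)).pow_const 2).const_mul 32).mul
      ((measurable_dd θ θ' s v).pow_const 2))

omit [G.LocallyFinite] in
theorem measurePreserving_spl : MeasurePreserving (spl (V := V)) (labelMeasure V) (Pl V) := by
  have hinj : Function.Injective
      (Sum.elim (fun z : V × ℕ => (z.1, 2 * z.2)) (fun z : V × ℕ => (z.1, 2 * z.2 + 1)) :
        (V × ℕ) ⊕ (V × ℕ) → V × ℕ) := by
    rintro (⟨a, k⟩ | ⟨a, k⟩) (⟨b, l⟩ | ⟨b, l⟩) h <;>
      simp only [Sum.elim_inl, Sum.elim_inr, Prod.mk.injEq] at h <;> obtain ⟨rfl, h⟩ := h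
    · rw [show k = l by omega]
    · omega
    · omega
    · rw [show k = l by omega]
  exact (R168.measurePreserving_sumSplit.comp
    ((R168.measurePreserving_comp_inj _ hinj).comp R168.measurePreserving_uncurry_xi))

end Crest.Agent.R160

end
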