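import Crest.Agent.R160.Field

/-!
The Palm bound for the ringing times, the isometry for sums of orthogonal jumps, Gronwall.
-/

set_option autoImplicit false

open MeasureTheory unitInterval Filter Topology
open Crest.ProbabilityR Crest.ProbabilityR.Labels Crest.ProbabilityR.TreeIsing
open scoped Classical

noncomputable section

namespace Crest.Agent.R160

universe u

variable {V : Type u} {G : SimpleGraph V} [G.LocallyFinite] {d : ℕ}

namespace PalmAux

omit [G.LocallyFinite] in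
/-- Resampling the time of one slot. -/
theorem mp_upd {X : Type*} [MeasurableSpace X] (ρ : Measure X) [IsProbabilityMeasure ρ]
    (z : Slot V) :
    MeasurePreserving (fun p : I × (Lb V × X) => (Function.update p.2.1 z p.1, p.2.2))
      ((volume : Measure I).prod ((nu V).prod ρ)) ((nu V).prod ρ) := by
  have h1 := (measurePreserving_prodAssoc (volume : Measure I) (nu V) ρ).symm
    MeasurableEquiv.prodAssoc
  have h2 := (Measure.measurePreserving_swap (μ := (volume : Measure I)) (ν := nu V)).prod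
    (MeasurePreserving.id ρ)
  have h3 := (R168.measurePreserving_update (A := Slot V) z).prod (MeasurePreserving.id ρ)
  exact h3.comp (h2.comp h1)

omit [G.LocallyFinite] in
theorem int_upd {X : Type*} [MeasurableSpace X] (ρ : Measure X) [IsProbabilityMeasure ρ]
    (z : Slot V) {f : Lb V × X → ℝ} (hf : Measurable f) (C : ℝ) (hC : ∀ ω, |f ω| ≤ C) :
    Integrable (fun r : I => ∫ ω, f (Function.update ω.1 z r, ω.2) ∂((nu V).prod ρ)) ∧
    ∫ ω, f ω ∂((nu V).prod ρ) =
      ∫ r : I, ∫ ω, f (Function.update ω.1 z r, ω.2) ∂((nu V).prod ρ) := by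
  have h := mp_upd ρ z
  have hi : Integrable (fun p : I × (Lb V × X) => f (Function.update p.2.1 z p.1, p.2.2))
      ((volume : Measure I).prod ((nu V).prod ρ)) :=
    R168.integrable_of_abs_le (hf.comp h.measurable) C fun _ => hC _
  refine ⟨hi.integral_prod_left, ?_⟩
  rw [← integral_prod _ hi, ← integral_map h.measurable.aemeasurable hf.aestronglyMeasurable,
    h.map_eq]

theorem sum_int_le (K : ℕ) {s₁ s₂ c : ℝ} (hs : s₁ ≤ s₂) (hc : 0 ≤ c) :
    ∑ k ∈ Finset.range K, ∫ r : I, (if s₁ ≤ (k : ℝ) + r ∧ (k : ℝ) + r < s₂ then c else 0) ≤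
      (s₂ - s₁) * c := by
  set g : ℝ → ℝ := (Set.Ico s₁ s₂).indicator fun _ => c with hg
  have hgi : Integrable g := (integrableOn_const (by simp)).integrable_indicator measurableSet_Ico
  have hg0 : ∀ x, 0 ≤ g x := fun x => Set.indicator_nonneg (fun _ _ => hc) x
  have e : ∀ k : ℕ, ∫ r : I, (if s₁ ≤ (k : ℝ) + r ∧ (k : ℝ) + r < s₂ then c else 0) =
      ∫ x in (k : ℝ)..((k + 1 : ℕ) : ℝ), g x := by
    intro k
    have e1 : ∫ r : I, (if s₁ ≤ (k : ℝ) + r ∧ (k : ℝ) + r < s₂ then c else 0) =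
        ∫ r : I, g ((k : ℝ) + r) := by
      simp only [hg, Set.indicator_apply, Set.mem_Ico]
    rw [e1, integral_subtype measurableSet_Icc (fun x => g ((k : ℝ) + x)),
      integral_Icc_eq_integral_Ioc, ← intervalIntegral.integral_of_le zero_le_one,
      intervalIntegral.integral_comp_add_left]
    simp
  simp only [e]
  rw [intervalIntegral.sum_integral_adjacent_intervals (a := fun k : ℕ => (k : ℝ))
    fun k _ => hgi.intervalIntegrable, intervalIntegral.integral_of_le (by simp)]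
  refine (setIntegral_le_integral hgi (Eventually.of_forall hg0)).trans ?_
  rw [hg, integral_indicator measurableSet_Ico, setIntegral_const, Real.volume_real_Ico_of_le hs,
    smul_eq_mul]

theorem step {x y y' g : ℝ} (hx0 : 0 ≤ x) (hx : x ≤ 1 / 2) (hy' : 0 ≤ y')
    (h : y' ≤ y + x * y' + g) : y' ≤ Real.exp (2 * x) * (y + g) := by
  have h1 := Real.add_one_le_exp (2 * x)
  have h2 : 1 ≤ Real.exp (2 * x) * (1 - x) := by nlinarith
  have h3 : (1 - x) * y' ≤ y + g := by linarith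
  calc y' ≤ Real.exp (2 * x) * (1 - x) * y' := by nlinarith
    _ = Real.exp (2 * x) * ((1 - x) * y') := by ring
    _ ≤ _ := by gcongr

theorem disc (u x Φ : ℕ → ℝ) {g : ℝ} (hg : 0 ≤ g) (n : ℕ) (h0 : ∀ i ≤ n, 0 ≤ u i)
    (hx : ∀ i < n, 0 ≤ x i ∧ x i ≤ 1 / 2) (hu : ∀ i < n, u (i + 1) ≤ u i + x i * u (i + 1) + g)
    (hΦ0 : 0 ≤ Φ 0) (hΦ : ∀ i < n, Φ i + 2 * x i ≤ Φ (i + 1)) :
    0 ≤ Φ n ∧ u n ≤ Real.exp (Φ n) * (u 0 + n * g) := by
  induction n with
  | zero =>
    refine ⟨hΦ0, ?_⟩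
    have := Real.one_le_exp hΦ0
    have := h0 0 le_rfl
    simp only [Nat.cast_zero, zero_mul, add_zero]
    nlinarith
  | succ n ih =>
    obtain ⟨i1, i2⟩ := ih (fun i hi => h0 i (by omega)) (fun i hi => hx i (by omega))
      (fun i hi => hu i (by omega)) (fun i hi => hΦ i (by omega))
    obtain ⟨x0, x1⟩ := hx n (by omega)
    have k1 := hΦ n (by omega)
    refine ⟨by linarith, ?_⟩
    have k2 := step x0 x1 (h0 _ le_rfl) (hu n (by omega))
    have k3 := Real.one_le_exp i1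
    have k4 := h0 0 (by omega)
    calc u (n + 1) ≤ Real.exp (2 * x n) * (u n + g) := k2
      _ ≤ Real.exp (2 * x n) * (Real.exp (Φ n) * (u 0 + n * g) + Real.exp (Φ n) * g) := by
          gcongr
          nlinarith
      _ = Real.exp (Φ n + 2 * x n) * (u 0 + (n + 1 : ℕ) * g) := by
          rw [Real.exp_add]; push_cast; ring
      _ ≤ _ := by gcongr

theorem gron_log' (u : ℝ → ℝ) {a b α β γ : ℝ} (ha : 0 < a) (hab : a ≤ b) (hα : 0 ≤ α)
    (hβ : 0 ≤ β) (hγ : 0 ≤ γ) (h0 : ∀ s ∈ Set.Icc a b, 0 ≤ u s)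
    (hu : ∀ s₁ s₂, a ≤ s₁ → s₁ ≤ s₂ → s₂ ≤ b →
      u s₂ ≤ u s₁ + (s₂ - s₁) * ((α / s₁ + β) * u s₂ + γ)) :
    u b ≤ Real.exp (2 * α * (Real.log (b / a) + 1) + 2 * β * (b - a)) * (u a + (b - a) * γ) := by
  obtain ⟨n, hn⟩ := exists_nat_gt (2 * (b - a) * (α / a + β) + (b - a) / a)
  have hba : 0 ≤ b - a := by linarith
  have t1 : 0 ≤ 2 * (b - a) * (α / a + β) := by positivity
  have t2 : 0 ≤ (b - a) / a := by positivity
  have hn0 : (0 : ℝ) < n := by linarith
  set h : ℝ := (b - a) / n with hh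
  have hh0 : 0 ≤ h := by positivity
  have hnh : n * h = b - a := by rw [hh]; field_simp
  have hha : h / a ≤ 1 := by
    rw [hh, div_right_comm, div_le_one hn0]; linarith
  have hx : h * (α / a + β) ≤ 1 / 2 := by
    rw [hh, div_mul_eq_mul_div, div_le_iff₀ hn0]; linarith
  set s : ℕ → ℝ := fun i => a + i * h with hs
  have hs1 : ∀ i, a ≤ s i := fun i => le_add_of_nonneg_right (by positivity)
  have hs2 : ∀ i ≤ n, s i ≤ b := fun i hi => by
    have : (i : ℝ) * h ≤ n * h := by gcongr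
    simp only [hs]; linarith
  have hs3 : ∀ i, s (i + 1) = s i + h := fun i => by simp only [hs]; push_cast; ring
  have hs0 : s 0 = a := by simp [hs]
  have hsn : s n = b := by simp only [hs]; linarith
  have key := (disc (fun i => u (s i)) (fun i => h * (α / s i + β))
    (fun i => 2 * α * (Real.log (s i / a) + h / a - h / s i) + 2 * β * (s i - a))
    (g := h * γ) (by positivity) n (fun i hi => h0 _ ⟨hs1 i, hs2 i hi⟩)
    (fun i _ => by
      have := hs1 i
      have hp : 0 < s i := by linarith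
      refine ⟨by positivity, le_trans ?_ hx⟩
      gcongr)
    (fun i hi => by
      have := hu (s i) (s (i + 1)) (hs1 i) (by rw [hs3]; linarith) (hs2 _ hi)
      rw [show s (i + 1) - s i = h by rw [hs3]; ring] at this
      linarith)
    (by simp [hs0, ha.ne'])
    (fun i _ => by
      have hp : 0 < s i := ha.trans_le (hs1 i)
      have hp' : 0 < s (i + 1) := ha.trans_le (hs1 _)
      have k1 : Real.log (s i / a) + h / s (i + 1) ≤ Real.log (s (i + 1) / a) := by
        have k2 := Real.log_le_sub_one_of_pos (div_pos hp hp')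
        rw [Real.log_div hp.ne' hp'.ne'] at k2
        rw [Real.log_div hp.ne' ha.ne', Real.log_div hp'.ne' ha.ne']
        have k3 : s i / s (i + 1) - 1 = -(h / s (i + 1)) := by
          field_simp
          rw [hs3]; ring
        linarith
      have k4 : h * (α / s i) = α * (h / s i) := by ring
      have k5 := mul_le_mul_of_nonneg_left k1 hα
      rw [hs3 i] at k5 ⊢
      nlinarith)).2
  simp only [hs0, hsn] at key
  refine key.trans ?_
  rw [← mul_assoc, hnh]
  have := h0 a ⟨le_rfl, hab⟩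
  have hb : 0 ≤ h / b := div_nonneg hh0 (by linarith)
  gcongr
  linarith

end PalmAux

omit [G.LocallyFinite] in
/-- Evaluating at the ringing time of a slot costs at most a factor two. -/
theorem palm_sum {X : Type*} [MeasurableSpace X] (ρ : Measure X) [IsProbabilityMeasure ρ]
    (B : Finset V) (K : ℕ) (F : V → ℝ → Lb V × X → ℝ)
    (hF : ∀ v, Measurable (fun p : ℝ × (Lb V × X) => F v p.1 p.2)) {C : ℝ}
    (h0 : ∀ v s ω, 0 ≤ F v s ω) (hC : ∀ v s ω, F v s ω ≤ C)
    (hloc : ∀ v s (T : Lb V) x (z : Slot V) (r : I), s ≤ tim T z → s ≤ (z.2 : ℝ) + (r : ℝ) →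
      F v s (Function.update T z r, x) = F v s (T, x))
    {s₁ s₂ b : ℝ} (hs : s₁ ≤ s₂) (hb : 0 ≤ b)
    (hB : ∀ s ∈ Set.Ico s₁ s₂, epsf s ^ 2 * ∑ v ∈ B, ∫ ω, F v s ω ∂((nu V).prod ρ) ≤ b) :
    ∑ z ∈ B ×ˢ Finset.range K, ∫ ω, (if s₁ ≤ tim ω.1 z ∧ tim ω.1 z < s₂ then
      epsf (tim ω.1 z) ^ 2 * F z.1 (tim ω.1 z) ω else 0) ∂((nu V).prod ρ) ≤ 2 * (s₂ - s₁) * b := by
  have htim : ∀ (T : Lb V) (z : Slot V) (r : I), tim (Function.update T z r) z = (z.2 : ℝ) + r :=
    fun T z r => by simp [tim]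
  have hFs : ∀ v s, Measurable (F v s) := fun v s => (hF v).comp measurable_prodMk_left
  have hFC : ∀ v s ω, |F v s ω| ≤ C := fun v s ω => by rw [abs_of_nonneg (h0 v s ω)]; exact hC v s ω
  have two : ∀ (z : Slot V) (r : I), (r : ℝ) ≤ 1 / 2 →
      ∫ ω, F z.1 ((z.2 : ℝ) + r) (Function.update ω.1 z r, ω.2) ∂((nu V).prod ρ) ≤
        2 * ∫ ω, F z.1 ((z.2 : ℝ) + r) ω ∂((nu V).prod ρ) := by
    intro z r hr
    obtain ⟨hi, he⟩ := PalmAux.int_upd ρ z (hFs z.1 ((z.2 : ℝ) + r)) C (hFC _ _)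
    set g := ∫ ω, F z.1 ((z.2 : ℝ) + r) (Function.update ω.1 z r, ω.2) ∂((nu V).prod ρ) with hg
    have hg0 : 0 ≤ g := integral_nonneg fun ω => h0 _ _ _
    have k1 : ∫ _ in Set.Ici r, g = ∫ r' in Set.Ici r,
        ∫ ω, F z.1 ((z.2 : ℝ) + r) (Function.update ω.1 z r', ω.2) ∂((nu V).prod ρ) := by
      refine setIntegral_congr_fun measurableSet_Ici fun r' hr' => ?_
      refine integral_congr_ae (Eventually.of_forall fun ω => ?_)
      have hr'' : (r : ℝ) ≤ r' := hr'
      have := hloc z.1 ((z.2 : ℝ) + r) (Function.update ω.1 z r) ω.2 z r' (htim _ _ _).ge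
        (by linarith)
      rw [Function.update_idem] at this
      exact this.symm
    have k2 := setIntegral_le_integral (s := Set.Ici r) hi
      (Eventually.of_forall fun r' => integral_nonneg fun ω => h0 _ _ _)
    rw [← k1, ← he, setIntegral_const, Measure.real, unitInterval.volume_Ici,
      ENNReal.toReal_ofReal (by linarith), smul_eq_mul] at k2
    nlinarith
  have hone : ∀ z : Slot V,
      Integrable (fun r : I => if s₁ ≤ (z.2 : ℝ) + r ∧ (z.2 : ℝ) + r < s₂ then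
        epsf ((z.2 : ℝ) + r) ^ 2 *
          ∫ ω, F z.1 ((z.2 : ℝ) + r) (Function.update ω.1 z r, ω.2) ∂((nu V).prod ρ) else 0) ∧
      ∫ ω, (if s₁ ≤ tim ω.1 z ∧ tim ω.1 z < s₂ then
        epsf (tim ω.1 z) ^ 2 * F z.1 (tim ω.1 z) ω else 0) ∂((nu V).prod ρ) =
      ∫ r : I, (if s₁ ≤ (z.2 : ℝ) + r ∧ (z.2 : ℝ) + r < s₂ then
        epsf ((z.2 : ℝ) + r) ^ 2 *
          ∫ ω, F z.1 ((z.2 : ℝ) + r) (Function.update ω.1 z r, ω.2) ∂((nu V).prod ρ) else 0) := by
    intro z
    have hm : Measurable fun ω : Lb V × X => tim ω.1 z := (measurable_tim z).comp measurable_fst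
    have := PalmAux.int_upd ρ z (f := fun ω => if s₁ ≤ tim ω.1 z ∧ tim ω.1 z < s₂ then
        epsf (tim ω.1 z) ^ 2 * F z.1 (tim ω.1 z) ω else 0)
      (Measurable.ite ((measurableSet_le measurable_const hm).inter
        (measurableSet_lt hm measurable_const))
        (((measurable_epsf.comp hm).pow_const 2).mul ((hF z.1).comp (hm.prodMk measurable_id)))
        measurable_const) |C| (fun ω => by
          split_ifs
          · have e1 := epsf_nonneg (tim ω.1 z)
            have e2 := epsf_le (tim ω.1 z)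
            have e3 : epsf (tim ω.1 z) ^ 2 ≤ 1 := by nlinarith
            have e4 := hFC z.1 (tim ω.1 z) ω
            rw [abs_mul, abs_of_nonneg (sq_nonneg _)]
            exact (mul_le_mul e3 (e4.trans (le_abs_self C)) (abs_nonneg _) zero_le_one).trans_eq
              (one_mul _)
          · simp)
    have e : ∀ r : I, ∫ ω, (if s₁ ≤ (z.2 : ℝ) + r ∧ (z.2 : ℝ) + r < s₂ then
        epsf ((z.2 : ℝ) + r) ^ 2 * F z.1 ((z.2 : ℝ) + r) (Function.update ω.1 z r, ω.2) else 0)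
          ∂((nu V).prod ρ) = if s₁ ≤ (z.2 : ℝ) + r ∧ (z.2 : ℝ) + r < s₂ then
        epsf ((z.2 : ℝ) + r) ^ 2 *
          ∫ ω, F z.1 ((z.2 : ℝ) + r) (Function.update ω.1 z r, ω.2) ∂((nu V).prod ρ) else 0 := by
      intro r
      split_ifs
      · exact integral_const_mul _ _
      · simp
    simp only [htim, e] at this
    exact this
  simp only [fun z => (hone z).2]
  rw [Finset.sum_product_right]
  refine le_trans (Finset.sum_le_sum fun k _ => ?_)
    ((PalmAux.sum_int_le K (c := 2 * b) hs (by linarith)).trans_eq (by ring))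
  rw [← integral_finsetSum _ fun v _ => (hone (v, k)).1]
  have hm : Measurable fun r : I => (k : ℝ) + r := by fun_prop
  refine integral_mono_ae (integrable_finsetSum _ fun v _ => (hone (v, k)).1)
    (R168.integrable_of_abs_le (Measurable.ite ((measurableSet_le measurable_const hm).inter
      (measurableSet_lt hm measurable_const)) measurable_const measurable_const) |2 * b|
      fun r => by split_ifs <;> simp only [abs_zero, abs_nonneg, le_refl]) ?_
  filter_upwards [Measure.ae_ne (volume : Measure I) 1] with r hr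
  split_ifs with hk
  · by_cases hr2 : (r : ℝ) ≤ 1 / 2
    · have := hB _ hk
      rw [Finset.mul_sum] at this
      refine le_trans (Finset.sum_le_sum fun v _ => ?_)
        ((Finset.mul_sum B _ 2).symm.trans_le (mul_le_mul_of_nonneg_left this zero_le_two))
      have := mul_le_mul_of_nonneg_left (two (v, k) r hr2) (sq_nonneg (epsf ((k : ℝ) + r)))
      linarith
    · have hr1 : (r : ℝ) < 1 := lt_of_le_of_ne r.2.2 fun h => hr (Subtype.ext h)
      rw [epsf_eq_zero k (not_le.1 hr2) hr1]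
      simpa using hb
  · simp

omit [G.LocallyFinite] in
/-- The mean square of a limit of sums of orthogonal jumps. -/
theorem iso_tendsto [Countable V] {X : Type*} [MeasurableSpace X] (ρ : Measure X)
    [IsProbabilityMeasure ρ] (J : ℕ → Finset (Slot V)) (D : Slot V → Lb V × X → ℝ)
    (hD : ∀ z, Measurable (D z)) {C : ℝ} (hDb : ∀ z ω, |D z ω| ≤ C)
    (horth : ∀ z w (E : Set (Lb V)), MeasurableSet E → (∀ T ∈ E, tim T z < tim T w) →
      ∫ ω, (if ω.1 ∈ E then D z ω * D w ω else 0) ∂((nu V).prod ρ) = 0)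
    (δ : Lb V × X → ℝ) (hδ : Measurable δ) (hδb : ∀ ω, |δ ω| ≤ C) (s : ℝ)
    (happ : Tendsto (fun R => ∫ ω, (δ ω - ∑ z ∈ J R, if tim ω.1 z < s then D z ω else 0) ^ 2
      ∂((nu V).prod ρ)) atTop (𝓝 0)) :
    Tendsto (fun R => ∑ z ∈ J R, ∫ ω, (if tim ω.1 z < s then D z ω ^ 2 else 0) ∂((nu V).prod ρ))
      atTop (𝓝 (∫ ω, δ ω ^ 2 ∂((nu V).prod ρ))) := by
  have hm : ∀ z, Measurable fun ω : Lb V × X => tim ω.1 z := fun z =>
    (measurable_tim z).comp measurable_fst
  set d : Slot V → Lb V × X → ℝ := fun z ω => if tim ω.1 z < s then D z ω else 0 with hd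
  have hdm : ∀ z, Measurable (d z) := fun z =>
    Measurable.ite (measurableSet_lt (hm z) measurable_const) (hD z) measurable_const
  have hdb : ∀ z ω, |d z ω| ≤ |C| := fun z ω => by
    simp only [hd]
    split_ifs
    · exact (hDb z ω).trans (le_abs_self C)
    · simp
  have hdd : ∀ z w, Integrable (fun ω => d z ω * d w ω) ((nu V).prod ρ) := fun z w =>
    R168.integrable_of_abs_le ((hdm z).mul (hdm w)) (|C| * |C|) fun ω => by
      rw [abs_mul]
      exact mul_le_mul (hdb z ω) (hdb w ω) (abs_nonneg _) (abs_nonneg _)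
  have hE : ∀ z w, MeasurableSet {T : Lb V | tim T z < tim T w ∧ tim T w < s} := fun z w =>
    (measurableSet_lt (measurable_tim z) (measurable_tim w)).inter
      (measurableSet_lt (measurable_tim w) measurable_const)
  have hEi : ∀ z w (E : Set (Lb V)), MeasurableSet E → Integrable (fun ω : Lb V × X =>
      if ω.1 ∈ E then D z ω * D w ω else 0) ((nu V).prod ρ) := fun z w E hE =>
    R168.integrable_of_abs_le (Measurable.ite (measurable_fst hE) ((hD z).mul (hD w))
      measurable_const) (|C| * |C|) fun ω => by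
      split_ifs
      · rw [abs_mul]
        exact mul_le_mul ((hDb z ω).trans (le_abs_self C)) ((hDb w ω).trans (le_abs_self C))
          (abs_nonneg _) (abs_nonneg _)
      · rw [abs_zero]; positivity
  have cross : ∀ z w, z ≠ w → ∫ ω, d z ω * d w ω ∂((nu V).prod ρ) = 0 := by
    intro z w hzw
    have k1 := horth z w _ (hE z w) fun T hT => hT.1
    have k2 := horth w z _ (hE w z) fun T hT => hT.1
    rw [← add_zero (0 : ℝ)]
    nth_rewrite 1 [← k1]
    nth_rewrite 2 [← k2]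
    rw [← integral_add (hEi z w _ (hE z w)) (hEi w z _ (hE w z))]
    refine integral_congr_ae ?_
    filter_upwards [(measurePreserving_fst (μ := nu V) (ν := ρ)).quasiMeasurePreserving.ae
      (ae_tim_injective (V := V))] with ω hω
    have hne : tim ω.1 z ≠ tim ω.1 w := fun h => hzw (hω h)
    simp only [hd]
    rcases lt_or_gt_of_ne hne with h | h
    · by_cases hw : tim ω.1 w < s
      · simp [h, hw, h.trans hw, h.not_gt]
      · simp [hw, h.not_gt]
    · by_cases hz : tim ω.1 z < s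
      · simp [h, hz, h.trans hz, h.not_gt, mul_comm]
      · simp [hz, h.not_gt]
  have sq : ∀ R, ∑ z ∈ J R, ∫ ω, (if tim ω.1 z < s then D z ω ^ 2 else 0) ∂((nu V).prod ρ) =
      ∫ ω, (∑ z ∈ J R, d z ω) ^ 2 ∂((nu V).prod ρ) := by
    intro R
    simp only [sq, Finset.sum_mul_sum]
    rw [integral_finsetSum _ fun z _ => integrable_finsetSum _ fun w _ => hdd z w]
    refine Finset.sum_congr rfl fun z hz => ?_
    rw [integral_finsetSum _ fun w _ => hdd z w,
      Finset.sum_eq_single_of_mem z hz fun w _ hw => cross z w hw.symm]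
    refine integral_congr_ae (Eventually.of_forall fun ω => ?_)
    simp only [hd]
    split_ifs <;> simp
  simp only [sq]
  have hSm : ∀ R, Measurable fun ω => ∑ z ∈ J R, d z ω := fun R =>
    Finset.measurable_sum _ fun z _ => hdm z
  have hSb : ∀ R ω, |∑ z ∈ J R, d z ω| ≤ (J R).card * |C| := fun R ω =>
    (Finset.abs_sum_le_sum_abs _ _).trans
      ((Finset.sum_le_card_nsmul _ _ _ fun z _ => hdb z ω).trans_eq (nsmul_eq_mul _ _))
  have hsqi : ∀ (f : Lb V × X → ℝ) (c : ℝ), Measurable f → (∀ ω, |f ω| ≤ c) →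
      Integrable (fun ω => f ω ^ 2) ((nu V).prod ρ) := fun f c hf hc =>
    R168.integrable_of_abs_le (hf.pow_const 2) (c ^ 2) fun ω => by
      rw [abs_pow]; gcongr; exact hc ω
  have i1 := hsqi δ C hδ hδb
  have i2 := fun R => hsqi _ _ (hSm R) (hSb R)
  have i3 := fun R => hsqi (fun ω => δ ω - ∑ z ∈ J R, d z ω) (C + (J R).card * |C|)
    (hδ.sub (hSm R)) fun ω => (abs_sub _ _).trans (add_le_add (hδb ω) (hSb R ω))
  rw [Metric.tendsto_nhds]
  intro ε hε
  set η : ℝ := ε / (2 * (C ^ 2 + 1)) with hη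
  have hη0 : 0 < η := by positivity
  have hηC : η * C ^ 2 ≤ ε / 2 := by
    rw [hη, div_mul_eq_mul_div, div_le_div_iff₀ (by positivity) two_pos]
    nlinarith
  have hlim := happ.const_mul (1 + η⁻¹)
  rw [mul_zero] at hlim
  filter_upwards [hlim.eventually (gt_mem_nhds (half_pos hε))] with R hR
  rw [Real.dist_eq, ← integral_sub (i2 R) i1]
  refine (abs_integral_le_integral_abs.trans ?_).trans_lt
    (show η * C ^ 2 + (1 + η⁻¹) * ∫ ω, (δ ω - ∑ z ∈ J R, d z ω) ^ 2 ∂((nu V).prod ρ) < ε by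
      linarith)
  have e : η * C ^ 2 + (1 + η⁻¹) * ∫ ω, (δ ω - ∑ z ∈ J R, d z ω) ^ 2 ∂((nu V).prod ρ) =
      ∫ ω, (η * C ^ 2 + (1 + η⁻¹) * (δ ω - ∑ z ∈ J R, d z ω) ^ 2) ∂((nu V).prod ρ) := by
    rw [integral_add (integrable_const _) ((i3 R).const_mul _), integral_const_mul (1 + η⁻¹)]
    simp
  rw [e]
  refine integral_mono ((i2 R).sub i1).abs ((integrable_const _).add ((i3 R).const_mul _))
    fun ω => ?_
  have hδ2 : δ ω ^ 2 ≤ C ^ 2 := by
    rw [← sq_abs (δ ω)]; gcongr; exact hδb ω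
  have hδ3 := mul_le_mul_of_nonneg_left hδ2 hη0.le
  change |(∑ z ∈ J R, d z ω) ^ 2 - δ ω ^ 2| ≤ η * C ^ 2 + (1 + η⁻¹) * (δ ω - ∑ z ∈ J R, d z ω) ^ 2
  generalize ∑ z ∈ J R, d z ω = S
  have a1 : 0 ≤ η⁻¹ * (η * δ ω + (δ ω - S)) ^ 2 := by positivity
  have a2 : 0 ≤ η⁻¹ * (η * δ ω - (δ ω - S)) ^ 2 := by positivity
  have a3 : η⁻¹ * (η * δ ω + (δ ω - S)) ^ 2 =
      η * δ ω ^ 2 + 2 * δ ω * (δ ω - S) + η⁻¹ * (δ ω - S) ^ 2 := by field_simp; ring
  have a4 : η⁻¹ * (η * δ ω - (δ ω - S)) ^ 2 =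
      η * δ ω ^ 2 - 2 * δ ω * (δ ω - S) + η⁻¹ * (δ ω - S) ^ 2 := by field_simp; ring
  rw [abs_le]
  constructor <;> nlinarith [sq_nonneg (δ ω - S)]

omit [G.LocallyFinite] in
/-- Monotonicity and increments of the mean square of a process with orthogonal jumps. -/
theorem iso_incr [Countable V] {X : Type*} [MeasurableSpace X] (ρ : Measure X)
    [IsProbabilityMeasure ρ] (J : ℕ → Finset (Slot V)) (D : Slot V → Lb V × X → ℝ)
    (hD : ∀ z, Measurable (D z)) {C : ℝ} (hDb : ∀ z ω, |D z ω| ≤ C)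
    (horth : ∀ z w (E : Set (Lb V)), MeasurableSet E → (∀ T ∈ E, tim T z < tim T w) →
      ∫ ω, (if ω.1 ∈ E then D z ω * D w ω else 0) ∂((nu V).prod ρ) = 0)
    (δ : ℝ → Lb V × X → ℝ) (hδ : ∀ s, Measurable (δ s)) (hδb : ∀ s ω, |δ s ω| ≤ C)
    {s₁ s₂ : ℝ} (hs : s₁ ≤ s₂)
    (happ : ∀ s, s = s₁ ∨ s = s₂ → Tendsto (fun R => ∫ ω, (δ s ω -
      ∑ z ∈ J R, if tim ω.1 z < s then D z ω else 0) ^ 2 ∂((nu V).prod ρ)) atTop (𝓝 0)) :
    ∫ ω, δ s₁ ω ^ 2 ∂((nu V).prod ρ) ≤ ∫ ω, δ s₂ ω ^ 2 ∂((nu V).prod ρ) ∧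
    ∀ b : ℝ, (∀ R, ∑ z ∈ J R, ∫ ω, (if s₁ ≤ tim ω.1 z ∧ tim ω.1 z < s₂ then D z ω ^ 2 else 0)
        ∂((nu V).prod ρ) ≤ b) →
      ∫ ω, δ s₂ ω ^ 2 ∂((nu V).prod ρ) ≤ ∫ ω, δ s₁ ω ^ 2 ∂((nu V).prod ρ) + b := by
  have t1 := iso_tendsto ρ J D hD hDb horth (δ s₁) (hδ s₁) (hδb s₁) s₁ (happ s₁ (Or.inl rfl))
  have t2 := iso_tendsto ρ J D hD hDb horth (δ s₂) (hδ s₂) (hδb s₂) s₂ (happ s₂ (Or.inr rfl))
  have hm : ∀ z, Measurable fun ω : Lb V × X => tim ω.1 z := fun z =>
    (measurable_tim z).comp measurable_fst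
  have hi : ∀ z (p : Lb V × X → Prop) [DecidablePred p], MeasurableSet {ω | p ω} →
      Integrable (fun ω => if p ω then D z ω ^ 2 else 0) ((nu V).prod ρ) := fun z p _ hp =>
    R168.integrable_of_abs_le (Measurable.ite hp ((hD z).pow_const 2) measurable_const) (C ^ 2)
      fun ω => by
        split_ifs
        · rw [abs_pow]; gcongr; exact hDb z ω
        · rw [abs_zero]; positivity
  have e : ∀ R, ∑ z ∈ J R, ∫ ω, (if tim ω.1 z < s₂ then D z ω ^ 2 else 0) ∂((nu V).prod ρ) =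
      ∑ z ∈ J R, ∫ ω, (if tim ω.1 z < s₁ then D z ω ^ 2 else 0) ∂((nu V).prod ρ) +
      ∑ z ∈ J R, ∫ ω, (if s₁ ≤ tim ω.1 z ∧ tim ω.1 z < s₂ then D z ω ^ 2 else 0)
        ∂((nu V).prod ρ) := by
    intro R
    rw [← Finset.sum_add_distrib]
    refine Finset.sum_congr rfl fun z _ => ?_
    rw [← integral_add (hi z _ (measurableSet_lt (hm z) measurable_const))
      (hi z (fun ω => s₁ ≤ tim ω.1 z ∧ tim ω.1 z < s₂)
        ((measurableSet_le measurable_const (hm z)).inter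
          (measurableSet_lt (hm z) measurable_const)))]
    refine integral_congr_ae (Eventually.of_forall fun ω => ?_)
    by_cases h1 : tim ω.1 z < s₁
    · simp [h1, h1.trans_le hs, h1.not_ge]
    · simp [h1, not_lt.1 h1]
  refine ⟨le_of_tendsto_of_tendsto' t1 t2 fun R => ?_, fun b hb =>
    le_of_tendsto_of_tendsto' t2 (t1.add_const b) fun R => ?_⟩
  · rw [e]
    exact le_add_of_nonneg_right (Finset.sum_nonneg fun z _ => integral_nonneg fun ω => by
      dsimp only
      split_ifs <;> positivity)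
  · rw [e]
    linarith [hb R]

/-- Gronwall's inequality from increments. -/
theorem gron (u : ℝ → ℝ) {a b β γ : ℝ} (hab : a ≤ b) (hβ : 0 ≤ β) (hγ : 0 ≤ γ)
    (h0 : ∀ s ∈ Set.Icc a b, 0 ≤ u s)
    (hu : ∀ s₁ s₂, a ≤ s₁ → s₁ ≤ s₂ → s₂ ≤ b → u s₂ ≤ u s₁ + (s₂ - s₁) * (β * u s₂ + γ)) :
    u b ≤ Real.exp (2 * β * (b - a)) * (u a + (b - a) * γ) := by
  have := PalmAux.gron_log' (fun s => u (s + (a - 1))) (a := 1) (b := b - a + 1) (α := 0) (β := β)
    (γ := γ) one_pos (by linarith) le_rfl hβ hγ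
    (fun s hs => h0 _ ⟨by linarith [hs.1], by linarith [hs.2]⟩)
    (fun s₁ s₂ h1 h2 h3 => by
      have := hu (s₁ + (a - 1)) (s₂ + (a - 1)) (by linarith) (by linarith) (by linarith)
      simpa using this)
  simpa using this

/-- Gronwall's inequality with a rate of order `1/s`. -/
theorem gron_log (u : ℝ → ℝ) {a b α β γ : ℝ} (ha : 0 < a) (hab : a ≤ b) (hα : 0 ≤ α)
    (hβ : 0 ≤ β) (hγ : 0 ≤ γ) (h0 : ∀ s ∈ Set.Icc a b, 0 ≤ u s)
    (hu : ∀ s₁ s₂, a ≤ s₁ → s₁ ≤ s₂ → s₂ ≤ b →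
      u s₂ ≤ u s₁ + (s₂ - s₁) * ((α / s₁ + β) * u s₂ + γ)) :
    u b ≤ Real.exp (2 * α * (Real.log (b / a) + 1) + 2 * β * (b - a)) * (u a + (b - a) * γ) := by
  exact PalmAux.gron_log' u ha hab hα hβ hγ h0 hu

end Crest.Agent.R160

end
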