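import Crest.Agent.R160.Ising

/-!
Algebra of the posterior means: bounds, dependence on the field, limits.
-/

set_option autoImplicit false

open MeasureTheory unitInterval Filter Topology
open Crest.ProbabilityR Crest.ProbabilityR.Labels Crest.ProbabilityR.TreeIsing
open scoped Classical

noncomputable section

namespace Crest.Agent.R160

universe u

variable {V : Type u} {G : SimpleGraph V} [G.LocallyFinite] {d : ℕ}

variable {θ : ℝ}

namespace PostAux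

theorem abs_limsup_le {a : ℕ → ℝ} (ha : ∀ n, |a n| ≤ 1) : |limsup a atTop| ≤ 1 := by
  have h1 : ∀ n, a n ≤ 1 := fun n => (abs_le.1 (ha n)).2
  have h2 : ∀ n, -1 ≤ a n := fun n => (abs_le.1 (ha n)).1
  exact abs_le.2 ⟨le_limsup_of_frequently_le (Frequently.of_forall h2)
    (isBoundedUnder_of ⟨1, h1⟩), limsup_le_of_le (isCoboundedUnder_le_of_le _ h2)
    (Eventually.of_forall h1)⟩

theorem abs_liminf_le {a : ℕ → ℝ} (ha : ∀ n, |a n| ≤ 1) : |liminf a atTop| ≤ 1 := by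
  have h1 : ∀ n, a n ≤ 1 := fun n => (abs_le.1 (ha n)).2
  have h2 : ∀ n, -1 ≤ a n := fun n => (abs_le.1 (ha n)).1
  exact abs_le.2 ⟨le_liminf_of_le (isCoboundedUnder_ge_of_le _ h1) (Eventually.of_forall h2),
    liminf_le_of_frequently_le (Frequently.of_forall h1) (isBoundedUnder_of ⟨-1, h2⟩)⟩

theorem limsup_neg' (a : ℕ → ℝ) : limsup (fun n => -a n) atTop = -liminf a atTop := by
  rw [limsup_eq, liminf_eq, ← Real.sInf_neg]
  congr 1
  ext x
  simp only [Set.mem_ofPred_eq, Set.mem_neg, neg_le]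

theorem liminf_neg' (a : ℕ → ℝ) : liminf (fun n => -a n) atTop = -limsup a atTop := by
  rw [limsup_eq, liminf_eq, ← Real.sSup_neg]
  congr 1
  ext x
  simp only [Set.mem_ofPred_eq, Set.mem_neg, le_neg]

theorem bd_indicator {ℓ : Slot V → ℝ} (hℓ : Bd ℓ) (A : Set (Slot V)) : Bd (A.indicator ℓ) := by
  intro z
  rw [Set.indicator_apply]
  split_ifs
  · exact hℓ z
  · norm_num

theorem den_pos {a : ℝ} (hθ : θ ^ 2 ≤ 1 / 2) (ha : |a| ≤ 1) : 0 < 1 - θ ^ 2 * a ^ 2 := by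
  have h1 : a ^ 2 ≤ 1 := by rw [← sq_abs]; exact pow_le_one₀ (abs_nonneg _) ha
  nlinarith [sq_nonneg θ]

theorem measurable_wt (J : Finset (Slot V)) (ℓ : Slot V → ℝ) : Measurable (wt J ℓ) :=
  Finset.measurable_prod _ fun z _ =>
    measurable_const.add ((measurable_spin.comp (measurable_pi_apply z.1)).mul_const _)

theorem post_neg (h : RT G d) (hθ : Subc d θ) (J : Finset (Slot V)) (ℓ : Slot V → ℝ) (v : V) :
    post G θ J (-ℓ) v = -post G θ J ℓ v := by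
  have hf := ising_flip h hθ.1 ((Subc.le h hθ).trans (by norm_num))
  have key : ∀ F : (V → Bool) → ℝ, Measurable F →
      ∫ η, F (fun v => !η v) ∂(ising G θ) = ∫ η, F η ∂(ising G θ) := by
    intro F hF
    rw [← integral_map hf.measurable.aemeasurable hF.aestronglyMeasurable, hf.map_eq]
  have hw : ∀ η : V → Bool, wt J (-ℓ) η = wt J ℓ (fun v => !η v) := by
    intro η
    refine Finset.prod_congr rfl fun z _ => ?_
    rw [spin_not, Pi.neg_apply]
    ring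
  have h1 := key _ (measurable_wt J ℓ)
  have h2 := key (fun η => spin (η v) * wt J ℓ η)
    ((measurable_spin.comp (measurable_pi_apply v)).mul (measurable_wt J ℓ))
  simp only [spin_not, neg_mul, integral_neg] at h2
  rw [post, post]
  simp only [hw]
  rw [h1, ← h2, neg_div, neg_neg]

end PostAux

omit [G.LocallyFinite] in
theorem wt_pos {ℓ : Slot V → ℝ} (hℓ : Bd ℓ) (J : Finset (Slot V)) (η : V → Bool) :
    0 < wt J ℓ η := by
  refine Finset.prod_pos fun z _ => ?_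
  have h1 : |spin (η z.1) * ℓ z| ≤ 1 / 2 := by rw [abs_mul, abs_spin, one_mul]; exact hℓ z
  linarith [neg_abs_le (spin (η z.1) * ℓ z)]

omit [G.LocallyFinite] in
theorem abs_post_le {ℓ : Slot V → ℝ} (hℓ : Bd ℓ) (J : Finset (Slot V)) (v : V) :
    |post G θ J ℓ v| ≤ 1 := by
  have h0 : 0 ≤ ∫ η, wt J ℓ η ∂(ising G θ) := integral_nonneg fun η => (wt_pos hℓ J η).le
  rw [post, abs_div, abs_of_nonneg h0]
  refine div_le_one_of_le₀ (abs_integral_le_integral_abs.trans (le_of_eq ?_)) h0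
  refine integral_congr_ae (Eventually.of_forall fun η => ?_)
  simp only [abs_mul, abs_spin, one_mul, abs_of_pos (wt_pos hℓ J η)]

omit [G.LocallyFinite] in
theorem abs_mag_le {ℓ : Slot V → ℝ} (hℓ : Bd ℓ) (v : V) : |mag G θ ℓ v| ≤ 1 := by
  have h1 := PostAux.abs_limsup_le (fun R => abs_post_le (G := G) (θ := θ) hℓ (box G v R) v)
  have h2 := PostAux.abs_liminf_le (fun R => abs_post_le (G := G) (θ := θ) hℓ (box G v R) v)
  rw [abs_le] at h1 h2 ⊢
  unfold mag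
  constructor <;> linarith [h1.1, h1.2, h2.1, h2.2]

omit [G.LocallyFinite] in
theorem abs_cav_le {ℓ : Slot V → ℝ} (hℓ : Bd ℓ) (u p : V) : |cav G θ ℓ u p| ≤ 1 := by
  exact abs_mag_le (PostAux.bd_indicator hℓ _) u

theorem kap_nonneg {a : ℝ} (hθ : θ ^ 2 ≤ 1 / 2) (ha : |a| ≤ 1) : 0 ≤ kap θ a := by
  have h1 : a ^ 2 ≤ 1 := by rw [← sq_abs]; exact pow_le_one₀ (abs_nonneg _) ha
  exact div_nonneg (by linarith) (PostAux.den_pos hθ ha).le

theorem kap_le_one {a : ℝ} (hθ : θ ^ 2 ≤ 1 / 2) (ha : |a| ≤ 1) : kap θ a ≤ 1 := by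
  have h1 : a ^ 2 ≤ 1 := by rw [← sq_abs]; exact pow_le_one₀ (abs_nonneg _) ha
  rw [kap, div_le_one (PostAux.den_pos hθ ha)]
  nlinarith [sq_nonneg a, sq_nonneg θ]

theorem kap_le {a : ℝ} (hθ : θ ^ 2 ≤ 1 / 2) (ha : |a| ≤ 1) : kap θ a ≤ 1 - a ^ 2 / 2 := by
  have h1 : a ^ 2 ≤ 1 := by rw [← sq_abs]; exact pow_le_one₀ (abs_nonneg _) ha
  rw [kap, div_le_iff₀ (PostAux.den_pos hθ ha)]
  have h2 : θ ^ 2 * a ^ 2 ≤ a ^ 2 / 2 := by nlinarith [sq_nonneg a]
  have h3 : 0 ≤ θ ^ 2 * a ^ 2 * (a ^ 2 / 2) := by positivity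
  nlinarith

theorem kap_neg (a : ℝ) : kap θ (-a) = kap θ a := by
  simp [kap]

theorem PP_nonneg (h : RT G d) (hθ : Subc d θ) {ℓ : Slot V → ℝ} (hℓ : Bd ℓ) (o z : V) :
    0 ≤ PP G θ ℓ o z := by
  exact Finset.prod_nonneg fun i _ => kap_nonneg (Subc.sq_le h hθ) (abs_cav_le hℓ _ _)

theorem PP_le_one (h : RT G d) (hθ : Subc d θ) {ℓ : Slot V → ℝ} (hℓ : Bd ℓ) (o z : V) :
    PP G θ ℓ o z ≤ 1 := by
  exact Finset.prod_le_one (fun i _ => kap_nonneg (Subc.sq_le h hθ) (abs_cav_le hℓ _ _))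
    fun i _ => kap_le_one (Subc.sq_le h hθ) (abs_cav_le hℓ _ _)

theorem KK_nonneg (h : RT G d) (hθ : Subc d θ) {ℓ : Slot V → ℝ} (hℓ : Bd ℓ) (o z : V) :
    0 ≤ KK G θ ℓ o z := by
  have h1 : mag G θ ℓ o ^ 2 ≤ 1 := by
    rw [← sq_abs]; exact pow_le_one₀ (abs_nonneg _) (abs_mag_le hℓ o)
  exact mul_nonneg (mul_nonneg (by linarith) (pow_nonneg hθ.1 _)) (PP_nonneg h hθ hℓ o z)

theorem KK_le (h : RT G d) (hθ : Subc d θ) {ℓ : Slot V → ℝ} (hℓ : Bd ℓ) (o z : V) :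
    KK G θ ℓ o z ≤ θ ^ G.dist o z * PP G θ ℓ o z := by
  have h1 : 0 ≤ θ ^ G.dist o z * PP G θ ℓ o z :=
    mul_nonneg (pow_nonneg hθ.1 _) (PP_nonneg h hθ hℓ o z)
  rw [KK, mul_assoc]
  nlinarith [sq_nonneg (mag G θ ℓ o)]

theorem KK_le_pow (h : RT G d) (hθ : Subc d θ) {ℓ : Slot V → ℝ} (hℓ : Bd ℓ) (o z : V) :
    KK G θ ℓ o z ≤ θ ^ G.dist o z := by
  exact (KK_le h hθ hℓ o z).trans
    (mul_le_of_le_one_right (pow_nonneg hθ.1 _) (PP_le_one h hθ hℓ o z))

theorem KK_sq_le (h : RT G d) (hθ : Subc d θ) {ℓ : Slot V → ℝ} (hℓ : Bd ℓ) (o z : V) :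
    KK G θ ℓ o z ^ 2 ≤ (1 / ((d : ℝ) - 1)) ^ G.dist o z * PP G θ ℓ o z := by
  have h0 := PP_nonneg h hθ hℓ o z
  calc KK G θ ℓ o z ^ 2 = KK G θ ℓ o z * KK G θ ℓ o z := sq _
    _ ≤ θ ^ G.dist o z * (θ ^ G.dist o z * PP G θ ℓ o z) :=
        mul_le_mul (KK_le_pow h hθ hℓ o z) (KK_le h hθ hℓ o z) (KK_nonneg h hθ hℓ o z)
          (pow_nonneg hθ.1 _)
    _ = (θ ^ 2) ^ G.dist o z * PP G θ ℓ o z := by ring
    _ ≤ _ := mul_le_mul_of_nonneg_right
        (pow_le_pow_left₀ (sq_nonneg _) (Subc.sq_le_inv h hθ) _) h0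

theorem one_le_SS (h : RT G d) (hθ : Subc d θ) {ℓ : Slot V → ℝ} (hℓ : Bd ℓ) (N : ℕ) (o : V) :
    1 ≤ SS G d θ ℓ N o := by
  have h2 := h.two_le
  have h1 : 0 ≤ 1 / ((d : ℝ) - 1) := div_nonneg zero_le_one (by linarith)
  have h3 := Finset.single_le_sum (s := ball G o N)
    (f := fun x => (1 / ((d : ℝ) - 1)) ^ G.dist o x * PP G θ ℓ o x)
    (fun x _ => mul_nonneg (pow_nonneg h1 _) (PP_nonneg h hθ hℓ o x))
    (a := o) ((mem_ball h).2 (by rw [SimpleGraph.dist_self]; exact Nat.zero_le _))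
  refine le_trans (le_of_eq ?_) h3
  simp [PP]

theorem SS_le (h : RT G d) (hθ : Subc d θ) {ℓ : Slot V → ℝ} (hℓ : Bd ℓ) (N : ℕ) (o : V) :
    SS G d θ ℓ N o ≤ 3 / 2 * (N + 1) := by
  have h2 := h.two_le
  have h1 : 0 ≤ 1 / ((d : ℝ) - 1) := div_nonneg zero_le_one (by linarith)
  calc SS G d θ ℓ N o ≤ ∑ x ∈ ball G o N, (1 / ((d : ℝ) - 1)) ^ G.dist o x :=
        Finset.sum_le_sum fun x _ =>
          mul_le_of_le_one_right (pow_nonneg h1 _) (PP_le_one h hθ hℓ o x)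
    _ ≤ 3 / 2 * ∑ n ∈ Finset.range (N + 1), ((d : ℝ) - 1) ^ n * (1 / ((d : ℝ) - 1)) ^ n :=
        sum_ball_radial_le h o N (f := fun n => (1 / ((d : ℝ) - 1)) ^ n) fun n => pow_nonneg h1 n
    _ = 3 / 2 * (N + 1) := by
        have : ∀ n : ℕ, ((d : ℝ) - 1) ^ n * (1 / ((d : ℝ) - 1)) ^ n = 1 := fun n => by
          rw [← mul_pow, mul_one_div_cancel (by linarith), one_pow]
        simp only [this, Finset.sum_const, Finset.card_range, nsmul_eq_mul, mul_one]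
        push_cast
        ring

/-! ### Dependence on the field -/

omit [G.LocallyFinite] in
theorem post_congr {J : Finset (Slot V)} {ℓ ℓ' : Slot V → ℝ} (hJ : ∀ z ∈ J, ℓ z = ℓ' z) (v : V) :
    post G θ J ℓ v = post G θ J ℓ' v := by
  have : wt J ℓ = wt J ℓ' := by
    funext η
    exact Finset.prod_congr rfl fun z hz => by rw [hJ z hz]
  rw [post, post, this]

omit [G.LocallyFinite] in
theorem post_subset {J J' : Finset (Slot V)} (hJ : J ⊆ J') {ℓ : Slot V → ℝ}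
    (hℓ : ∀ z ∈ J', z ∉ J → ℓ z = 0) (v : V) : post G θ J' ℓ v = post G θ J ℓ v := by
  have : wt J' ℓ = wt J ℓ := by
    funext η
    exact (Finset.prod_subset hJ fun z hz hz' => by rw [hℓ z hz hz', mul_zero, add_zero]).symm
  rw [post, post, this]

theorem PostAux.tendsto_post (h : RT G d) {J : Finset (Slot V)} {ℓ : Slot V → ℝ}
    (hℓ : ∀ z, z ∉ J → ℓ z = 0) (c v : V) :
    Tendsto (fun R => post G θ (box G c R) ℓ v) atTop (𝓝 (post G θ J ℓ v)) := by
  refine tendsto_const_nhds.congr' ?_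
  filter_upwards [eventually_subset_box h c J] with R hR
  exact (post_subset hR (fun z _ hz => hℓ z hz) v).symm

theorem mag_eq_post (h : RT G d) {J : Finset (Slot V)} {ℓ : Slot V → ℝ}
    (hℓ : ∀ z, z ∉ J → ℓ z = 0) (v : V) : mag G θ ℓ v = post G θ J ℓ v := by
  have h1 := PostAux.tendsto_post (θ := θ) h hℓ v v
  rw [mag, h1.limsup_eq, h1.liminf_eq]
  ring

theorem mag_indicator (h : RT G d) (J : Finset (Slot V)) (ℓ : Slot V → ℝ) (v : V) :
    mag G θ ((J : Set (Slot V)).indicator ℓ) v = post G θ J ℓ v := by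
  rw [mag_eq_post h (J := J) (fun z hz => Set.indicator_of_notMem (by simpa using hz) _)]
  exact post_congr (fun z hz => Set.indicator_of_mem (by simpa using hz) _) v

theorem good_of_finite (h : RT G d) {J : Finset (Slot V)} {ℓ : Slot V → ℝ}
    (hℓ : ∀ z, z ∉ J → ℓ z = 0) : Good G θ ℓ := by
  have key : ∀ ℓ : Slot V → ℝ, (∀ z, z ∉ J → ℓ z = 0) → Conv G θ ℓ := by
    intro ℓ hℓ c v
    rw [mag_eq_post h hℓ]
    exact PostAux.tendsto_post h hℓ c v
  refine ⟨key ℓ hℓ, fun u p _ => key _ fun z hz => ?_⟩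
  rw [Set.indicator_apply, hℓ z hz, ite_self]

theorem mag_zero (h : RT G d) (hθ : Subc d θ) (v : V) : mag G θ 0 v = 0 := by
  rw [mag_eq_post h (J := ∅) (ℓ := 0) (fun _ _ => rfl), post]
  have := integral_spin h hθ.1 ((Subc.le h hθ).trans (by norm_num)) v
  simp [wt, this]

theorem mag_neg (h : RT G d) (hθ : Subc d θ) {ℓ : Slot V → ℝ} (hℓ : Bd ℓ) (v : V) :
    mag G θ (-ℓ) v = -mag G θ ℓ v := by
  have _ := hℓ
  unfold mag
  simp only [PostAux.post_neg h hθ]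
  rw [PostAux.limsup_neg', PostAux.liminf_neg']
  ring

theorem cav_neg (h : RT G d) (hθ : Subc d θ) {ℓ : Slot V → ℝ} (hℓ : Bd ℓ) (u p : V) :
    cav G θ (-ℓ) u p = -cav G θ ℓ u p := by
  rw [cav, cav, Set.indicator_neg', mag_neg h hθ (PostAux.bd_indicator hℓ _)]

theorem PP_neg (h : RT G d) (hθ : Subc d θ) {ℓ : Slot V → ℝ} (hℓ : Bd ℓ) (o z : V) :
    PP G θ (-ℓ) o z = PP G θ ℓ o z := by
  exact Finset.prod_congr rfl fun i _ => by rw [cav_neg h hθ hℓ, kap_neg]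

omit [G.LocallyFinite] in
theorem cav_congr {ℓ ℓ' : Slot V → ℝ} {u p : V}
    (hℓ : ∀ z : Slot V, z.1 ∈ half G u p → ℓ z = ℓ' z) : cav G θ ℓ u p = cav G θ ℓ' u p := by
  rw [cav, cav, Set.indicator_congr (s := vm (half G u p)) (f := ℓ) (g := ℓ') (fun z hz => hℓ z hz)]

/-- Inside a half tree the product only sees the half tree. -/
theorem PP_congr (h : RT G d) {ℓ ℓ' : Slot V → ℝ} {u p z : V} (hup : G.Adj u p)
    (hz : z ∈ half G u p) (hℓ : ∀ y : Slot V, y.1 ∈ half G u p → ℓ y = ℓ' y) :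
    PP G θ ℓ u z = PP G θ ℓ' u z := by
  refine Finset.prod_congr rfl fun i hi => ?_
  rw [cav_congr fun y hy => hℓ y (half_geo_subset_half h hup hz (Finset.mem_range.1 hi) hy)]

theorem PP_self (ℓ : Slot V → ℝ) (o : V) : PP G θ ℓ o o = 1 := by
  simp [PP]

theorem PP_of_half (h : RT G d) (ℓ : Slot V → ℝ) {c u z : V} (hcu : G.Adj c u)
    (hz : z ∈ half G c u) : PP G θ ℓ u z = kap θ (cav G θ ℓ c u) * PP G θ ℓ c z := by
  have h1 : G.dist u z = G.dist c z + 1 := hz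
  rw [PP, h1, Finset.prod_range_succ', mul_comm, geo_zero h, zero_add, geo_one_of_half h hcu hz]
  congr 1
  refine Finset.prod_congr rfl fun i _ => ?_
  rw [geo_succ_of_half h hcu hz, geo_succ_of_half h hcu hz]

theorem PP_split (h : RT G d) (ℓ : Slot V → ℝ) (o z : V) {i : ℕ} (hi : i ≤ G.dist o z) :
    PP G θ ℓ o z = PP G θ ℓ o (geo G o z i) * PP G θ ℓ (geo G o z i) z := by
  obtain ⟨h1, h2⟩ := geo_spec h o z hi
  rw [PP, PP, PP, h1, ← h2, add_comm, Finset.prod_range_add]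
  congr 1
  · refine Finset.prod_congr rfl fun j hj => ?_
    have hj' := Finset.mem_range.1 hj
    rw [geo_geo_left h o z (j := j + 1) hj' hi, geo_geo_left h o z (j := j) hj'.le hi]
  · refine Finset.prod_congr rfl fun j hj => ?_
    have hj' := Finset.mem_range.1 hj
    rw [geo_geo_right h o z (i := i) (j := j + 1) (by omega),
      geo_geo_right h o z (i := i) (j := j) (by omega), add_assoc]

/-! ### Limits along boxes -/

theorem Good.tendsto_mag (h : RT G d) {ℓ : Slot V → ℝ} (hg : Good G θ ℓ) (c v : V) :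
    Tendsto (fun R => mag G θ ((box G c R : Set (Slot V)).indicator ℓ) v) atTop
      (𝓝 (mag G θ ℓ v)) := by
  simp only [mag_indicator h]
  exact hg.1 c v

theorem Good.tendsto_cav (h : RT G d) {ℓ : Slot V → ℝ} (hg : Good G θ ℓ) (c : V) {u p : V}
    (hup : G.Adj u p) :
    Tendsto (fun R => cav G θ ((box G c R : Set (Slot V)).indicator ℓ) u p) atTop
      (𝓝 (cav G θ ℓ u p)) := by
  have : ∀ R, cav G θ ((box G c R : Set (Slot V)).indicator ℓ) u p =
      post G θ (box G c R) ((vm (half G u p)).indicator ℓ) u := by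
    intro R
    rw [cav, Set.indicator_indicator, Set.inter_comm, ← Set.indicator_indicator, mag_indicator h]
  simp only [this]
  exact hg.2 u p hup c u

theorem Good.tendsto_KK (h : RT G d) (hθ : Subc d θ) {ℓ : Slot V → ℝ} (hℓ : Bd ℓ)
    (hg : Good G θ ℓ) (c o z : V) :
    Tendsto (fun R => KK G θ ((box G c R : Set (Slot V)).indicator ℓ) o z) atTop
      (𝓝 (KK G θ ℓ o z)) := by
  unfold KK PP
  refine Tendsto.mul (Tendsto.mul_const _
    (tendsto_const_nhds.sub ((hg.tendsto_mag h c o).pow 2))) ?_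
  refine tendsto_finsetProd _ fun i hi => ?_
  have h1 := hg.tendsto_cav h c (geo_adj h o z (Finset.mem_range.1 hi))
  unfold kap
  exact (tendsto_const_nhds.sub (h1.pow 2)).div
    (tendsto_const_nhds.sub ((h1.pow 2).const_mul _))
    (PostAux.den_pos (Subc.sq_le h hθ) (abs_cav_le hℓ _ _)).ne'

end Crest.Agent.R160

end
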