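import Crest.Agent.R160.Post

/-!
The edge identity, covariances and jumps of the posterior means.
-/

set_option autoImplicit false

open MeasureTheory unitInterval Filter Topology
open Crest.ProbabilityR Crest.ProbabilityR.Labels Crest.ProbabilityR.TreeIsing
open scoped Classical

noncomputable section

namespace Crest.Agent.R160

universe u

variable {V : Type u} {G : SimpleGraph V} [G.LocallyFinite] {d : ℕ}

variable {θ : ℝ}

namespace PostEdgeAux

omit [G.LocallyFinite] in
theorem measurable_wt (J : Finset (Slot V)) (ℓ : Slot V → ℝ) : Measurable (wt J ℓ) := by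
  show Measurable (fun η : V → Bool => ∏ z ∈ J, (1 + spin (η z.1) * ℓ z))
  refine Finset.measurable_prod _ fun z _ => ?_
  exact measurable_const.add ((measurable_spin.comp (measurable_pi_apply z.1)).mul measurable_const)

omit [G.LocallyFinite] in
theorem measurable_spin_apply (v : V) : Measurable (fun η : V → Bool => spin (η v)) :=
  measurable_spin.comp (measurable_pi_apply v)

omit [G.LocallyFinite] in
theorem measurable_spin_mul {F : (V → Bool) → ℝ} (hF : Measurable F) (v : V) :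
    Measurable (fun η : V → Bool => spin (η v) * F η) :=
  (measurable_spin_apply v).mul hF

omit [G.LocallyFinite] in
theorem abs_wt_le {ℓ : Slot V → ℝ} (hℓ : Bd ℓ) (J : Finset (Slot V)) (η : V → Bool) :
    |wt J ℓ η| ≤ 2 ^ J.card := by
  unfold wt
  rw [Finset.abs_prod, ← Finset.prod_const]
  refine Finset.prod_le_prod (fun _ _ => abs_nonneg _) fun z _ => ?_
  have h1 : |spin (η z.1) * ℓ z| ≤ 1 / 2 := by rw [abs_mul, abs_spin, one_mul]; exact hℓ z
  have h2 := abs_le.1 h1
  rw [abs_le]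
  constructor <;> linarith [h2.1, h2.2]

omit [G.LocallyFinite] in
theorem abs_spin_mul_le {F : (V → Bool) → ℝ} {C : ℝ} (hF : ∀ η, |F η| ≤ C) (v : V) (η : V → Bool) :
    |spin (η v) * F η| ≤ C := by
  rw [abs_mul, abs_spin, one_mul]; exact hF η

omit [G.LocallyFinite] in
theorem integrable_bdd {F : (V → Bool) → ℝ} (hF : Measurable F) {C : ℝ} (hb : ∀ η, |F η| ≤ C) :
    Integrable F (ising G θ) :=
  Integrable.of_bound hF.aestronglyMeasurable C (Eventually.of_forall hb)

omit [G.LocallyFinite] in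
theorem integral_wt_pos {ℓ : Slot V → ℝ} (hℓ : Bd ℓ) (J : Finset (Slot V)) :
    0 < ∫ η, wt J ℓ η ∂(ising G θ) := by
  rw [integral_pos_iff_support_of_nonneg (fun η => (wt_pos hℓ J η).le)
    (integrable_bdd (measurable_wt J ℓ) (abs_wt_le hℓ J))]
  have : Function.support (wt J ℓ) = Set.univ :=
    Set.eq_univ_of_forall fun η => (wt_pos hℓ J η).ne'
  rw [this, measure_univ]
  exact one_pos

omit [G.LocallyFinite] in
theorem dependsOn_wt (J : Finset (Slot V)) (ℓ : Slot V → ℝ) (E : Set V) :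
    DependsOn (wt J ((vm E).indicator ℓ)) E := by
  intro η η' hη
  unfold wt
  refine Finset.prod_congr rfl fun z _ => ?_
  by_cases hz : z.1 ∈ E
  · rw [hη _ hz]
  · rw [Set.indicator_of_notMem (show z ∉ vm E from hz), mul_zero, mul_zero]

omit [G.LocallyFinite] in
theorem dependsOn_spin_mul {F : (V → Bool) → ℝ} {E : Set V} (hF : DependsOn F E) {v : V}
    (hv : v ∈ E) : DependsOn (fun η => spin (η v) * F η) E := by
  intro η η' hη
  show spin (η v) * F η = spin (η' v) * F η'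
  rw [hη _ hv, hF hη]

theorem wt_split (h : RT G d) {u p : V} (hup : G.Adj u p) (J : Finset (Slot V))
    (ℓ : Slot V → ℝ) (η : V → Bool) :
    wt J ℓ η = wt J ((vm (half G u p)).indicator ℓ) η * wt J ((vm (half G p u)).indicator ℓ) η := by
  unfold wt
  rw [← Finset.prod_mul_distrib]
  refine Finset.prod_congr rfl fun z _ => ?_
  by_cases hz : z.1 ∈ half G u p
  · have hz' : z ∉ vm (half G p u) := (mem_half_iff_not h hup z.1).1 hz
    rw [Set.indicator_of_mem (show z ∈ vm (half G u p) from hz), Set.indicator_of_notMem hz']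
    ring
  · have hz' : z ∈ vm (half G p u) := by
      by_contra hn
      exact hz ((mem_half_iff_not h hup z.1).2 hn)
    rw [Set.indicator_of_notMem (show z ∉ vm (half G u p) from hz), Set.indicator_of_mem hz']
    ring

theorem spin_mul_spin_mul (b : Bool) (x : ℝ) : spin b * (spin b * x) = x := by
  rw [← mul_assoc, ← sq, spin_sq, one_mul]

theorem cav_eq (h : RT G d) {J : Finset (Slot V)} {ℓ : Slot V → ℝ} (hJ : ∀ z, z ∉ J → ℓ z = 0)
    (u p : V) : cav G θ ℓ u p =
      (∫ η, spin (η u) * wt J ((vm (half G u p)).indicator ℓ) η ∂(ising G θ)) /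
        ∫ η, wt J ((vm (half G u p)).indicator ℓ) η ∂(ising G θ) :=
  mag_eq_post h (J := J) (fun z hz => by
    by_cases hm : z ∈ vm (half G u p)
    · rw [Set.indicator_of_mem hm, hJ z hz]
    · rw [Set.indicator_of_notMem hm]) u

/-- The two edge formulas for a test function `Y` living on the side of `p`. -/
theorem edge_pair (h : RT G d) (hθ : Subc d θ) {u p : V} (hup : G.Adj u p)
    {F Y : (V → Bool) → ℝ} (hF : Measurable F) (hY : Measurable Y) {C : ℝ}
    (hFb : ∀ η, |F η| ≤ C) (hYb : ∀ η, |Y η| ≤ C)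
    (hFd : DependsOn F (half G u p)) (hYd : DependsOn Y (half G p u)) :
    ∫ η, F η * Y η ∂(ising G θ) =
      (∫ η, F η ∂(ising G θ)) * (∫ η, Y η ∂(ising G θ)) +
        θ * (∫ η, spin (η u) * F η ∂(ising G θ)) * (∫ η, spin (η p) * Y η ∂(ising G θ)) ∧
    ∫ η, spin (η u) * F η * Y η ∂(ising G θ) =
      (∫ η, spin (η u) * F η ∂(ising G θ)) * (∫ η, Y η ∂(ising G θ)) +
        θ * (∫ η, F η ∂(ising G θ)) * (∫ η, spin (η p) * Y η ∂(ising G θ)) := by
  have h1 : θ ≤ 1 := (hθ.le h).trans (by norm_num)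
  refine ⟨ising_edge h hθ.1 h1 hup hF hY hFb hYb hFd hYd, ?_⟩
  have := ising_edge h hθ.1 h1 hup (measurable_spin_mul hF u) hY
    (abs_spin_mul_le hFb u) hYb (dependsOn_spin_mul hFd (self_mem_half h hup)) hYd
  simpa only [spin_mul_spin_mul] using this

theorem denom_pos (h : RT G d) (hθ : Subc d θ) {a b : ℝ} (ha : |a| ≤ 1) (hb : |b| ≤ 1) :
    1 / 4 ≤ 1 + θ * a * b := by
  have h1 : |θ * a * b| ≤ 3 / 4 := by
    rw [abs_mul, abs_mul, abs_of_nonneg hθ.1]
    have := hθ.le h
    have h2 : θ * |a| ≤ 3 / 4 := (mul_le_of_le_one_right hθ.1 ha).trans this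
    exact (mul_le_of_le_one_right (mul_nonneg hθ.1 (abs_nonneg _)) hb).trans h2
  linarith [(abs_le.1 h1).1]

theorem kap_denom_pos (h : RT G d) (hθ : Subc d θ) {a : ℝ} (ha : |a| ≤ 1) :
    0 < 1 - θ ^ 2 * a ^ 2 := by
  have h1 := hθ.sq_le h
  have h2 : a ^ 2 ≤ 1 := by rw [← sq_abs]; exact pow_le_one₀ (abs_nonneg _) ha
  have h3 := mul_le_of_le_one_right (sq_nonneg θ) h2
  linarith

theorem mag_edge_fin (h : RT G d) (hθ : Subc d θ) {J : Finset (Slot V)} {ℓ : Slot V → ℝ}
    (hℓ : Bd ℓ) (hJ : ∀ z, z ∉ J → ℓ z = 0) {u p : V} (hup : G.Adj u p) :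
    mag G θ ℓ u = (cav G θ ℓ u p + θ * cav G θ ℓ p u) /
      (1 + θ * cav G θ ℓ u p * cav G θ ℓ p u) := by
  have hd := denom_pos h hθ (abs_cav_le (G := G) (θ := θ) hℓ u p)
    (abs_cav_le (G := G) (θ := θ) hℓ p u)
  rw [cav_eq h hJ u p, cav_eq h hJ p u] at hd ⊢
  rw [mag_eq_post h hJ u, post]
  obtain ⟨e1, e2⟩ := edge_pair h hθ hup (measurable_wt J _) (measurable_wt J _)
    (abs_wt_le (hℓ.indicator _) J) (abs_wt_le (hℓ.indicator _) J)
    (dependsOn_wt J ℓ (half G u p)) (dependsOn_wt J ℓ (half G p u))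
  simp only [wt_split h hup J ℓ, ← mul_assoc]
  rw [e1, e2]
  have p1 := integral_wt_pos (G := G) (θ := θ) (hℓ.indicator (vm (half G u p))) J
  have p2 := integral_wt_pos (G := G) (θ := θ) (hℓ.indicator (vm (half G p u))) J
  generalize ∫ η, wt J ((vm (half G u p)).indicator ℓ) η ∂(ising G θ) = F0 at *
  generalize ∫ η, wt J ((vm (half G p u)).indicator ℓ) η ∂(ising G θ) = H0 at *
  generalize ∫ η, spin (η u) * wt J ((vm (half G u p)).indicator ℓ) η ∂(ising G θ) = F1 at *
  generalize ∫ η, spin (η p) * wt J ((vm (half G p u)).indicator ℓ) η ∂(ising G θ) = H1 at *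
  have e : F0 * H0 + θ * F1 * H1 = F0 * H0 * (1 + θ * (F1 / F0) * (H1 / H0)) := by field_simp
  have e' : F1 * H0 + θ * F0 * H1 = F0 * H0 * (F1 / F0 + θ * (H1 / H0)) := by field_simp
  rw [e, e', mul_div_mul_left _ _ (mul_pos p1 p2).ne']

theorem PP_adj (h : RT G d) (ℓ : Slot V → ℝ) {u p : V} (hup : G.Adj u p) :
    PP G θ ℓ p u = kap θ (cav G θ ℓ u p) := by
  rw [PP_of_half h ℓ hup (self_mem_half h hup), PP_self, mul_one]

/-- The covariance is damped across an edge. -/
theorem cov_step (h : RT G d) (hθ : Subc d θ) {J : Finset (Slot V)} {ℓ : Slot V → ℝ}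
    (hℓ : Bd ℓ) (hJ : ∀ z, z ∉ J → ℓ z = 0) {z p o : V} (hzp : G.Adj z p)
    (ho : o ∈ half G p z) :
    (∫ η, spin (η o) * spin (η z) * wt J ℓ η ∂(ising G θ)) / (∫ η, wt J ℓ η ∂(ising G θ)) -
        post G θ J ℓ o * post G θ J ℓ z =
      θ * kap θ (cav G θ ℓ z p) *
        ((∫ η, spin (η o) * spin (η p) * wt J ℓ η ∂(ising G θ)) / (∫ η, wt J ℓ η ∂(ising G θ)) -
          post G θ J ℓ o * post G θ J ℓ p) := by
  have hk := kap_denom_pos h hθ (abs_cav_le (G := G) (θ := θ) hℓ z p)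
  have hZ := integral_wt_pos (G := G) (θ := θ) hℓ J
  rw [kap]
  rw [cav_eq h hJ z p] at hk ⊢
  unfold post
  set F := wt J ((vm (half G z p)).indicator ℓ) with hF
  set H := wt J ((vm (half G p z)).indicator ℓ) with hH
  have mF : Measurable F := measurable_wt J _
  have mH : Measurable H := measurable_wt J _
  have bF : ∀ η, |F η| ≤ 2 ^ J.card := abs_wt_le (hℓ.indicator _) J
  have bH : ∀ η, |H η| ≤ 2 ^ J.card := abs_wt_le (hℓ.indicator _) J
  have dF : DependsOn F (half G z p) := dependsOn_wt J ℓ _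
  have dH : DependsOn H (half G p z) := dependsOn_wt J ℓ _
  have hp : p ∈ half G p z := self_mem_half h hzp.symm
  obtain ⟨e1, e2⟩ := edge_pair h hθ hzp mF mH bF bH dF dH
  obtain ⟨e3, e4⟩ := edge_pair h hθ hzp mF (measurable_spin_mul mH o) bF
    (abs_spin_mul_le bH o) dF (dependsOn_spin_mul dH ho)
  obtain ⟨e5, -⟩ := edge_pair h hθ hzp mF (measurable_spin_mul mH p) bF
    (abs_spin_mul_le bH p) dF (dependsOn_spin_mul dH hp)
  obtain ⟨e6, -⟩ := edge_pair h hθ hzp mF
    (measurable_spin_mul (measurable_spin_mul mH o) p) bF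
    (abs_spin_mul_le (abs_spin_mul_le bH o) p) dF
    (dependsOn_spin_mul (dependsOn_spin_mul dH ho) hp)
  simp only [spin_mul_spin_mul] at e5 e6
  have w : ∀ η, wt J ℓ η = F η * H η := wt_split h hzp J ℓ
  have a1 : ∫ η, wt J ℓ η ∂(ising G θ) = ∫ η, F η * H η ∂(ising G θ) := by simp only [w]
  have a2 : ∫ η, spin (η z) * wt J ℓ η ∂(ising G θ) = ∫ η, spin (η z) * F η * H η ∂(ising G θ) := by
    simp only [w, mul_assoc]
  have a3 : ∫ η, spin (η o) * wt J ℓ η ∂(ising G θ) =
      ∫ η, F η * (spin (η o) * H η) ∂(ising G θ) := by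
    simp only [w, mul_left_comm]
  have a4 : ∫ η, spin (η o) * spin (η z) * wt J ℓ η ∂(ising G θ) =
      ∫ η, spin (η z) * F η * (spin (η o) * H η) ∂(ising G θ) := by
    congr 1; funext η; rw [w]; ring
  have a5 : ∫ η, spin (η p) * wt J ℓ η ∂(ising G θ) =
      ∫ η, F η * (spin (η p) * H η) ∂(ising G θ) := by
    simp only [w, mul_left_comm]
  have a6 : ∫ η, spin (η o) * spin (η p) * wt J ℓ η ∂(ising G θ) =
      ∫ η, F η * (spin (η p) * (spin (η o) * H η)) ∂(ising G θ) := by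
    congr 1; funext η; rw [w]; ring
  rw [a1, e1] at hZ
  rw [a1, a2, a3, a4, a5, a6, e1, e2, e3, e4, e5, e6]
  have p1 : 0 < ∫ η, F η ∂(ising G θ) := integral_wt_pos (hℓ.indicator _) J
  generalize ∫ η, F η ∂(ising G θ) = F0 at *
  generalize ∫ η, H η ∂(ising G θ) = H0 at *
  generalize ∫ η, spin (η z) * F η ∂(ising G θ) = F1 at *
  generalize ∫ η, spin (η p) * H η ∂(ising G θ) = H1 at *
  generalize ∫ η, spin (η o) * H η ∂(ising G θ) = Ho at *
  generalize ∫ η, spin (η p) * (spin (η o) * H η) ∂(ising G θ) = Hpo at *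
  have hk' : F0 ^ 2 - θ ^ 2 * F1 ^ 2 ≠ 0 := by
    have : F0 ^ 2 - θ ^ 2 * F1 ^ 2 = F0 ^ 2 * (1 - θ ^ 2 * (F1 / F0) ^ 2) := by field_simp
    rw [this]
    exact (mul_pos (pow_pos p1 2) hk).ne'
  have ek : (1 - (F1 / F0) ^ 2) / (1 - θ ^ 2 * (F1 / F0) ^ 2) =
      (F0 ^ 2 - F1 ^ 2) / (F0 ^ 2 - θ ^ 2 * F1 ^ 2) := by
    rw [div_eq_div_iff hk.ne' hk']
    field_simp
  rw [ek]
  have hZ' := hZ.ne'
  have gen : ∀ A B C : ℝ, A / (F0 * H0 + θ * F1 * H1) -
      B / (F0 * H0 + θ * F1 * H1) * (C / (F0 * H0 + θ * F1 * H1)) =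
      (A * (F0 * H0 + θ * F1 * H1) - B * C) / (F0 * H0 + θ * F1 * H1) ^ 2 := by
    intro A B C
    generalize F0 * H0 + θ * F1 * H1 = Z at hZ' ⊢
    field_simp
  rw [gen, gen]
  have x1 : (F1 * Ho + θ * F0 * Hpo) * (F0 * H0 + θ * F1 * H1) -
      (F0 * Ho + θ * F1 * Hpo) * (F1 * H0 + θ * F0 * H1) =
      θ * (F0 ^ 2 - F1 ^ 2) * (Hpo * H0 - Ho * H1) := by ring
  have x2 : (F0 * Hpo + θ * F1 * Ho) * (F0 * H0 + θ * F1 * H1) -
      (F0 * Ho + θ * F1 * Hpo) * (F0 * H1 + θ * F1 * H0) =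
      (F0 ^ 2 - θ ^ 2 * F1 ^ 2) * (Hpo * H0 - Ho * H1) := by ring
  rw [x1, x2]
  generalize F0 ^ 2 - θ ^ 2 * F1 ^ 2 = Q at hk' ⊢
  generalize F0 * H0 + θ * F1 * H1 = Z at hZ' ⊢
  field_simp

end PostEdgeAux

open PostEdgeAux

/-! ### The edge identity and its consequences -/

theorem mag_edge (h : RT G d) (hθ : Subc d θ) {ℓ : Slot V → ℝ} (hℓ : Bd ℓ) (hg : Good G θ ℓ)
    {u p : V} (hup : G.Adj u p) :
    mag G θ ℓ u = (cav G θ ℓ u p + θ * cav G θ ℓ p u) /
      (1 + θ * cav G θ ℓ u p * cav G θ ℓ p u) := by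
  have h1 := hg.tendsto_mag h u u
  have h2 := hg.tendsto_cav h u hup
  have h3 := hg.tendsto_cav h u hup.symm
  have hd := denom_pos h hθ (abs_cav_le (G := G) (θ := θ) hℓ u p)
    (abs_cav_le (G := G) (θ := θ) hℓ p u)
  have h4 := (h2.add (h3.const_mul θ)).div (((h2.const_mul θ).mul h3).const_add 1)
    (by linarith)
  refine tendsto_nhds_unique h1 (h4.congr fun R => ?_)
  exact (mag_edge_fin h hθ (J := box G u R) (hℓ.indicator _)
    (fun z hz => Set.indicator_of_notMem (fun hz' => hz (Finset.mem_coe.1 hz')) _) hup).symm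

theorem abs_mag_le_cav (h : RT G d) (hθ : Subc d θ) {ℓ : Slot V → ℝ} (hℓ : Bd ℓ)
    (hg : Good G θ ℓ) {u p : V} (hup : G.Adj u p) :
    |mag G θ ℓ u| ≤ 4 * (|cav G θ ℓ u p| + |cav G θ ℓ p u|) := by
  have hd := denom_pos h hθ (abs_cav_le (G := G) (θ := θ) hℓ u p)
    (abs_cav_le (G := G) (θ := θ) hℓ p u)
  rw [mag_edge h hθ hℓ hg hup, abs_div, abs_of_pos (by linarith : 0 < 1 + θ * _ * _),
    div_le_iff₀ (by linarith)]
  have h1 : |cav G θ ℓ u p + θ * cav G θ ℓ p u| ≤ |cav G θ ℓ u p| + |cav G θ ℓ p u| := by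
    refine (abs_add_le _ _).trans (add_le_add le_rfl ?_)
    rw [abs_mul, abs_of_nonneg hθ.1]
    exact mul_le_of_le_one_left (abs_nonneg _) ((hθ.le h).trans (by norm_num))
  have h2 : 0 ≤ |cav G θ ℓ u p| + |cav G θ ℓ p u| := by positivity
  nlinarith

theorem PP_symm (h : RT G d) (hθ : Subc d θ) {ℓ : Slot V → ℝ} (hℓ : Bd ℓ) (hg : Good G θ ℓ)
    (o z : V) :
    (1 - mag G θ ℓ o ^ 2) * PP G θ ℓ o z = (1 - mag G θ ℓ z ^ 2) * PP G θ ℓ z o := by
  induction hn : G.dist o z generalizing o with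
  | zero => rw [(h.tree.connected.dist_eq_zero_iff).1 hn]
  | succ n ih =>
    have hlt : 0 < G.dist o z := by omega
    have hadj := geo_adj h o z hlt
    have hz := mem_half_geo h o z hlt
    rw [geo_zero h] at hadj hz
    have hs := geo_spec h o z (i := 0 + 1) (by omega)
    set c := geo G o z (0 + 1) with hc
    have ih' := ih c (by omega)
    have hzo : G.dist z o = n + 1 := by rw [SimpleGraph.dist_comm, hn]
    have e1 : geo G z o n = c := by
      rw [geo_rev h o z (by omega), hn, hc]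
      congr 1
      omega
    have e2 := PP_split (θ := θ) h ℓ z o (i := n) (by omega)
    rw [e1, PP_adj h ℓ hadj.symm] at e2
    rw [PP_of_half h ℓ hadj hz, e2]
    have key : (1 - mag G θ ℓ o ^ 2) * kap θ (cav G θ ℓ c o) =
        (1 - mag G θ ℓ c ^ 2) * kap θ (cav G θ ℓ o c) := by
      have ha := abs_cav_le (G := G) (θ := θ) hℓ o c
      have hb := abs_cav_le (G := G) (θ := θ) hℓ c o
      have d1 := denom_pos h hθ ha hb
      have d2 := denom_pos h hθ hb ha
      have k1 := (kap_denom_pos h hθ ha).ne'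
      have k2 := (kap_denom_pos h hθ hb).ne'
      rw [mag_edge h hθ hℓ hg hadj, mag_edge h hθ hℓ hg hadj.symm, kap, kap]
      generalize cav G θ ℓ o c = a at *
      generalize cav G θ ℓ c o = b at *
      have d1' : (1 + θ * a * b) ^ 2 ≠ 0 := pow_ne_zero 2 (by linarith)
      have x1 : 1 - ((a + θ * b) / (1 + θ * a * b)) ^ 2 =
          (1 - a ^ 2) * (1 - θ ^ 2 * b ^ 2) / (1 + θ * a * b) ^ 2 := by
        rw [div_pow, one_sub_div d1']; congr 1; ring
      have x2 : 1 - ((b + θ * a) / (1 + θ * b * a)) ^ 2 =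
          (1 - b ^ 2) * (1 - θ ^ 2 * a ^ 2) / (1 + θ * a * b) ^ 2 := by
        rw [show 1 + θ * b * a = 1 + θ * a * b by ring, div_pow, one_sub_div d1']; congr 1; ring
      rw [x1, x2, div_mul_div_comm, div_mul_div_comm,
        div_eq_div_iff (mul_ne_zero d1' k2) (mul_ne_zero d1' k1)]
      ring
    calc _ = ((1 - mag G θ ℓ o ^ 2) * kap θ (cav G θ ℓ c o)) * PP G θ ℓ c z := by ring
      _ = kap θ (cav G θ ℓ o c) * ((1 - mag G θ ℓ c ^ 2) * PP G θ ℓ c z) := by rw [key]; ring
      _ = _ := by rw [ih']; ring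

theorem KK_symm (h : RT G d) (hθ : Subc d θ) {ℓ : Slot V → ℝ} (hℓ : Bd ℓ) (hg : Good G θ ℓ)
    (o z : V) : KK G θ ℓ o z = KK G θ ℓ z o := by
  unfold KK
  rw [mul_right_comm, PP_symm h hθ hℓ hg o z, SimpleGraph.dist_comm, mul_right_comm]

/-- For a finitely supported field `KK` is the posterior covariance. -/
theorem KK_eq_cov (h : RT G d) (hθ : Subc d θ) {J : Finset (Slot V)} {ℓ : Slot V → ℝ}
    (hℓ : Bd ℓ) (hJ : ∀ z, z ∉ J → ℓ z = 0) (o z : V) :
    KK G θ ℓ o z =
      (∫ η, spin (η o) * spin (η z) * wt J ℓ η ∂(ising G θ)) / (∫ η, wt J ℓ η ∂(ising G θ)) -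
        post G θ J ℓ o * post G θ J ℓ z := by
  induction hn : G.dist o z generalizing z with
  | zero =>
    rw [← (h.tree.connected.dist_eq_zero_iff).1 hn, KK, PP_self, SimpleGraph.dist_self,
      mag_eq_post h hJ]
    simp only [← sq, spin_sq, one_mul]
    rw [div_self (integral_wt_pos hℓ J).ne']
    ring
  | succ n ih =>
    have hlt : n < G.dist o z := by omega
    have hadj := geo_adj h o z hlt
    have ho := mem_half_geo' h o z hlt
    have e0 : geo G o z (n + 1) = z := by rw [← hn]; exact geo_dist h o z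
    rw [e0] at hadj ho
    have hs := geo_spec h o z hlt.le
    have e2 := PP_split (θ := θ) h ℓ o z hlt.le
    set p := geo G o z n with hp
    rw [cov_step h hθ hℓ hJ hadj ho, ← ih p hs.1, KK, KK, e2, PP_adj h ℓ hadj, hn, hs.1]
    ring

/-- The jump of the posterior mean when one more signal is seen. -/
theorem mag_update (h : RT G d) (hθ : Subc d θ) {J : Finset (Slot V)} {ℓ : Slot V → ℝ}
    (hℓ : Bd ℓ) (hJ : ∀ z, z ∉ J → ℓ z = 0) {w : Slot V} (hw : ℓ w = 0) {a : ℝ}
    (ha : |a| ≤ 1 / 2) (o : V) :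
    mag G θ (Function.update ℓ w a) o =
      mag G θ ℓ o + KK G θ ℓ o w.1 * (a / (1 + a * mag G θ ℓ w.1)) := by
  set J0 := J.erase w with hJ0
  have hJ' : ∀ z, z ∉ J0 → ℓ z = 0 := by
    intro z hz
    by_cases hzw : z = w
    · rw [hzw, hw]
    · exact hJ z fun hz' => hz (Finset.mem_erase.2 ⟨hzw, hz'⟩)
  have hw0 : w ∉ J0 := Finset.notMem_erase _ _
  have hJ'' : ∀ z, z ∉ insert w J0 → Function.update ℓ w a z = 0 := by
    intro z hz
    rw [Finset.mem_insert, not_or] at hz
    rw [Function.update_of_ne hz.1, hJ' z hz.2]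
  have ew : ∀ η, wt (insert w J0) (Function.update ℓ w a) η =
      wt J0 ℓ η + a * (spin (η w.1) * wt J0 ℓ η) := by
    intro η
    have e : wt J0 (Function.update ℓ w a) η = wt J0 ℓ η :=
      Finset.prod_congr rfl fun z hz => by
        rw [Function.update_of_ne (Finset.ne_of_mem_erase hz)]
    rw [← e]
    unfold wt
    rw [Finset.prod_insert hw0, Function.update_self]
    ring
  have mW := measurable_wt J0 ℓ
  have bW := abs_wt_le hℓ J0
  have i0 : Integrable (wt J0 ℓ) (ising G θ) := integrable_bdd mW bW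
  have i1 : ∀ v, Integrable (fun η => spin (η v) * wt J0 ℓ η) (ising G θ) := fun v =>
    integrable_bdd ((measurable_spin_apply v).mul mW) (abs_spin_mul_le bW v)
  have i2 : Integrable (fun η => spin (η o) * (spin (η w.1) * wt J0 ℓ η)) (ising G θ) :=
    integrable_bdd ((measurable_spin_apply o).mul ((measurable_spin_apply w.1).mul mW))
      (abs_spin_mul_le (abs_spin_mul_le bW w.1) o)
  have hm := abs_mag_le (G := G) (θ := θ) hℓ w.1
  have hd : 0 < 1 + a * mag G θ ℓ w.1 := by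
    have h1 : |a * mag G θ ℓ w.1| ≤ 1 / 2 := by
      rw [abs_mul]
      exact (mul_le_of_le_one_right (abs_nonneg _) hm).trans ha
    linarith [(abs_le.1 h1).1]
  rw [mag_eq_post h hJ'', KK_eq_cov h hθ hℓ hJ']
  rw [mag_eq_post h hJ'] at hd
  simp only [mag_eq_post h hJ']
  unfold post at hd ⊢
  have e1 : ∫ η, wt (insert w J0) (Function.update ℓ w a) η ∂(ising G θ) =
      (∫ η, wt J0 ℓ η ∂(ising G θ)) + a * ∫ η, spin (η w.1) * wt J0 ℓ η ∂(ising G θ) := by
    simp only [ew]
    rw [integral_add i0 ((i1 _).const_mul a), integral_const_mul]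
  have e2 : ∫ η, spin (η o) * wt (insert w J0) (Function.update ℓ w a) η ∂(ising G θ) =
      (∫ η, spin (η o) * wt J0 ℓ η ∂(ising G θ)) +
        a * ∫ η, spin (η o) * spin (η w.1) * wt J0 ℓ η ∂(ising G θ) := by
    simp only [ew, mul_add, mul_left_comm _ a, mul_assoc]
    rw [integral_add (i1 _) (i2.const_mul a), integral_const_mul]
  rw [e1, e2]
  have hZ := integral_wt_pos (G := G) (θ := θ) hℓ J0
  generalize ∫ η, wt J0 ℓ η ∂(ising G θ) = Z at *
  generalize ∫ η, spin (η w.1) * wt J0 ℓ η ∂(ising G θ) = Mw at *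
  generalize ∫ η, spin (η o) * wt J0 ℓ η ∂(ising G θ) = Mo at *
  generalize ∫ η, spin (η o) * spin (η w.1) * wt J0 ℓ η ∂(ising G θ) = C at *
  have e3 : Z + a * Mw = Z * (1 + a * (Mw / Z)) := by field_simp
  have hd' := hd.ne'
  have hZ' := hZ.ne'
  have hd'' : Z + a * Mw ≠ 0 := by rw [e3]; exact mul_ne_zero hZ' hd'
  have e4 : a / (1 + a * (Mw / Z)) = a * Z / (Z + a * Mw) := by
    rw [div_eq_div_iff hd' hd'']
    field_simp
  rw [e4]
  field_simp
  ring

/-- In finite volume the posterior mean is the sum of its jumps. -/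
theorem jsum_exact (h : RT G d) (hθ : Subc d θ) {J : Finset (Slot V)} {ℓ : Slot V → ℝ}
    (hℓ : Bd ℓ) (hJ : ∀ z, z ∉ J → ℓ z = 0) {T : Lb V} (hT : Function.Injective (tim T))
    (o : V) (s : ℝ) : mag G θ (Lt T ℓ s) o = jsum G θ o J s T ℓ := by
  induction hn : (J.filter (fun z => tim T z < s)).card using Nat.strong_induction_on
    generalizing s with
  | _ n ih =>
    rcases (J.filter (fun z => tim T z < s)).eq_empty_or_nonempty with he | hne
    · have h0 : ∀ z ∈ J, ¬ tim T z < s := Finset.filter_eq_empty_iff.1 he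
      have e : Lt T ℓ s = 0 := by
        funext z
        by_cases hz : z ∈ tm s T
        · rw [Lt, Set.indicator_of_mem hz]
          exact hJ z fun hz' => h0 z hz' hz
        · rw [Lt, Set.indicator_of_notMem hz]; rfl
      rw [e, mag_zero h hθ, jsum]
      exact (Finset.sum_eq_zero fun z hz => if_neg (h0 z hz)).symm
    · obtain ⟨w, hw, hmax⟩ := Finset.exists_max_image _ (tim T) hne
      obtain ⟨hwJ, hws⟩ := Finset.mem_filter.1 hw
      have hlt : ∀ z ∈ J, z ≠ w → (tim T z < s ↔ tim T z < tim T w) := by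
        intro z hz hzw
        refine ⟨fun h1 => ?_, fun h1 => h1.trans hws⟩
        exact lt_of_le_of_ne (hmax z (Finset.mem_filter.2 ⟨hz, h1⟩)) fun e => hzw (hT e)
      have hcard : (J.filter (fun z => tim T z < tim T w)).card < n := by
        rw [← hn]
        refine Finset.card_lt_card ⟨fun z hz => ?_, fun hsub => ?_⟩
        · exact Finset.mem_filter.2 ⟨(Finset.mem_filter.1 hz).1,
            (Finset.mem_filter.1 hz).2.trans hws⟩
        · exact lt_irrefl _ (Finset.mem_filter.1 (hsub hw)).2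
      have ih' := ih _ hcard (tim T w) rfl
      have e : Lt T ℓ s = Function.update (Lt T ℓ (tim T w)) w (ℓ w) := by
        funext z
        by_cases hzw : z = w
        · rw [hzw, Function.update_self, Lt, Set.indicator_of_mem (show w ∈ tm s T from hws)]
        · rw [Function.update_of_ne hzw]
          by_cases hz : z ∈ J
          · by_cases hz' : tim T z < s
            · rw [Lt, Lt, Set.indicator_of_mem (show z ∈ tm s T from hz'),
                Set.indicator_of_mem (show z ∈ tm (tim T w) T from (hlt z hz hzw).1 hz')]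
            · rw [Lt, Lt, Set.indicator_of_notMem (show z ∉ tm s T from hz'),
                Set.indicator_of_notMem
                  (show z ∉ tm (tim T w) T from fun hh => hz' ((hlt z hz hzw).2 hh))]
          · simp only [Lt, Set.indicator, hJ z hz, ite_self]
      have hJ' : ∀ z, z ∉ J → Lt T ℓ (tim T w) z = 0 := fun z hz => by
        simp only [Lt, Set.indicator, hJ z hz, ite_self]
      have hw0 : Lt T ℓ (tim T w) w = 0 :=
        Set.indicator_of_notMem (show w ∉ tm (tim T w) T from fun hh => lt_irrefl (tim T w) hh) _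
      rw [e, mag_update h hθ (hℓ.lt T _) hJ' hw0 (hℓ w), ih', jsum, jsum,
        ← Finset.add_sum_erase _ _ hwJ, ← Finset.add_sum_erase _ _ hwJ, if_neg (lt_irrefl _),
        if_pos hws, zero_add, add_comm]
      congr 1
      refine Finset.sum_congr rfl fun z hz => ?_
      simp only [hlt z (Finset.mem_of_mem_erase hz) (Finset.ne_of_mem_erase hz)]

end Crest.Agent.R160

end
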