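import Crest.Agent.R160.Meas

/-!
Bounds, fixed point and locality of the samplers.
-/

set_option autoImplicit false

open MeasureTheory unitInterval Filter Topology
open Crest.ProbabilityR Crest.ProbabilityR.Labels Crest.ProbabilityR.TreeIsing
open scoped Classical

noncomputable section

namespace Crest.Agent.R160

universe u

variable {V : Type u} {G : SimpleGraph V} [G.LocallyFinite] {d : ℕ}

variable {θ : ℝ}

namespace SampAux

omit [G.LocallyFinite] in
theorem iter_succ (J : Finset (Slot V)) (ω : Lab V) (n : ℕ) (z : Slot V) :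
    (stepS G θ J ω)^[n + 1] 0 z = if z ∈ J then
      sig (epsf (tim ω.1 z)) (mag G θ (Lt ω.1 ((stepS G θ J ω)^[n] 0) (tim ω.1 z)) z.1) (ω.2 z)
      else 0 := by
  rw [Function.iterate_succ_apply']
  rfl

omit [G.LocallyFinite] in
theorem iter_of_notMem {J : Finset (Slot V)} (ω : Lab V) (n : ℕ) {z : Slot V} (hz : z ∉ J) :
    (stepS G θ J ω)^[n] 0 z = 0 := by
  cases n with
  | zero => rfl
  | succ n => rw [iter_succ, if_neg hz]

omit [G.LocallyFinite] in
theorem abs_iter_le (J : Finset (Slot V)) (ω : Lab V) (n : ℕ) (z : Slot V) :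
    |(stepS G θ J ω)^[n] 0 z| ≤ epsf (tim ω.1 z) := by
  cases n with
  | zero => simpa using epsf_nonneg _
  | succ n =>
    rw [iter_succ]
    split_ifs
    · exact abs_sig_le (epsf_nonneg _) _ _
    · simpa using epsf_nonneg _

omit [G.LocallyFinite] in
theorem iter_stable (J : Finset (Slot V)) (ω : Lab V) (n : ℕ) : ∀ z : Slot V,
    (J.filter (fun w => tim ω.1 w < tim ω.1 z)).card < n →
      (stepS G θ J ω)^[n + 1] 0 z = (stepS G θ J ω)^[n] 0 z := by
  induction n with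
  | zero => intro z hz; exact absurd hz (Nat.not_lt_zero _)
  | succ n ih =>
    intro z hz
    have : Lt ω.1 ((stepS G θ J ω)^[n + 1] 0) (tim ω.1 z) =
        Lt ω.1 ((stepS G θ J ω)^[n] 0) (tim ω.1 z) := by
      refine Set.indicator_congr fun w hw => ?_
      have hw' : tim ω.1 w < tim ω.1 z := hw
      by_cases hJ : w ∈ J
      · refine ih w (lt_of_lt_of_le (Finset.card_lt_card ⟨?_, ?_⟩) (Nat.lt_succ_iff.1 hz))
        · intro x hx
          rw [Finset.mem_filter] at hx ⊢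
          exact ⟨hx.1, hx.2.trans hw'⟩
        · intro hsub
          have := hsub (Finset.mem_filter.2 ⟨hJ, hw'⟩)
          exact lt_irrefl _ (Finset.mem_filter.1 this).2
      · rw [iter_of_notMem ω _ hJ, iter_of_notMem ω _ hJ]
    rw [iter_succ J ω (n + 1), this, ← iter_succ]

omit [G.LocallyFinite] in
theorem tim_eq {s : ℝ} {ω ω' : Lab V} (hω : Agree s ω ω') {z : Slot V}
    (hz : tim ω.1 z < s ∨ tim ω'.1 z < s) : tim ω.1 z = tim ω'.1 z := by
  unfold tim
  rw [(hω z hz).1]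

omit [G.LocallyFinite] in
theorem tm_eq {s : ℝ} {ω ω' : Lab V} (hω : Agree s ω ω') : tm s ω.1 = tm s ω'.1 := by
  ext z
  constructor
  · intro hz
    have hz' : tim ω.1 z < s := hz
    exact (tim_eq hω (Or.inl hz')).symm.trans_lt hz'
  · intro hz
    have hz' : tim ω'.1 z < s := hz
    exact (tim_eq hω (Or.inr hz')).trans_lt hz'

omit [G.LocallyFinite] in
theorem Lt_congr {s : ℝ} {ω ω' : Lab V} (hω : Agree s ω ω') {ℓ ℓ' : Slot V → ℝ}
    (hℓ : ∀ z, tim ω.1 z < s → ℓ z = ℓ' z) : Lt ω.1 ℓ s = Lt ω'.1 ℓ' s := by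
  unfold Lt
  rw [← tm_eq hω]
  exact Set.indicator_congr fun z hz => hℓ z hz

omit [G.LocallyFinite] in
theorem eq_of_Lt_eq {s : ℝ} {ω ω' : Lab V} (hω : Agree s ω ω') {ℓ ℓ' : Slot V → ℝ}
    (hℓ : Lt ω.1 ℓ s = Lt ω'.1 ℓ' s) {z : Slot V} (hz : tim ω.1 z < s) : ℓ z = ℓ' z := by
  have h1 := congrFun hℓ z
  unfold Lt at h1
  have hz' : z ∈ tm s ω.1 := hz
  rwa [← tm_eq hω, Set.indicator_of_mem hz', Set.indicator_of_mem hz'] at h1

omit [G.LocallyFinite] in
theorem agree_mono {s s' : ℝ} {ω ω' : Lab V} (hω : Agree s ω ω') (hs : s' ≤ s) :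
    Agree s' ω ω' := fun z hz =>
  hω z (hz.imp (fun h => h.trans_le hs) (fun h => h.trans_le hs))

omit [G.LocallyFinite] in
theorem iter_agree {s : ℝ} {ω ω' : Lab V} (hω : Agree s ω ω') (J : Finset (Slot V)) (n : ℕ) :
    ∀ z, tim ω.1 z < s → (stepS G θ J ω)^[n] 0 z = (stepS G θ J ω')^[n] 0 z := by
  induction n with
  | zero => intro z _; rw [Function.iterate_zero_apply, Function.iterate_zero_apply]
  | succ n ih =>
    intro z hz
    rw [iter_succ, iter_succ, ← tim_eq hω (Or.inl hz), ← (hω z (Or.inl hz)).2,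
      Lt_congr (agree_mono hω hz.le) fun w hw => ih w (hw.trans hz)]

end SampAux

/-! ### The samplers: bounds, fixed point, locality -/

omit [G.LocallyFinite] in
theorem samp_of_notMem {J : Finset (Slot V)} (ω : Lab V) {z : Slot V} (hz : z ∉ J) :
    samp G θ J ω z = 0 := by
  exact SampAux.iter_of_notMem ω _ hz

omit [G.LocallyFinite] in
theorem abs_samp_le (J : Finset (Slot V)) (ω : Lab V) (z : Slot V) :
    |samp G θ J ω z| ≤ epsf (tim ω.1 z) := by
  exact SampAux.abs_iter_le J ω _ z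

omit [G.LocallyFinite] in
theorem bd_samp (J : Finset (Slot V)) (ω : Lab V) : Bd (samp G θ J ω) := by
  exact fun z => (abs_samp_le J ω z).trans (epsf_le _)

omit [G.LocallyFinite] in
theorem samp_eq {J : Finset (Slot V)} (ω : Lab V) {z : Slot V} (hz : z ∈ J) :
    samp G θ J ω z =
      sig (epsf (tim ω.1 z)) (mag G θ (Lt ω.1 (samp G θ J ω) (tim ω.1 z)) z.1) (ω.2 z) := by
  have h1 := SampAux.iter_stable (G := G) (θ := θ) J ω J.card z (Finset.card_lt_card
    ⟨Finset.filter_subset _ _, fun hsub => lt_irrefl _ (Finset.mem_filter.1 (hsub hz)).2⟩)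
  rw [SampAux.iter_succ, if_pos hz] at h1
  exact h1.symm

omit [G.LocallyFinite] in
theorem bd_Psi (ω : Lab V) : Bd (Psi G θ ω) := by
  intro z
  have hb : ∀ R, |samp G θ (box G z.1 R) ω z| ≤ 1 / 2 := fun R => bd_samp _ ω z
  have h1 : IsBoundedUnder (· ≤ ·) atTop (fun R => samp G θ (box G z.1 R) ω z) :=
    isBoundedUnder_of ⟨1 / 2, fun R => (abs_le.1 (hb R)).2⟩
  have h2 : IsBoundedUnder (· ≥ ·) atTop (fun R => samp G θ (box G z.1 R) ω z) :=
    isBoundedUnder_of ⟨-(1 / 2), fun R => (abs_le.1 (hb R)).1⟩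
  refine abs_le.2 ⟨?_, ?_⟩
  · exact le_limsup_of_frequently_le (Frequently.of_forall fun R => (abs_le.1 (hb R)).1) h1
  · exact limsup_le_of_le h2.isCoboundedUnder_le (Eventually.of_forall fun R => (abs_le.1 (hb R)).2)

omit [G.LocallyFinite] in
theorem bd_Ls (s : ℝ) (ω : Lab V) : Bd (Ls G θ s ω) := by
  exact (bd_Psi ω).lt _ _

omit [G.LocallyFinite] in
theorem abs_dd_le (θ θ' s : ℝ) (v : V) (ω : Lab V) : |dd G θ θ' s v ω| ≤ 2 := by
  unfold dd
  refine (abs_sub _ _).trans ?_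
  have h1 := abs_mag_le (G := G) (θ := θ) (bd_Ls (G := G) (θ := θ) s ω) v
  have h2 := abs_mag_le (G := G) (θ := θ') (bd_Ls (G := G) (θ := θ') s ω) v
  linarith

omit [G.LocallyFinite] in
theorem FF_nonneg (θ θ' s : ℝ) (o v : V) (ω : Lab V) : 0 ≤ FF G θ θ' s o v ω := by
  unfold FF
  positivity

theorem FF_le (h : RT G d) {θ θ' : ℝ} (hθ : Subc d θ) (hθ' : Subc d θ') (s : ℝ) (o v : V)
    (ω : Lab V) : FF G θ θ' s o v ω ≤ 136 := by
  unfold FF
  have hle : ∀ {t : ℝ}, Subc d t → KK G t (Ls G t s ω) o v ≤ 1 := fun ht =>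
    (KK_le_pow h ht (bd_Ls s ω) o v).trans (pow_le_one₀ ht.1 ((Subc.le h ht).trans (by norm_num)))
  have a0 := KK_nonneg h hθ (bd_Ls (G := G) (θ := θ) s ω) o v
  have a1 := hle hθ
  have b0 := KK_nonneg h hθ' (bd_Ls (G := G) (θ := θ') s ω) o v
  have b1 := hle hθ'
  have c1 : dd G θ θ' s v ω ^ 2 ≤ 2 ^ 2 := by
    rw [← sq_abs]
    exact pow_le_pow_left₀ (abs_nonneg _) (abs_dd_le θ θ' s v ω) 2
  have e1 : (KK G θ (Ls G θ s ω) o v - KK G θ' (Ls G θ' s ω) o v) ^ 2 ≤ 1 ^ 2 :=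
    sq_le_sq' (by linarith) (by linarith)
  have e2 : KK G θ' (Ls G θ' s ω) o v ^ 2 ≤ 1 := pow_le_one₀ b0 b1
  have e3 : KK G θ' (Ls G θ' s ω) o v ^ 2 * dd G θ θ' s v ω ^ 2 ≤ 1 * 2 ^ 2 :=
    mul_le_mul e2 c1 (sq_nonneg _) zero_le_one
  rw [mul_assoc]
  linarith

omit [G.LocallyFinite] in
theorem Agree.mono {s s' : ℝ} {ω ω' : Lab V} (hω : Agree s ω ω') (hs : s' ≤ s) :
    Agree s' ω ω' := by
  exact SampAux.agree_mono hω hs

omit [G.LocallyFinite] in
theorem agree_update_fst (ω : Lab V) {s : ℝ} {z : Slot V} {r : I} (h1 : s ≤ tim ω.1 z)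
    (h2 : s ≤ (z.2 : ℝ) + (r : ℝ)) : Agree s (Function.update ω.1 z r, ω.2) ω := by
  intro w hw
  by_cases hwz : w = z
  · subst hwz
    exfalso
    rcases hw with hw | hw
    · simp only [tim, Function.update_self] at hw
      exact absurd hw (not_lt.2 h2)
    · exact absurd hw (not_lt.2 h1)
  · exact ⟨Function.update_of_ne hwz _ _, rfl⟩

omit [G.LocallyFinite] in
theorem agree_update_snd (ω : Lab V) {s : ℝ} {z : Slot V} (r : I) (h1 : s ≤ tim ω.1 z) :
    Agree s (ω.1, Function.update ω.2 z r) ω := by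
  intro w hw
  by_cases hwz : w = z
  · subst hwz
    exfalso
    rcases hw with hw | hw <;> exact absurd hw (not_lt.2 h1)
  · exact ⟨rfl, Function.update_of_ne hwz _ _⟩

omit [G.LocallyFinite] in
theorem Lt_samp_agree {s : ℝ} {ω ω' : Lab V} (hω : Agree s ω ω') (J : Finset (Slot V)) :
    Lt ω.1 (samp G θ J ω) s = Lt ω'.1 (samp G θ J ω') s := by
  exact SampAux.Lt_congr hω (SampAux.iter_agree hω J J.card)

omit [G.LocallyFinite] in
theorem Ls_agree {s : ℝ} {ω ω' : Lab V} (hω : Agree s ω ω') : Ls G θ s ω = Ls G θ s ω' := by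
  refine SampAux.Lt_congr hω fun z hz => ?_
  unfold Psi
  congr 1
  funext R
  exact SampAux.iter_agree hω _ _ z hz

omit [G.LocallyFinite] in
/-- Signals that agree before `s` have the same field before `s`. -/
theorem Lt_Ly_agree {s : ℝ} {T y T' y' : Lb V} (hω : Agree s (T, y) (T', y')) :
    Lt T (Ly T y) s = Lt T' (Ly T' y') s := by
  refine SampAux.Lt_congr hω fun z hz => ?_
  have h1 : tim T z = tim T' z := SampAux.tim_eq hω (Or.inl hz)
  have h2 : y z = y' z := (hω z (Or.inl hz)).2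
  unfold Ly
  rw [h1, h2]

omit [G.LocallyFinite] in
/-- Signals that agree before `s` have innovations that agree before `s`. -/
theorem Uy_agree {s : ℝ} {T y T' y' : Lb V} (hω : Agree s (T, y) (T', y')) :
    Agree s (T, Uy G θ T y) (T', Uy G θ T' y') := by
  intro z hz
  have h1 : tim T z = tim T' z := SampAux.tim_eq hω hz
  have h2 : y z = y' z := (hω z hz).2
  have h3 : tim T z < s := by
    rcases hz with hz | hz
    · exact hz
    · exact h1.trans_lt hz
  refine ⟨(hω z hz).1, ?_⟩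
  change Uy G θ T y z = Uy G θ T' y' z
  unfold Uy
  rw [Lt_Ly_agree (hω.mono h3.le), h1, h2]

omit [G.LocallyFinite] in
/-- Moving a late time does not change the signals of the weak model before `s`. -/
theorem agree_Yw_update (ω : Om V) {s : ℝ} {z : Slot V} {r : I} (h1 : s ≤ tim ω.1 z)
    (h2 : s ≤ (z.2 : ℝ) + (r : ℝ)) :
    Agree s (Function.update ω.1 z r, Yw (Function.update ω.1 z r, ω.2)) (ω.1, Yw ω) := by
  intro w hw
  by_cases hwz : w = z
  · subst hwz
    exfalso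
    rcases hw with hw | hw
    · simp only [tim, Function.update_self] at hw
      exact absurd hw (not_lt.2 h2)
    · exact absurd hw (not_lt.2 h1)
  · have h3 : Function.update ω.1 z r w = ω.1 w := Function.update_of_ne hwz _ _
    refine ⟨h3, ?_⟩
    simp only [Yw, tim, h3]

omit [G.LocallyFinite] in
/-- The field is recovered from the innovations. -/
theorem Ly_eq_sig (T y : Lb V) (z : Slot V) :
    Ly T y z = sig (epsf (tim T z)) (mag G θ (Lt T (Ly T y) (tim T z)) z.1) (Uy G θ T y z) := by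
  have h1 : |epsf (tim T z) * mag G θ (Lt T (Ly T y) (tim T z)) z.1| ≤ 1 / 2 := by
    rw [abs_mul, abs_of_nonneg (epsf_nonneg _)]
    calc _ ≤ 1 / 2 * 1 := mul_le_mul (epsf_le _) (abs_mag_le ((bd_Ly T y).lt _ _) _)
          (abs_nonneg _) (by norm_num)
      _ = 1 / 2 := by norm_num
  unfold sig Uy
  rw [qt_cdq h1]
  rfl

end Crest.Agent.R160

end
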