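import Crest.Agent.R160.Innov
import Crest.Agent.R160.Palm
import Crest.Agent.R160.JR
import Crest.Agent.R160.Diff

/-!
Below the threshold the finite-volume samplers converge to the field of the weak model.
-/

set_option autoImplicit false

open MeasureTheory unitInterval Filter Topology
open Crest.ProbabilityR Crest.ProbabilityR.Labels Crest.ProbabilityR.TreeIsing
open scoped Classical

noncomputable section

namespace Crest.Agent.R160

universe u

variable {V : Type u} {G : SimpleGraph V} [G.LocallyFinite] {d : ℕ}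

namespace Step2Aux

/-- The field of the signals before `s`. -/
def dLW (p : Lb V × Lb V) (s : ℝ) : Slot V → ℝ := Lt p.1 (Ly p.1 p.2) s

/-- The field of the finite-volume sampler driven by the innovations, before `s`. -/
def dLJ (G : SimpleGraph V) (θ : ℝ) (J : Finset (Slot V)) (p : Lb V × Lb V) (s : ℝ) :
    Slot V → ℝ := Lt p.1 (samp G θ J (p.1, Uy G θ p.1 p.2)) s

/-- The difference of the two jumps at the slot `z`. -/
def dD (G : SimpleGraph V) (θ : ℝ) (J : Finset (Slot V)) (o : V) (z : Slot V)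
    (p : Lb V × Lb V) (u : I) : ℝ :=
  KK G θ (dLW p (tim p.1 z)) o z.1 *
      phi (epsf (tim p.1 z)) (mag G θ (dLW p (tim p.1 z)) z.1) u -
    if z ∈ J then KK G θ (dLJ G θ J p (tim p.1 z)) o z.1 *
      phi (epsf (tim p.1 z)) (mag G θ (dLJ G θ J p (tim p.1 z)) z.1) u else 0

/-- The difference of the two posterior means. -/
def dl (G : SimpleGraph V) (θ : ℝ) (J : Finset (Slot V)) (o : V) (s : ℝ) (ω : Om V) : ℝ :=
  mag G θ (dLW (ω.1, Yw ω) s) o - mag G θ (dLJ G θ J (ω.1, Yw ω) s) o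

/-- The jump process. -/
def DD (G : SimpleGraph V) (θ : ℝ) (J : Finset (Slot V)) (o : V) (z : Slot V) (ω : Om V) : ℝ :=
  dD G θ J o z (ω.1, Yw ω) (Uw G θ ω z)

/-- The growth rate due to the slots over `x`. -/
def FF2 (G : SimpleGraph V) (θ : ℝ) (J : Finset (Slot V)) (B : Finset V) (o x : V) (s : ℝ)
    (ω : Om V) : ℝ :=
  if x ∈ B then
    8 * (KK G θ (dLW (ω.1, Yw ω) s) o x - KK G θ (dLJ G θ J (ω.1, Yw ω) s) o x) ^ 2 +
      32 * KK G θ (dLJ G θ J (ω.1, Yw ω) s) o x ^ 2 * dl G θ J x s ω ^ 2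
  else 4 * KK G θ (dLW (ω.1, Yw ω) s) o x ^ 2

/-- The mean square difference. -/
def uJ (G : SimpleGraph V) (θ : ℝ) (J : Finset (Slot V)) (o : V) (s : ℝ) : ℝ :=
  ∫ ω, dl G θ J o s ω ^ 2 ∂(Pw G θ)

variable {θ : ℝ} {J : Finset (Slot V)}

omit [G.LocallyFinite] in
theorem bd_dLW (p : Lb V × Lb V) (s : ℝ) : Bd (dLW p s) := (bd_Ly _ _).lt _ _

omit [G.LocallyFinite] in
theorem bd_dLJ (p : Lb V × Lb V) (s : ℝ) : Bd (dLJ G θ J p s) := (bd_samp _ _).lt _ _

omit [G.LocallyFinite] in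
theorem dLJ_notMem (p : Lb V × Lb V) (s : ℝ) (z : Slot V) (hz : z ∉ J) :
    dLJ G θ J p s z = 0 := by
  unfold dLJ Lt
  rw [Set.indicator_apply, samp_of_notMem _ hz, ite_self]

omit [G.LocallyFinite] in
theorem dLW_agree {s : ℝ} {p p' : Lb V × Lb V} (hp : Agree s p p') : dLW p s = dLW p' s :=
  Lt_Ly_agree (T := p.1) (y := p.2) (T' := p'.1) (y' := p'.2) hp

omit [G.LocallyFinite] in
theorem dLJ_agree {s : ℝ} {p p' : Lb V × Lb V} (hp : Agree s p p') :
    dLJ G θ J p s = dLJ G θ J p' s :=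
  Lt_samp_agree (Uy_agree (G := G) (θ := θ) (T := p.1) (y := p.2) (T' := p'.1) (y' := p'.2) hp) J

section meas

variable {α : Type*} [MeasurableSpace α] {p : α → Lb V × Lb V} {s : α → ℝ}

omit [G.LocallyFinite] in
theorem meas_dLW (hp : Measurable p) (hs : Measurable s) :
    Measurable (fun a => dLW (p a) (s a)) :=
  measurable_Lt.comp (hs.prodMk (hp.fst.prodMk (measurable_Ly.comp hp)))

omit [G.LocallyFinite] in
theorem meas_dLJ (hp : Measurable p) (hs : Measurable s) :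
    Measurable (fun a => dLJ G θ J (p a) (s a)) :=
  measurable_Lt.comp (hs.prodMk (hp.fst.prodMk
    ((measurable_samp J).comp (hp.fst.prodMk (measurable_Uy.comp hp)))))

omit [G.LocallyFinite] in
theorem meas_dD (o : V) (z : Slot V) (hp : Measurable p) {u : α → I} (hu : Measurable u) :
    Measurable (fun a => dD G θ J o z (p a) (u a)) := by
  have ht : Measurable (fun a => tim (p a).1 z) := (measurable_tim z).comp hp.fst
  have he : Measurable (fun a => epsf (tim (p a).1 z)) := measurable_epsf.comp ht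
  have h1 := meas_dLW hp ht
  have h2 := meas_dLJ (G := G) (θ := θ) (J := J) hp ht
  have h3 : Measurable (fun a => KK G θ (dLW (p a) (tim (p a).1 z)) o z.1 *
      phi (epsf (tim (p a).1 z)) (mag G θ (dLW (p a) (tim (p a).1 z)) z.1) (u a)) :=
    ((measurable_KK o z.1).comp h1).mul
      (measurable_phi.comp (he.prodMk (((measurable_mag z.1).comp h1).prodMk hu)))
  have h4 : Measurable (fun a => KK G θ (dLJ G θ J (p a) (tim (p a).1 z)) o z.1 *
      phi (epsf (tim (p a).1 z)) (mag G θ (dLJ G θ J (p a) (tim (p a).1 z)) z.1) (u a)) :=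
    ((measurable_KK o z.1).comp h2).mul
      (measurable_phi.comp (he.prodMk (((measurable_mag z.1).comp h2).prodMk hu)))
  unfold dD
  by_cases hz : z ∈ J
  · simp only [if_pos hz]
    exact h3.sub h4
  · simp only [if_neg hz]
    exact h3.sub measurable_const

end meas

omit [G.LocallyFinite] in
theorem meas_data : Measurable (fun ω : Om V => ((ω.1, Yw ω) : Lb V × Lb V)) :=
  measurable_fst.prodMk measurable_Yw

omit [G.LocallyFinite] in
theorem meas_DD (o : V) (z : Slot V) : Measurable (DD G θ J o z) :=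
  meas_dD o z meas_data ((measurable_pi_apply z).comp measurable_Uw)

omit [G.LocallyFinite] in
theorem meas_dl_joint (o : V) : Measurable (fun q : ℝ × Om V => dl G θ J o q.1 q.2) :=
  ((measurable_mag o).comp (meas_dLW (meas_data.comp measurable_snd) measurable_fst)).sub
    ((measurable_mag o).comp (meas_dLJ (meas_data.comp measurable_snd) measurable_fst))

omit [G.LocallyFinite] in
theorem meas_dl (o : V) (s : ℝ) : Measurable (dl G θ J o s) :=
  ((measurable_mag o).comp (meas_dLW meas_data (measurable_const (a := s)))).sub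
    ((measurable_mag o).comp (meas_dLJ meas_data (measurable_const (a := s))))

omit [G.LocallyFinite] in
theorem meas_FF2 (B : Finset V) (o x : V) :
    Measurable (fun q : ℝ × Om V => FF2 G θ J B o x q.1 q.2) := by
  have h1 : Measurable (fun q : ℝ × Om V => KK G θ (dLW (q.2.1, Yw q.2) q.1) o x) :=
    (measurable_KK o x).comp (meas_dLW (meas_data.comp measurable_snd) measurable_fst)
  have h2 : Measurable (fun q : ℝ × Om V => KK G θ (dLJ G θ J (q.2.1, Yw q.2) q.1) o x) :=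
    (measurable_KK o x).comp (meas_dLJ (meas_data.comp measurable_snd) measurable_fst)
  have h3 := meas_dl_joint (G := G) (θ := θ) (J := J) x
  unfold FF2
  by_cases hx : x ∈ B
  · simp only [if_pos hx]
    exact (((h1.sub h2).pow_const 2).const_mul 8).add
      (((h2.pow_const 2).const_mul 32).mul (h3.pow_const 2))
  · simp only [if_neg hx]
    exact (h1.pow_const 2).const_mul 4

omit [G.LocallyFinite] in
theorem abs_dl_le (o : V) (s : ℝ) (ω : Om V) : |dl G θ J o s ω| ≤ 2 := by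
  have h1 := abs_mag_le (G := G) (θ := θ) (bd_dLW (ω.1, Yw ω) s) o
  have h2 := abs_mag_le (G := G) (θ := θ) (bd_dLJ (G := G) (θ := θ) (J := J) (ω.1, Yw ω) s) o
  unfold dl
  exact (abs_sub _ _).trans (by linarith)

omit [G.LocallyFinite] in
theorem dl_sq_le (o : V) (s : ℝ) (ω : Om V) : dl G θ J o s ω ^ 2 ≤ 4 := by
  have h := abs_dl_le (G := G) (θ := θ) (J := J) o s ω
  rw [← sq_abs]
  nlinarith [abs_nonneg (dl G θ J o s ω)]

theorem KK_le_one (h : RT G d) (hθ : Subc d θ) {ℓ : Slot V → ℝ} (hℓ : Bd ℓ) (o z : V) :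
    KK G θ ℓ o z ≤ 1 :=
  (KK_le_pow h hθ hℓ o z).trans (pow_le_one₀ hθ.1 ((hθ.le h).trans (by norm_num)))

theorem KK_sq_le_pow (h : RT G d) (hθ : Subc d θ) {ℓ : Slot V → ℝ} (hℓ : Bd ℓ) (o z : V) :
    KK G θ ℓ o z ^ 2 ≤ (θ ^ 2) ^ G.dist o z := by
  rw [← pow_mul, mul_comm, pow_mul]
  exact pow_le_pow_left₀ (KK_nonneg h hθ hℓ o z) (KK_le_pow h hθ hℓ o z) 2

theorem abs_jump_le (h : RT G d) (hθ : Subc d θ) {ℓ : Slot V → ℝ} (hℓ : Bd ℓ) (o x : V) (t : ℝ)
    (u : I) : |KK G θ ℓ o x * phi (epsf t) (mag G θ ℓ x) u| ≤ 1 := by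
  have h1 := abs_phi_le (epsf_nonneg t) (epsf_le t) (abs_mag_le (G := G) (θ := θ) hℓ x) u
  have h2 := epsf_le t
  rw [abs_mul, abs_of_nonneg (KK_nonneg h hθ hℓ o x)]
  exact mul_le_one₀ (KK_le_one h hθ hℓ o x) (abs_nonneg _) (by linarith)

theorem abs_dD_le (h : RT G d) (hθ : Subc d θ) (o : V) (z : Slot V) (p : Lb V × Lb V) (u : I) :
    |dD G θ J o z p u| ≤ 2 := by
  have h1 := abs_jump_le h hθ (bd_dLW p (tim p.1 z)) o z.1 (tim p.1 z) u
  have h2 := abs_jump_le h hθ (bd_dLJ (G := G) (θ := θ) (J := J) p (tim p.1 z)) o z.1 (tim p.1 z) u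
  unfold dD
  split_ifs
  · exact (abs_sub _ _).trans (by linarith)
  · rw [sub_zero]
    linarith

omit [G.LocallyFinite] in
theorem integral_dD (o : V) (z : Slot V) (p : Lb V × Lb V) :
    ∫ u : I, dD G θ J o z p u = 0 := by
  have key : ∀ {ℓ : Slot V → ℝ}, Bd ℓ → ∀ K : ℝ,
      Integrable (fun u : I => K * phi (epsf (tim p.1 z)) (mag G θ ℓ z.1) u) ∧
      ∫ u : I, K * phi (epsf (tim p.1 z)) (mag G θ ℓ z.1) u = 0 := by
    intro ℓ hℓ K
    have hm := abs_mag_le (G := G) (θ := θ) hℓ z.1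
    refine ⟨(R168.integrable_of_abs_le
      (measurable_phi.comp (measurable_const.prodMk (measurable_const.prodMk measurable_id))) _
      (fun u => abs_phi_le (epsf_nonneg _) (epsf_le _) hm u)).const_mul K, ?_⟩
    rw [integral_const_mul, integral_phi (epsf_nonneg _) (epsf_le _) hm, mul_zero]
  unfold dD
  by_cases hz : z ∈ J
  · simp only [if_pos hz]
    rw [integral_sub (key (bd_dLW _ _) _).1 (key (bd_dLJ _ _) _).1, (key (bd_dLW _ _) _).2,
      (key (bd_dLJ _ _) _).2, sub_zero]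
  · simp only [if_neg hz, sub_zero]
    exact (key (bd_dLW _ _) _).2

omit [G.LocallyFinite] in
theorem dD_agree (o : V) (z : Slot V) {T y y' : Lb V} (hp : Agree (tim T z) (T, y) (T, y'))
    (u : I) : dD G θ J o z (T, y) u = dD G θ J o z (T, y') u := by
  unfold dD
  simp only [dLW_agree hp, dLJ_agree hp]

theorem horth (h : RT G d) (hθ : Subc d θ) (o : V) (z w : Slot V) (E : Set (Lb V))
    (hE : MeasurableSet E) (hzw : ∀ T ∈ E, tim T z < tim T w) :
    ∫ ω, (if ω.1 ∈ E then DD G θ J o z ω * DD G θ J o w ω else 0) ∂(Pw G θ) = 0 := by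
  have hm : Measurable (fun q : (Lb V × Lb V) × I => if q.1.1 ∈ E then
      dD G θ J o z q.1 (Uy G θ q.1.1 q.1.2 z) * dD G θ J o w q.1 q.2 else 0) :=
    Measurable.ite (measurable_fst.fst hE)
      ((meas_dD o z measurable_fst
        ((measurable_pi_apply z).comp (measurable_Uy.comp measurable_fst))).mul
        (meas_dD o w measurable_fst measurable_snd)) measurable_const
  have h1 := innov h hθ w hm (C := 4) (fun q => by
      split_ifs
      · rw [abs_mul]
        have h1 := abs_dD_le (J := J) h hθ o z q.1 (Uy G θ q.1.1 q.1.2 z)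
        have h2 := abs_dD_le (J := J) h hθ o w q.1 q.2
        nlinarith [abs_nonneg (dD G θ J o z q.1 (Uy G θ q.1.1 q.1.2 z)),
          abs_nonneg (dD G θ J o w q.1 q.2)]
      · norm_num)
    (fun u T y y' hy => by
      have ha : Agree (tim T w) (T, y) (T, y') := fun x hx => ⟨rfl, hy x (hx.elim id id)⟩
      dsimp only
      split_ifs with hT
      · have hlt := hzw T hT
        have hU : Uy G θ T y z = Uy G θ T y' z :=
          (Uy_agree (G := G) (θ := θ) ha z (Or.inl hlt)).2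
        rw [dD_agree o w ha, dD_agree o z (ha.mono hlt.le), hU]
      · rfl)
  refine h1.trans ?_
  refine integral_eq_zero_of_ae (Eventually.of_forall (fun ω => ?_))
  dsimp only
  split_ifs
  · rw [integral_const_mul, integral_dD, mul_zero]
    rfl
  · simp

theorem happ (h : RT G d) (hθ : Subc d θ) (o : V) (s : ℝ) :
    Tendsto (fun R => ∫ ω, (dl G θ J o s ω -
      ∑ z ∈ box G o R, if tim ω.1 z < s then DD G θ J o z ω else 0) ^ 2 ∂(Pw G θ)) atTop (𝓝 0) := by
  have := h.countable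
  refine (jr h hθ o s).congr' ?_
  filter_upwards [eventually_subset_box h o J] with R hR
  refine integral_congr_ae ?_
  have hae : ∀ᵐ ω ∂(Pw G θ), Function.Injective (tim ω.1) :=
    (measurePreserving_fst (μ := nu V) (ν := (ising G θ).prod (nu V))).quasiMeasurePreserving.ae
      ae_tim_injective
  filter_upwards [hae] with ω hω
  have h1 := jsum_exact h hθ (bd_samp (G := G) (θ := θ) J (ω.1, Uw G θ ω))
    (fun z hz => samp_of_notMem _ hz) hω o s
  have h2 : jsum G θ o (box G o R) s ω.1 (Lw ω) = ∑ z ∈ box G o R, if tim ω.1 z < s then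
      KK G θ (dLW (ω.1, Yw ω) (tim ω.1 z)) o z.1 * phi (epsf (tim ω.1 z))
        (mag G θ (dLW (ω.1, Yw ω) (tim ω.1 z)) z.1) (Uw G θ ω z) else 0 := by
    unfold jsum
    refine Finset.sum_congr rfl (fun z _ => ?_)
    have h3 : Lw ω z = sig (epsf (tim ω.1 z)) (mag G θ (dLW (ω.1, Yw ω) (tim ω.1 z)) z.1)
        (Uw G θ ω z) := Ly_eq_sig (G := G) (θ := θ) ω.1 (Yw ω) z
    rw [h3]
    rfl
  have h4 : jsum G θ o J s ω.1 (samp G θ J (ω.1, Uw G θ ω)) = ∑ z ∈ box G o R,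
      if tim ω.1 z < s then (if z ∈ J then
        KK G θ (dLJ G θ J (ω.1, Yw ω) (tim ω.1 z)) o z.1 * phi (epsf (tim ω.1 z))
          (mag G θ (dLJ G θ J (ω.1, Yw ω) (tim ω.1 z)) z.1) (Uw G θ ω z) else 0) else 0 := by
    unfold jsum
    rw [← Finset.sum_subset hR (fun z _ hz => by simp only [if_neg hz, ite_self])]
    refine Finset.sum_congr rfl (fun z hz => ?_)
    have h3 : samp G θ J (ω.1, Uw G θ ω) z = sig (epsf (tim ω.1 z))
        (mag G θ (dLJ G θ J (ω.1, Yw ω) (tim ω.1 z)) z.1) (Uw G θ ω z) :=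
      samp_eq (ω.1, Uw G θ ω) hz
    rw [h3, if_pos hz]
    rfl
  have h5 : dl G θ J o s ω = mag G θ (Lt ω.1 (Lw ω) s) o -
      mag G θ (Lt ω.1 (samp G θ J (ω.1, Uw G θ ω)) s) o := rfl
  rw [h5, h1, h2, h4]
  congr 1
  rw [sub_sub, ← Finset.sum_add_distrib]
  congr 1
  refine Finset.sum_congr rfl (fun z _ => ?_)
  unfold DD dD
  split_ifs <;> simp

theorem iso (h : RT G d) (hθ : Subc d θ) (o : V) {s₁ s₂ : ℝ} (hs : s₁ ≤ s₂) :
    uJ G θ J o s₁ ≤ uJ G θ J o s₂ ∧
    ∀ b : ℝ, (∀ R, ∑ z ∈ box G o R, ∫ ω, (if s₁ ≤ tim ω.1 z ∧ tim ω.1 z < s₂ then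
        DD G θ J o z ω ^ 2 else 0) ∂(Pw G θ) ≤ b) → uJ G θ J o s₂ ≤ uJ G θ J o s₁ + b := by
  have := h.countable
  exact iso_incr ((ising G θ).prod (nu V)) (box G o) (DD G θ J o) (meas_DD o)
    (fun z ω => abs_dD_le h hθ o z _ _) (horth h hθ o) (dl G θ J o) (meas_dl o) (abs_dl_le o) hs
    (fun s _ => happ h hθ o s)

omit [G.LocallyFinite] in
theorem uJ_nonneg (o : V) (s : ℝ) : 0 ≤ uJ G θ J o s := integral_nonneg (fun _ => sq_nonneg _)

omit [G.LocallyFinite] in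
theorem integrable_dl_sq (o : V) (s : ℝ) : Integrable (fun ω => dl G θ J o s ω ^ 2) (Pw G θ) :=
  R168.integrable_of_abs_le ((meas_dl o s).pow_const 2) 4
    (fun ω => by rw [abs_of_nonneg (sq_nonneg _)]; exact dl_sq_le o s ω)

omit [G.LocallyFinite] in
theorem uJ_le (o : V) (s : ℝ) : uJ G θ J o s ≤ 4 := by
  have h := integral_mono (integrable_dl_sq (G := G) (θ := θ) (J := J) o s) (integrable_const 4)
    (dl_sq_le o s)
  simpa [uJ] using h

omit [G.LocallyFinite] in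
theorem uJ_zero (o : V) : uJ G θ J o 0 = 0 := by
  have key : ∀ (T : Lb V) (ℓ : Slot V → ℝ), Lt T ℓ 0 = 0 := by
    intro T ℓ
    funext z
    have hz : z ∉ tm 0 T := by
      have h1 : (0 : ℝ) ≤ tim T z := add_nonneg (Nat.cast_nonneg _) (T z).2.1
      exact not_lt.2 h1
    exact Set.indicator_of_notMem hz _
  unfold uJ dl dLW dLJ
  simp only [key, sub_self]
  simp

omit [G.LocallyFinite] in
theorem FF2_nonneg (B : Finset V) (o x : V) (s : ℝ) (ω : Om V) : 0 ≤ FF2 G θ J B o x s ω := by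
  unfold FF2
  split_ifs <;> positivity

theorem FF2_le (h : RT G d) (hθ : Subc d θ) (B : Finset V) (o x : V) (s : ℝ) (ω : Om V) :
    FF2 G θ J B o x s ω ≤ 136 := by
  have a1 := KK_nonneg h hθ (bd_dLW (ω.1, Yw ω) s) o x
  have a2 := KK_le_one h hθ (bd_dLW (ω.1, Yw ω) s) o x
  have a3 := KK_nonneg h hθ (bd_dLJ (G := G) (θ := θ) (J := J) (ω.1, Yw ω) s) o x
  have a4 := KK_le_one h hθ (bd_dLJ (G := G) (θ := θ) (J := J) (ω.1, Yw ω) s) o x
  have a5 := dl_sq_le (G := G) (θ := θ) (J := J) x s ω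
  unfold FF2
  split_ifs
  · have b1 : (KK G θ (dLW (ω.1, Yw ω) s) o x - KK G θ (dLJ G θ J (ω.1, Yw ω) s) o x) ^ 2 ≤ 1 := by
      nlinarith
    have b2 : KK G θ (dLJ G θ J (ω.1, Yw ω) s) o x ^ 2 ≤ 1 := by nlinarith
    have b3 : KK G θ (dLJ G θ J (ω.1, Yw ω) s) o x ^ 2 * dl G θ J x s ω ^ 2 ≤ 1 * 4 :=
      mul_le_mul b2 a5 (sq_nonneg _) zero_le_one
    linarith
  · nlinarith

omit [G.LocallyFinite] in
theorem FF2_loc (B : Finset V) (o x : V) (s : ℝ) (T : Lb V) (ξ : (V → Bool) × Lb V) (z : Slot V)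
    (r : I) (h1 : s ≤ tim T z) (h2 : s ≤ (z.2 : ℝ) + (r : ℝ)) :
    FF2 G θ J B o x s (Function.update T z r, ξ) = FF2 G θ J B o x s (T, ξ) := by
  have ha := agree_Yw_update ((T, ξ) : Om V) h1 h2
  have e1 : dLW (Function.update T z r, Yw (Function.update T z r, ξ)) s =
      dLW (T, Yw (T, ξ)) s := dLW_agree ha
  have e2 : dLJ G θ J (Function.update T z r, Yw (Function.update T z r, ξ)) s =
      dLJ G θ J (T, Yw (T, ξ)) s := dLJ_agree ha
  unfold FF2 dl
  simp only [e1, e2]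

theorem DD_sq_le (h : RT G d) (v : V) (R : ℕ) (o : V) (z : Slot V) (ω : Om V)
    (hz : tim ω.1 z < R) :
    DD G θ (box G v R) o z ω ^ 2 ≤
      epsf (tim ω.1 z) ^ 2 * FF2 G θ (box G v R) (ball G v R) o z.1 (tim ω.1 z) ω := by
  have h2 : z.2 < R := by
    have h3 : (z.2 : ℝ) ≤ tim ω.1 z := le_add_of_nonneg_right (ω.1 z).2.1
    exact_mod_cast h3.trans_lt hz
  have hiff : z ∈ box G v R ↔ z.1 ∈ ball G v R := by
    rw [mem_box h, mem_ball h]
    exact ⟨fun h => h.1, fun h => ⟨h, h2⟩⟩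
  have m1 := abs_mag_le (G := G) (θ := θ) (bd_dLW (ω.1, Yw ω) (tim ω.1 z)) z.1
  have m2 := abs_mag_le (G := G) (θ := θ)
    (bd_dLJ (G := G) (θ := θ) (J := box G v R) (ω.1, Yw ω) (tim ω.1 z)) z.1
  unfold DD dD FF2
  by_cases hb : z.1 ∈ ball G v R
  · rw [if_pos hb, if_pos (hiff.2 hb)]
    exact jump_sub_sq_le (epsf_nonneg _) (epsf_le _) m1 m2 _ _ _
  · rw [if_neg hb, if_neg (fun h => hb (hiff.1 h)), sub_zero, mul_pow]
    have h3 := abs_phi_le (epsf_nonneg (tim ω.1 z)) (epsf_le _) m1 (Uw G θ ω z)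
    have h4 := pow_le_pow_left₀ (abs_nonneg _) h3 2
    rw [sq_abs] at h4
    calc _ ≤ KK G θ (dLW (ω.1, Yw ω) (tim ω.1 z)) o z.1 ^ 2 * (2 * epsf (tim ω.1 z)) ^ 2 :=
          mul_le_mul_of_nonneg_left h4 (sq_nonneg _)
      _ = _ := by ring

theorem incr (h : RT G d) (hθ : Subc d θ) (v : V) (R : ℕ) (o : V) {s₁ s₂ b : ℝ} (hs : s₁ ≤ s₂)
    (hsR : s₂ ≤ R) (hb : 0 ≤ b)
    (hB : ∀ s ∈ Set.Ico s₁ s₂, ∀ N : ℕ,
      ∑ x ∈ ball G o N, ∫ ω, FF2 G θ (box G v R) (ball G v R) o x s ω ∂(Pw G θ) ≤ b) :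
    uJ G θ (box G v R) o s₂ ≤ uJ G θ (box G v R) o s₁ + 2 * (s₂ - s₁) * b := by
  refine (iso h hθ o hs).2 _ (fun N => ?_)
  have hp := palm_sum ((ising G θ).prod (nu V)) (ball G o N) N
    (FF2 G θ (box G v R) (ball G v R) o) (meas_FF2 _ o) (FF2_nonneg _ o) (FF2_le h hθ _ o)
    (FF2_loc _ o) hs hb (fun s hs' => by
      have h1 := hB s hs' N
      have h2 : epsf s ^ 2 ≤ 1 := by nlinarith [epsf_nonneg s, epsf_le s]
      have h3 : 0 ≤ ∑ x ∈ ball G o N,
          ∫ ω, FF2 G θ (box G v R) (ball G v R) o x s ω ∂(Pw G θ) :=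
        Finset.sum_nonneg (fun x _ => integral_nonneg (fun ω => FF2_nonneg _ _ _ _ _))
      exact (mul_le_of_le_one_left h3 h2).trans h1)
  refine le_trans (Finset.sum_le_sum (fun z _ => ?_)) hp
  have ht : Measurable (fun ω : Om V => tim ω.1 z) := (measurable_tim z).comp measurable_fst
  have hset : MeasurableSet {ω : Om V | s₁ ≤ tim ω.1 z ∧ tim ω.1 z < s₂} :=
    (measurableSet_le measurable_const ht).inter (measurableSet_lt ht measurable_const)
  have hF : Measurable (fun ω : Om V =>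
      FF2 G θ (box G v R) (ball G v R) o z.1 (tim ω.1 z) ω) :=
    (meas_FF2 (ball G v R) o z.1).comp (f := fun ω : Om V => (tim ω.1 z, ω))
      (ht.prodMk measurable_id)
  refine integral_mono_of_nonneg (Eventually.of_forall (fun ω => ?_))
    (R168.integrable_of_abs_le (Measurable.ite hset
      (((measurable_epsf.comp ht).pow_const 2).mul hF) measurable_const) 136 (fun ω => ?_))
    (Eventually.of_forall (fun ω => ?_))
  · dsimp only
    split_ifs
    · exact sq_nonneg _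
    · exact le_rfl
  · split_ifs
    · have h1 := FF2_nonneg (G := G) (θ := θ) (J := box G v R) (ball G v R) o z.1 (tim ω.1 z) ω
      have h2 := FF2_le (J := box G v R) h hθ (ball G v R) o z.1 (tim ω.1 z) ω
      have h3 : epsf (tim ω.1 z) ^ 2 ≤ 1 := by
        nlinarith [epsf_nonneg (tim ω.1 z), epsf_le (tim ω.1 z)]
      rw [abs_of_nonneg (mul_nonneg (sq_nonneg _) h1)]
      exact (mul_le_of_le_one_left h1 h3).trans h2
    · norm_num
  · dsimp only
    split_ifs with hz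
    · exact DD_sq_le h v R o z ω (hz.2.trans_le hsR)
    · exact le_rfl

theorem int_FF2_le (h : RT G d) (hθ : Subc d θ) {C : ℝ}
    (hC : ∀ ℓ ℓ' : Slot V → ℝ, Bd ℓ → Bd ℓ' → Good G θ ℓ → Good G θ ℓ' → ∀ o z : V,
      (KK G θ ℓ o z - KK G θ ℓ' o z) ^ 2 ≤ C * (θ ^ 2) ^ G.dist o z * (G.dist o z + 1) *
        ∑ i ∈ Finset.range (G.dist o z + 1),
          (mag G θ ℓ (geo G o z i) - mag G θ ℓ' (geo G o z i)) ^ 2)
    (B : Finset V) (o x : V) (s : ℝ) :
    ∫ ω, FF2 G θ J B o x s ω ∂(Pw G θ) ≤ if x ∈ B then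
      8 * (C * (θ ^ 2) ^ G.dist o x * (G.dist o x + 1) *
        ∑ i ∈ Finset.range (G.dist o x + 1), uJ G θ J (geo G o x i) s) +
        32 * (θ ^ 2) ^ G.dist o x * uJ G θ J x s
      else 4 * (θ ^ 2) ^ G.dist o x := by
  by_cases hx : x ∈ B
  · rw [if_pos hx]
    have i1 : Integrable (fun ω => ∑ i ∈ Finset.range (G.dist o x + 1),
        dl G θ J (geo G o x i) s ω ^ 2) (Pw G θ) :=
      integrable_finsetSum _ (fun i _ => integrable_dl_sq _ s)
    have i2 : Integrable (fun ω => 8 * (C * (θ ^ 2) ^ G.dist o x * (G.dist o x + 1) *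
        ∑ i ∈ Finset.range (G.dist o x + 1), dl G θ J (geo G o x i) s ω ^ 2)) (Pw G θ) :=
      (i1.const_mul _).const_mul _
    have i3 : Integrable (fun ω => 32 * (θ ^ 2) ^ G.dist o x * dl G θ J x s ω ^ 2) (Pw G θ) :=
      (integrable_dl_sq x s).const_mul _
    have hle : ∫ ω, FF2 G θ J B o x s ω ∂(Pw G θ) ≤
        ∫ ω, (8 * (C * (θ ^ 2) ^ G.dist o x * (G.dist o x + 1) *
          ∑ i ∈ Finset.range (G.dist o x + 1), dl G θ J (geo G o x i) s ω ^ 2) +
          32 * (θ ^ 2) ^ G.dist o x * dl G θ J x s ω ^ 2) ∂(Pw G θ) := by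
      refine integral_mono_of_nonneg (Eventually.of_forall (fun ω => FF2_nonneg _ _ _ _ _))
        (i2.add i3) ?_
      filter_upwards [good_Lms_ae h hθ Set.univ s] with ω hω
      rw [Lms_univ] at hω
      have h1 := hC (dLW (ω.1, Yw ω) s) (dLJ G θ J (ω.1, Yw ω) s) (bd_dLW _ _) (bd_dLJ _ _) hω
        (good_of_finite h (dLJ_notMem _ s)) o x
      have h2 := KK_sq_le_pow h hθ (bd_dLJ (G := G) (θ := θ) (J := J) (ω.1, Yw ω) s) o x
      have h3 := mul_le_mul_of_nonneg_right h2 (sq_nonneg (dl G θ J x s ω))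
      unfold FF2
      rw [if_pos hx]
      change _ ≤ 8 * (C * (θ ^ 2) ^ G.dist o x * (G.dist o x + 1) *
        ∑ i ∈ Finset.range (G.dist o x + 1), (mag G θ (dLW (ω.1, Yw ω) s) (geo G o x i) -
          mag G θ (dLJ G θ J (ω.1, Yw ω) s) (geo G o x i)) ^ 2) + _
      linarith
    rw [integral_add i2 i3, integral_const_mul, integral_const_mul, integral_const_mul,
      integral_finsetSum _ (fun i _ => integrable_dl_sq _ s)] at hle
    exact hle
  · rw [if_neg hx]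
    have hle : ∫ ω, FF2 G θ J B o x s ω ∂(Pw G θ) ≤ ∫ _ω, 4 * (θ ^ 2) ^ G.dist o x ∂(Pw G θ) := by
      refine integral_mono_of_nonneg (Eventually.of_forall (fun ω => FF2_nonneg _ _ _ _ _))
        (integrable_const _) (Eventually.of_forall (fun ω => ?_))
      have h2 := KK_sq_le_pow h hθ (bd_dLW (ω.1, Yw ω) s) o x
      unfold FF2
      rw [if_neg hx]
      dsimp only
      linarith
    simpa using hle

/-- The weight of a vertex. -/
def Wt (G : SimpleGraph V) (q : ℝ) (v : V) (R : ℕ) (y : V) : ℝ := q ^ (R + 1) / q ^ G.dist v y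

omit [G.LocallyFinite] in
theorem Wt_pos {q : ℝ} (hq : 0 < q) (v : V) (R : ℕ) (y : V) : 0 < Wt G q v R y := by
  unfold Wt
  positivity

omit [G.LocallyFinite] in
theorem le_Wt {q : ℝ} (hq : 0 < q) (hq1 : q ≤ 1) (v : V) (R : ℕ) (y : V) :
    q ^ (R + 1) ≤ Wt G q v R y :=
  le_div_self (by positivity) (by positivity) (pow_le_one₀ hq.le hq1)

theorem Wt_le (h : RT G d) {q : ℝ} (hq : 0 < q) (hq1 : q ≤ 1) (v : V) (R : ℕ) {y x : V} {n : ℕ}
    (hn : G.dist y x ≤ n) : Wt G q v R x ≤ Wt G q v R y / q ^ n := by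
  unfold Wt
  rw [div_div, ← pow_add]
  refine div_le_div_of_nonneg_left (by positivity) (by positivity) (pow_le_pow_of_le_one hq.le hq1 ?_)
  have := h.tree.connected.dist_triangle (u := v) (v := y) (w := x)
  omega

theorem one_le_Wt (h : RT G d) {q : ℝ} (hq : 0 < q) (hq1 : q ≤ 1) (v : V) (R : ℕ) {x : V}
    (hx : x ∉ ball G v R) : 1 ≤ Wt G q v R x := by
  rw [mem_ball h, not_le] at hx
  unfold Wt
  rw [one_le_div (by positivity)]
  exact pow_le_pow_of_le_one hq.le hq1 hx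

theorem int_FF2_le' (h : RT G d) (hθ : Subc d θ) {C : ℝ} (hC0 : 0 < C)
    (hC : ∀ ℓ ℓ' : Slot V → ℝ, Bd ℓ → Bd ℓ' → Good G θ ℓ → Good G θ ℓ' → ∀ o z : V,
      (KK G θ ℓ o z - KK G θ ℓ' o z) ^ 2 ≤ C * (θ ^ 2) ^ G.dist o z * (G.dist o z + 1) *
        ∑ i ∈ Finset.range (G.dist o z + 1),
          (mag G θ ℓ (geo G o z i) - mag G θ ℓ' (geo G o z i)) ^ 2)
    {q : ℝ} (hq : 0 < q) (hq1 : q ≤ 1) (v : V) (R : ℕ) {s w : ℝ} (hw0 : 0 ≤ w)
    (hw : ∀ y, uJ G θ J y s ≤ w * Wt G q v R y) (o x : V) :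
    ∫ ω, FF2 G θ J (ball G v R) o x s ω ∂(Pw G θ) ≤
      Wt G q v R o * ((8 * C + 32) * w + 4) *
        (((G.dist o x : ℝ) + 1) ^ 2 * (θ ^ 2 / q) ^ G.dist o x) := by
  refine (int_FF2_le h hθ hC _ o x s).trans ?_
  set n := G.dist o x with hn
  set M := Wt G q v R o / q ^ n with hM
  have hM0 : 0 ≤ M := div_nonneg (Wt_pos hq v R o).le (by positivity)
  have ht : 0 ≤ (θ ^ 2) ^ n := by positivity
  have hn0 : (0 : ℝ) ≤ n := Nat.cast_nonneg n
  have hn1 : (1 : ℝ) ≤ ((n : ℝ) + 1) ^ 2 := by nlinarith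
  have hrhs : Wt G q v R o * ((8 * C + 32) * w + 4) * (((n : ℝ) + 1) ^ 2 * (θ ^ 2 / q) ^ n) =
      (θ ^ 2) ^ n * M * (((n : ℝ) + 1) ^ 2 * ((8 * C + 32) * w + 4)) := by
    rw [hM, div_pow]
    ring
  rw [hrhs]
  have hu : ∀ y, G.dist o y ≤ n → uJ G θ J y s ≤ w * M := fun y hy =>
    (hw y).trans (mul_le_mul_of_nonneg_left (Wt_le h hq hq1 v R hy) hw0)
  split_ifs with hx
  · have h1 : ∑ i ∈ Finset.range (n + 1), uJ G θ J (geo G o x i) s ≤ ((n : ℝ) + 1) * (w * M) := by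
      have h2 := Finset.sum_le_card_nsmul (Finset.range (n + 1))
        (fun i => uJ G θ J (geo G o x i) s) (w * M) (fun i hi => hu _ (by
          have hi' : i ≤ n := Nat.lt_succ_iff.1 (Finset.mem_range.1 hi)
          rw [(geo_spec h o x hi').1]
          exact hi'))
      simpa using h2
    have h2 := hu x le_rfl
    have h3 : C * (θ ^ 2) ^ n * ((n : ℝ) + 1) * ∑ i ∈ Finset.range (n + 1),
        uJ G θ J (geo G o x i) s ≤ C * (θ ^ 2) ^ n * ((n : ℝ) + 1) * (((n : ℝ) + 1) * (w * M)) :=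
      mul_le_mul_of_nonneg_left h1 (by positivity)
    have h4 : 32 * (θ ^ 2) ^ n * uJ G θ J x s ≤ 32 * (θ ^ 2) ^ n * (((n : ℝ) + 1) ^ 2 * (w * M)) :=
      mul_le_mul_of_nonneg_left (h2.trans (le_mul_of_one_le_left (by positivity) hn1))
        (by positivity)
    have h5 : 0 ≤ (θ ^ 2) ^ n * M * (((n : ℝ) + 1) ^ 2 * 4) := by positivity
    nlinarith
  · have h1 : 1 ≤ M := (one_le_Wt h hq hq1 v R hx).trans (Wt_le h hq hq1 v R le_rfl)
    have h2 : 4 ≤ ((n : ℝ) + 1) ^ 2 * ((8 * C + 32) * w + 4) := by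
      have : 0 ≤ (8 * C + 32) * w := by positivity
      nlinarith
    calc 4 * (θ ^ 2) ^ n = (θ ^ 2) ^ n * 1 * 4 := by ring
      _ ≤ _ := mul_le_mul (mul_le_mul_of_nonneg_left h1 ht) h2 (by norm_num) (by positivity)

theorem summable_aux {r : ℝ} (h0 : 0 ≤ r) (h1 : r < 1) :
    Summable (fun n : ℕ => ((n : ℝ) + 1) ^ 2 * r ^ n) := by
  have hr : ‖r‖ < 1 := by rwa [Real.norm_eq_abs, abs_of_nonneg h0]
  have a2 := summable_pow_mul_geometric_of_norm_lt_one 2 hr
  have a1 := summable_pow_mul_geometric_of_norm_lt_one 1 hr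
  have a0 := summable_geometric_of_lt_one h0 h1
  refine ((a2.add (a1.mul_left 2)).add a0).congr (fun n => ?_)
  ring

end Step2Aux

open Step2Aux in
theorem step2 (h : RT G d) {θ : ℝ} (hθ : Subc d θ) (k : ℕ) :
    ∃ C q : ℝ, 0 ≤ C ∧ 0 ≤ q ∧ q < 1 ∧ ∀ (v : V) (R : ℕ), k ≤ R → ∀ s : ℝ, s ≤ k →
      ∫ ω, (mag G θ (Lt ω.1 (Lw ω) s) v -
        mag G θ (Lt ω.1 (samp G θ (box G v R) (ω.1, Uw G θ ω)) s) v) ^ 2 ∂(Pw G θ) ≤
        C * q ^ R := by
  obtain ⟨C, hC0, hC⟩ := exists_kd0 h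
  have hd : (0 : ℝ) ≤ (d : ℝ) - 1 := le_trans (by norm_num) h.two_le
  have hq00 : 0 ≤ ((d : ℝ) - 1) * θ ^ 2 := by positivity
  have hq01 : ((d : ℝ) - 1) * θ ^ 2 < 1 := hθ.2
  obtain ⟨q, hq0, hq1⟩ := exists_between hq01
  have hq : 0 < q := hq00.trans_lt hq0
  set r : ℝ := ((d : ℝ) - 1) * θ ^ 2 / q with hr
  have hr0 : 0 ≤ r := div_nonneg hq00 hq.le
  have hr1 : r < 1 := (div_lt_one hq).2 hq0
  set S : ℝ := ∑' n : ℕ, ((n : ℝ) + 1) ^ 2 * r ^ n with hS
  have hS0 : 0 ≤ S := tsum_nonneg (fun n => by positivity)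
  have hsum : ∀ (o : V) (N : ℕ), ∑ x ∈ ball G o N,
      (((G.dist o x : ℝ) + 1) ^ 2 * (θ ^ 2 / q) ^ G.dist o x) ≤ 3 / 2 * S := by
    intro o N
    refine (sum_ball_radial_le h o N (f := fun n => ((n : ℝ) + 1) ^ 2 * (θ ^ 2 / q) ^ n)
      (fun n => by positivity)).trans (mul_le_mul_of_nonneg_left ?_ (by norm_num))
    refine le_trans (le_of_eq (Finset.sum_congr rfl (fun n _ => ?_)))
      ((summable_aux hr0 hr1).sum_le_tsum (Finset.range (N + 1)) (fun n _ => by positivity))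
    rw [hr, mul_div_assoc, mul_pow]
    ring
  refine ⟨Real.exp (2 * (3 * S * (8 * C + 32)) * k) * (k * (12 * S)), q,
    by positivity, hq.le, hq1, fun v R hkR s hs => ?_⟩
  have := h.nonempty
  set J := box G v R with hJ
  set w : ℝ → ℝ := fun t => ⨆ y, uJ G θ J y t / Wt G q v R y with hw
  have hbdd : ∀ t, BddAbove (Set.range (fun y => uJ G θ J y t / Wt G q v R y)) := by
    intro t
    refine ⟨4 / q ^ (R + 1), ?_⟩
    rintro _ ⟨y, rfl⟩
    exact div_le_div₀ (by norm_num) (uJ_le y t) (by positivity) (le_Wt hq hq1.le v R y)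
  have hwle : ∀ t y, uJ G θ J y t ≤ w t * Wt G q v R y := fun t y =>
    (div_le_iff₀ (Wt_pos hq v R y)).1 (le_ciSup (hbdd t) y)
  have hw0 : ∀ t, 0 ≤ w t := fun t =>
    (div_nonneg (uJ_nonneg v t) (Wt_pos hq v R v).le).trans (le_ciSup (hbdd t) v)
  have hwz : w 0 = 0 := by
    simp only [hw, uJ_zero, zero_div, ciSup_const]
  have hk0 : (0 : ℝ) ≤ k := Nat.cast_nonneg k
  have hg := gron w hk0 (β := 3 * S * (8 * C + 32)) (γ := 12 * S) (by positivity) (by positivity)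
    (fun t _ => hw0 t) (fun s₁ s₂ _ h12 h2 => by
      refine ciSup_le (fun o => ?_)
      have hW := Wt_pos (G := G) hq v R o
      have hA : 0 ≤ (8 * C + 32) * w s₂ + 4 := by
        have := hw0 s₂
        positivity
      have hi := incr h hθ v R o h12 (h2.trans (by exact_mod_cast hkR))
        (b := Wt G q v R o * ((8 * C + 32) * w s₂ + 4) * (3 / 2 * S)) (by positivity)
        (fun t ht N => by
          refine (Finset.sum_le_sum (fun x _ => int_FF2_le' h hθ hC0 (hC θ hθ) hq hq1.le v R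
            (hw0 s₂) (fun y => ((iso h hθ y ht.2.le).1).trans (hwle s₂ y)) o x)).trans ?_
          rw [← Finset.mul_sum]
          exact mul_le_mul_of_nonneg_left (hsum o N) (by positivity))
      rw [div_le_iff₀ hW]
      have h1 := hwle s₁ o
      calc uJ G θ J o s₂ ≤ w s₁ * Wt G q v R o + 2 * (s₂ - s₁) *
            (Wt G q v R o * ((8 * C + 32) * w s₂ + 4) * (3 / 2 * S)) := by linarith
        _ = _ := by ring)
  rw [hwz, sub_zero, zero_add] at hg
  have h1 : uJ G θ J v s ≤ uJ G θ J v k := (iso h hθ v hs).1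
  have h2 := hwle k v
  have h3 : Wt G q v R v ≤ q ^ R := by
    unfold Wt
    rw [SimpleGraph.dist_self, pow_zero, div_one]
    exact pow_le_pow_of_le_one hq.le hq1.le (Nat.le_succ R)
  change uJ G θ J v s ≤ _
  exact h1.trans (h2.trans (mul_le_mul hg h3 (Wt_pos hq v R v).le (by positivity)))

end Crest.Agent.R160

end
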