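import Crest.Agent.R160.Step2

/-!
The weak model is a strong model: transfer of expectations to the label space.
-/

set_option autoImplicit false

open MeasureTheory unitInterval Filter Topology
open Crest.ProbabilityR Crest.ProbabilityR.Labels Crest.ProbabilityR.TreeIsing
open scoped Classical

noncomputable section

namespace Crest.Agent.R160

universe u

variable {V : Type u} {G : SimpleGraph V} [G.LocallyFinite] {d : ℕ}

variable {θ : ℝ}

namespace TransferAux

open Step2Aux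

theorem slot_sq_le (h : RT G d) (hθ : Subc d θ) (z : Slot V) :
    ∃ C q : ℝ, 0 ≤ q ∧ q < 1 ∧ ∀ R, z.2 + 2 ≤ R →
      ∫ ω, (samp G θ (box G z.1 R) (ω.1, Uw G θ ω) z - Lw ω z) ^ 2 ∂(Pw G θ) ≤ C * q ^ R := by
  obtain ⟨C, q, hC, hq0, hq1, H⟩ := step2 h hθ (z.2 + 2)
  refine ⟨2 * ((z.2 : ℝ) + 2) * C, q, hq0, hq1, fun R hR => ?_⟩
  set J := box G z.1 R with hJ
  have hzJ : z ∈ J := (mem_box h).2 ⟨by simp, by omega⟩
  have hb : 0 ≤ C * q ^ R := by positivity
  have hk : (0 : ℝ) ≤ (z.2 : ℝ) + 2 := by positivity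
  have hp := palm_sum ((ising G θ).prod (nu V)) {z.1} (z.2 + 1)
    (fun x s ω => dl G θ J x s ω ^ 2) (fun x => (meas_dl_joint x).pow_const 2)
    (fun _ _ _ => sq_nonneg _) (fun x s ω => dl_sq_le x s ω)
    (fun x s T ξ y r h1 h2 => by
      have ha := agree_Yw_update ((T, ξ) : Om V) h1 h2
      have e1 : dLW (Function.update T y r, Yw (Function.update T y r, ξ)) s =
          dLW (T, Yw (T, ξ)) s := dLW_agree ha
      have e2 : dLJ G θ J (Function.update T y r, Yw (Function.update T y r, ξ)) s =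
          dLJ G θ J (T, Yw (T, ξ)) s := dLJ_agree ha
      unfold dl
      simp only [e1, e2]) hk hb (fun s hs => by
      rw [Finset.sum_singleton]
      have h1 := H z.1 R hR s (by push_cast; exact hs.2.le)
      have h2 : epsf s ^ 2 ≤ 1 := by nlinarith [epsf_nonneg s, epsf_le s]
      exact (mul_le_of_le_one_left (integral_nonneg fun _ => sq_nonneg _) h2).trans h1)
  have hz : z ∈ ({z.1} : Finset V) ×ˢ Finset.range (z.2 + 1) := by simp
  have h3 := (Finset.single_le_sum (f := fun y : Slot V => ∫ ω : Om V,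
      (if 0 ≤ tim ω.1 y ∧ tim ω.1 y < (z.2 : ℝ) + 2 then
        epsf (tim ω.1 y) ^ 2 * dl G θ J y.1 (tim ω.1 y) ω ^ 2 else 0) ∂(Pw G θ))
    (fun y _ => integral_nonneg fun ω => by
      dsimp only
      split_ifs
      · positivity
      · exact le_rfl) hz).trans hp
  have ht : Measurable (fun ω : Om V => tim ω.1 z) := (measurable_tim z).comp measurable_fst
  have hF : Measurable (fun ω : Om V => dl G θ J z.1 (tim ω.1 z) ω) :=
    (meas_dl_joint z.1).comp (f := fun ω : Om V => (tim ω.1 z, ω)) (ht.prodMk measurable_id)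
  have hc : ∀ ω : Om V, 0 ≤ tim ω.1 z ∧ tim ω.1 z < (z.2 : ℝ) + 2 := fun ω => by
    have h0 := (ω.1 z).2.1
    have h1 := (ω.1 z).2.2
    have h2 : (0 : ℝ) ≤ z.2 := Nat.cast_nonneg _
    unfold tim
    constructor <;> linarith
  simp only [hc, and_self, if_true] at h3
  refine le_trans ?_ (h3.trans (le_of_eq (by ring)))
  refine integral_mono_of_nonneg (Eventually.of_forall fun _ => sq_nonneg _)
    (R168.integrable_of_abs_le (((measurable_epsf.comp ht).pow_const 2).mul (hF.pow_const 2)) 4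
      fun ω => ?_) (Eventually.of_forall fun ω => ?_)
  · have h2 : epsf (tim ω.1 z) ^ 2 ≤ 1 := by
      nlinarith [epsf_nonneg (tim ω.1 z), epsf_le (tim ω.1 z)]
    rw [abs_of_nonneg (by positivity)]
    exact (mul_le_of_le_one_left (sq_nonneg _) h2).trans (dl_sq_le _ _ _)
  · have e1 := samp_eq (G := G) (θ := θ) ((ω.1, Uw G θ ω) : Lab V) hzJ
    have e2 := Ly_eq_sig (G := G) (θ := θ) ω.1 (Yw ω) z
    have m1 := abs_mag_le (G := G) (θ := θ) (bd_dLW (ω.1, Yw ω) (tim ω.1 z)) z.1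
    have m2 := abs_mag_le (G := G) (θ := θ)
      (bd_dLJ (G := G) (θ := θ) (J := J) (ω.1, Yw ω) (tim ω.1 z)) z.1
    have e3 := abs_sig_sub_le (epsf_nonneg (tim ω.1 z)) (epsf_le _) m1 m2 (Uw G θ ω z)
    have e4 : samp G θ J (ω.1, Uw G θ ω) z - Lw ω z =
        -(sig (epsf (tim ω.1 z)) (mag G θ (dLW (ω.1, Yw ω) (tim ω.1 z)) z.1) (Uw G θ ω z) -
          sig (epsf (tim ω.1 z)) (mag G θ (dLJ G θ J (ω.1, Yw ω) (tim ω.1 z)) z.1)
            (Uw G θ ω z)) := by
      rw [neg_sub, e1]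
      exact congrArg _ e2
    dsimp only
    rw [e4, neg_sq]
    have e5 := pow_le_pow_left₀ (abs_nonneg _) e3 2
    rw [sq_abs, mul_pow, sq_abs] at e5
    refine e5.trans (mul_le_mul_of_nonneg_right ?_ (sq_nonneg _))
    have h2 : epsf (tim ω.1 z) ^ 2 ≤ 1 := by
      nlinarith [epsf_nonneg (tim ω.1 z), epsf_le (tim ω.1 z)]
    nlinarith [sq_nonneg (epsf (tim ω.1 z))]

end TransferAux

open TransferAux

theorem psi_eq (h : RT G d) (hθ : Subc d θ) :
    ∀ᵐ ω ∂(Pw G θ), Psi G θ (ω.1, Uw G θ ω) = Lw ω := by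
  have := h.countable
  have key : ∀ z : Slot V, ∀ᵐ ω ∂(Pw G θ), Psi G θ (ω.1, Uw G θ ω) z = Lw ω z := by
    intro z
    obtain ⟨C, q, hq0, hq1, H⟩ := slot_sq_le h hθ z
    have hm : ∀ R, Measurable fun ω : Om V =>
        samp G θ (box G z.1 R) (ω.1, Uw G θ ω) z - Lw ω z := fun R =>
      ((measurable_pi_apply z).comp ((measurable_samp _).comp
        (measurable_fst.prodMk measurable_Uw))).sub ((measurable_pi_apply z).comp measurable_Lw)
    have hs := BayesAux.ae_summable_of_sq (P := Pw G θ)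
      (f := fun n ω => samp G θ (box G z.1 (n + (z.2 + 2))) (ω.1, Uw G θ ω) z - Lw ω z)
      (fun n => hm _) (B := 1) (fun n ω => by
        have h1 := bd_samp (G := G) (θ := θ) (box G z.1 (n + (z.2 + 2))) (ω.1, Uw G θ ω) z
        have h2 := bd_Lw ω z
        exact (abs_sub _ _).trans (by linarith)) (C := C * q ^ (z.2 + 2)) hq0 hq1
      (fun n => (H _ (Nat.le_add_left _ _)).trans (le_of_eq (by ring)))
    filter_upwards [hs] with ω hω
    have h1 := hω.of_abs.tendsto_atTop_zero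
    have h2 : Tendsto (fun n => samp G θ (box G z.1 (n + (z.2 + 2))) (ω.1, Uw G θ ω) z) atTop
        (𝓝 (Lw ω z)) := by simpa using h1.add_const (Lw ω z)
    exact ((tendsto_add_atTop_iff_nat
      (f := fun R => samp G θ (box G z.1 R) (ω.1, Uw G θ ω) z) (z.2 + 2)).1 h2).limsup_eq
  filter_upwards [ae_all_iff.2 key] with ω hω
  exact funext hω

/-- Transfer of expectations of functions of the labels and the field. -/
theorem integral_transfer_full (h : RT G d) (hθ : Subc d θ) {F : Lab V × (Slot V → ℝ) → ℝ}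
    (hF : Measurable F) :
    ∫ ω, F (ω, Psi G θ ω) ∂(Pl V) = ∫ ω, F ((ω.1, Uw G θ ω), Lw ω) ∂(Pw G θ) := by
  have hmp := law_TU h hθ
  have hm : Measurable fun ω : Lab V => F (ω, Psi G θ ω) :=
    hF.comp (measurable_id.prodMk measurable_Psi)
  rw [← hmp.map_eq, integral_map hmp.measurable.aemeasurable hm.aestronglyMeasurable]
  refine integral_congr_ae ?_
  filter_upwards [psi_eq h hθ] with ω hω
  rw [hω]

/-- Transfer of almost sure properties. -/
theorem ae_transfer (h : RT G d) (hθ : Subc d θ) {E : Set (Lab V × (Slot V → ℝ))}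
    (hE : MeasurableSet E) (hw : ∀ᵐ ω ∂(Pw G θ), ((ω.1, Uw G θ ω), Lw ω) ∈ E) :
    ∀ᵐ ω ∂(Pl V), (ω, Psi G θ ω) ∈ E := by
  have hmp := law_TU h hθ
  have hE' : MeasurableSet {ω : Lab V | (ω, Psi G θ ω) ∈ E} :=
    (measurable_id.prodMk measurable_Psi) hE
  rw [← hmp.map_eq]
  refine (ae_map_iff hmp.measurable.aemeasurable hE').2 ?_
  filter_upwards [psi_eq h hθ, hw] with ω h1 h2
  rw [h1]; exact h2

theorem integral_transfer (h : RT G d) (hθ : Subc d θ) {F : Lb V × (Slot V → ℝ) → ℝ}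
    (hF : Measurable F) :
    ∫ ω, F (ω.1, Psi G θ ω) ∂(Pl V) = ∫ ω, F (ω.1, Lw ω) ∂(Pw G θ) :=
  integral_transfer_full h hθ (F := fun p => F (p.1.1, p.2))
    (hF.comp (measurable_fst.fst.prodMk measurable_snd))

theorem integral_transfer_Ls (h : RT G d) (hθ : Subc d θ) (s : ℝ) {F : (Slot V → ℝ) → ℝ}
    (hF : Measurable F) :
    ∫ ω, F (Ls G θ s ω) ∂(Pl V) = ∫ ω, F (Lms Set.univ s ω) ∂(Pw G θ) := by
  simp only [Lms_univ]
  exact integral_transfer h hθ (F := fun p => F (Lt p.1 p.2 s))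
    (hF.comp (measurable_Lt.comp (measurable_const.prodMk measurable_id)))

theorem measure_transfer_Ls (h : RT G d) (hθ : Subc d θ) (s : ℝ) {E : Set (Slot V → ℝ)}
    (hE : MeasurableSet E) :
    Pl V {ω | Ls G θ s ω ∈ E} = Pw G θ {ω | Lms Set.univ s ω ∈ E} := by
  have hmp := law_TU h hθ
  have hE' : MeasurableSet {ω : Lab V | Ls G θ s ω ∈ E} := (measurable_Ls s) hE
  rw [← hmp.measure_preimage hE'.nullMeasurableSet]
  refine measure_congr ?_
  filter_upwards [psi_eq h hθ] with ω hω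
  change (Ls G θ s (ω.1, Uw G θ ω) ∈ E) = (Lms Set.univ s ω ∈ E)
  rw [Lms_univ, Ls, hω]

theorem good_Ls_ae (h : RT G d) (hθ : Subc d θ) (s : ℝ) :
    ∀ᵐ ω ∂(Pl V), Good G θ (Ls G θ s ω) := by
  have hm : Measurable fun p : Lab V × (Slot V → ℝ) => Lt p.1.1 p.2 s :=
    measurable_Lt.comp (measurable_const.prodMk (measurable_fst.fst.prodMk measurable_snd))
  refine ae_transfer h hθ (hm (measurableSet_good (θ := θ) h)) ?_
  filter_upwards [good_Lms_ae h hθ Set.univ s] with ω hω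
  rw [Lms_univ] at hω
  exact hω

theorem psi_sig (h : RT G d) (hθ : Subc d θ) :
    ∀ᵐ ω ∂(Pl V), ∀ z : Slot V, Psi G θ ω z =
      sig (epsf (tim ω.1 z)) (mag G θ (Ls G θ (tim ω.1 z) ω) z.1) (ω.2 z) := by
  have := h.countable
  refine ae_all_iff.2 fun z => ?_
  have ht : Measurable fun p : Lab V × (Slot V → ℝ) => tim p.1.1 z :=
    (measurable_tim z).comp measurable_fst.fst
  have hm : Measurable fun p : Lab V × (Slot V → ℝ) =>
      sig (epsf (tim p.1.1 z)) (mag G θ (Lt p.1.1 p.2 (tim p.1.1 z)) z.1) (p.1.2 z) :=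
    measurable_sig.comp ((measurable_epsf.comp ht).prodMk (((measurable_mag z.1).comp
      (measurable_Lt.comp (ht.prodMk (measurable_fst.fst.prodMk measurable_snd)))).prodMk
        ((measurable_pi_apply z).comp measurable_fst.snd)))
  exact ae_transfer h hθ
    (measurableSet_eq_fun ((measurable_pi_apply z).comp measurable_snd) hm)
    (Eventually.of_forall fun ω => Ly_eq_sig ω.1 (Yw ω) z)

/-- The jump representation on the label space. -/
theorem jr_s (h : RT G d) (hθ : Subc d θ) (o : V) (s : ℝ) :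
    Tendsto (fun R => ∫ ω, (mag G θ (Ls G θ s ω) o -
      ∑ z ∈ box G o R, if tim ω.1 z < s then KK G θ (Ls G θ (tim ω.1 z) ω) o z.1 *
        phi (epsf (tim ω.1 z)) (mag G θ (Ls G θ (tim ω.1 z) ω) z.1) (ω.2 z) else 0) ^ 2
      ∂(Pl V)) atTop (𝓝 0) := by
  refine (jr h hθ o s).congr fun R => ?_
  have hm : Measurable fun p : Lb V × (Slot V → ℝ) =>
      (mag G θ (Lt p.1 p.2 s) o - jsum G θ o (box G o R) s p.1 p.2) ^ 2 :=
    (((measurable_mag o).comp (measurable_Lt.comp (measurable_const.prodMk measurable_id))).sub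
      (measurable_jsum o _ s)).pow_const 2
  rw [← integral_transfer h hθ hm]
  refine integral_congr_ae ?_
  filter_upwards [psi_sig h hθ] with ω hω
  unfold jsum phi
  congr 2
  refine Finset.sum_congr rfl fun z _ => ?_
  rw [← hω z]
  rfl

end Crest.Agent.R160

end
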