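import Crest.Agent.R160.Defs

/-!
Geometry of the regular tree: half trees, balls, geodesics.
-/

set_option autoImplicit false

open MeasureTheory unitInterval Filter Topology
open Crest.ProbabilityR Crest.ProbabilityR.Labels Crest.ProbabilityR.TreeIsing
open scoped Classical

noncomputable section

namespace Crest.Agent.R160

universe u

variable {V : Type u} {G : SimpleGraph V} [G.LocallyFinite] {d : ℕ}

namespace TreeAux

omit [G.LocallyFinite] in
theorem tri (hG : G.IsTree) (a b c : V) : G.dist a c ≤ G.dist a b + G.dist b c :=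
  hG.connected.dist_triangle

omit [G.LocallyFinite] in
theorem dist_adj {a b : V} (hab : G.Adj a b) : G.dist a b = 1 :=
  SimpleGraph.dist_eq_one_iff_adj.mpr hab

omit [G.LocallyFinite] in
theorem eq_of_dist (hG : G.IsTree) {a b : V} (hab : G.dist a b = 0) : a = b :=
  hG.connected.dist_eq_zero_iff.mp hab

omit [G.LocallyFinite] in
/-- Uniqueness of the points of a geodesic. -/
theorem geo_unique (hG : G.IsTree) {o z y y' : V} {i : ℕ} (h1 : G.dist o y = i)
    (h2 : G.dist y z + i = G.dist o z) (h1' : G.dist o y' = i)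
    (h2' : G.dist y' z + i = G.dist o z) : y = y' := by
  obtain ⟨p1, hp1⟩ := hG.connected.exists_walk_length_eq_dist o y
  obtain ⟨p2, hp2⟩ := hG.connected.exists_walk_length_eq_dist y z
  obtain ⟨q1, hq1⟩ := hG.connected.exists_walk_length_eq_dist o y'
  obtain ⟨q2, hq2⟩ := hG.connected.exists_walk_length_eq_dist y' z
  have hp : (p1.append p2).IsPath := SimpleGraph.Walk.isPath_of_length_eq_dist _ (by
    rw [SimpleGraph.Walk.length_append]; omega)
  have hq : (q1.append q2).IsPath := SimpleGraph.Walk.isPath_of_length_eq_dist _ (by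
    rw [SimpleGraph.Walk.length_append]; omega)
  have he : p1.append p2 = q1.append q2 := (hG.existsUnique_path o z).unique hp hq
  have e1 : (p1.append p2).getVert i = y := by
    rw [SimpleGraph.Walk.getVert_append, if_neg (by omega)]
    have : i - p1.length = 0 := by omega
    rw [this, SimpleGraph.Walk.getVert_zero]
  have e2 : (q1.append q2).getVert i = y' := by
    rw [SimpleGraph.Walk.getVert_append, if_neg (by omega)]
    have : i - q1.length = 0 := by omega
    rw [this, SimpleGraph.Walk.getVert_zero]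
  rw [← e1, ← e2, he]

omit [G.LocallyFinite] in
/-- Existence of the points of a geodesic. -/
theorem geo_exists (hG : G.IsTree) (o z : V) {i : ℕ} (hi : i ≤ G.dist o z) :
    ∃ y, G.dist o y = i ∧ G.dist y z + i = G.dist o z := by
  obtain ⟨p, hp⟩ := hG.connected.exists_walk_length_eq_dist o z
  have h1 := SimpleGraph.dist_le (p.take i)
  have h2 := SimpleGraph.dist_le (p.drop i)
  rw [SimpleGraph.Walk.take_length] at h1
  rw [SimpleGraph.Walk.drop_length] at h2
  have h3 := tri hG o (p.getVert i) z
  have h4 : i ⊓ p.length ≤ i := inf_le_left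
  exact ⟨p.getVert i, by omega, by omega⟩

theorem finite_ball (hG : G.IsTree) (c : V) (R : ℕ) : {w | G.dist c w ≤ R}.Finite := by
  induction R with
  | zero =>
    refine (Set.finite_singleton c).subset ?_
    intro w hw
    have : G.dist c w = 0 := Nat.le_zero.mp hw
    exact (eq_of_dist hG this).symm
  | succ R ih =>
    refine (ih.union (ih.biUnion (fun y _ => (G.neighborFinset y).finite_toSet))).subset ?_
    intro w hw
    have hw' : G.dist c w ≤ R + 1 := hw
    by_cases hle : G.dist c w ≤ R
    · exact Or.inl hle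
    · obtain ⟨y, hy1, hy2⟩ := geo_exists hG c w (i := R) (by omega)
      refine Or.inr (Set.mem_biUnion (x := y) (show G.dist c y ≤ R by omega) ?_)
      have : G.dist y w = 1 := by omega
      simpa using SimpleGraph.dist_eq_one_iff_adj.mp this

omit [G.LocallyFinite] in
theorem geo_of_lt {o z : V} {i : ℕ} (hi : G.dist o z < i) : geo G o z i = z := by
  unfold geo
  rw [dif_neg]
  rintro ⟨y, -, h2⟩
  omega

omit [G.LocallyFinite] in
theorem edist_map_le (g : G ≃g G) (a b : V) : G.edist (g a) (g b) ≤ G.edist a b := by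
  by_cases hr : G.Reachable a b
  · obtain ⟨p, hp⟩ := hr.exists_walk_length_eq_edist
    have := SimpleGraph.edist_le (p.map g.toHom)
    rw [SimpleGraph.Walk.length_map, hp] at this
    exact this
  · rw [SimpleGraph.edist_eq_top_of_not_reachable hr]
    exact le_top

end TreeAux

open TreeAux

theorem RT.countable (h : RT G d) : Countable V := by
  obtain ⟨o⟩ := h.tree.connected.nonempty
  rw [← Set.countable_univ_iff]
  have : (Set.univ : Set V) = ⋃ R : ℕ, {w | G.dist o w ≤ R} := by
    ext w
    simp only [Set.mem_univ, Set.mem_iUnion, Set.mem_ofPred_eq, true_iff]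
    exact ⟨_, le_rfl⟩
  rw [this]
  exact Set.countable_iUnion fun R => (finite_ball h.tree o R).countable

theorem RT.nonempty (h : RT G d) : Nonempty V := by
  exact h.tree.connected.nonempty

theorem RT.two_le (h : RT G d) : (2 : ℝ) ≤ (d : ℝ) - 1 := by
  have : (3 : ℝ) ≤ (d : ℝ) := by exact_mod_cast h.three
  linarith

theorem Subc.sq_le (h : RT G d) {θ : ℝ} (hθ : Subc d θ) : θ ^ 2 ≤ 1 / 2 := by
  have h2 := h.two_le
  have h3 := hθ.2
  nlinarith [sq_nonneg θ]

theorem Subc.le (h : RT G d) {θ : ℝ} (hθ : Subc d θ) : θ ≤ 3 / 4 := by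
  have h2 := Subc.sq_le h hθ
  nlinarith

theorem Subc.sq_le_inv (h : RT G d) {θ : ℝ} (hθ : Subc d θ) : θ ^ 2 ≤ 1 / ((d : ℝ) - 1) := by
  have h2 := h.two_le
  have h3 := hθ.2
  rw [le_div_iff₀ (by linarith)]
  linarith

theorem mem_ball (h : RT G d) {c w : V} {R : ℕ} : w ∈ ball G c R ↔ G.dist c w ≤ R := by
  unfold ball
  rw [dif_pos (finite_ball h.tree c R)]
  simp

theorem mem_box (h : RT G d) {c : V} {z : Slot V} {R : ℕ} :
    z ∈ box G c R ↔ G.dist c z.1 ≤ R ∧ z.2 < R := by
  unfold box
  rw [Finset.mem_product, mem_ball h, Finset.mem_range]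

theorem mem_hbox (h : RT G d) {u p : V} {z : Slot V} {n : ℕ} :
    z ∈ hbox G u p n ↔ G.dist u z.1 ≤ n ∧ z.1 ∈ half G u p ∧ z.2 = 0 := by
  unfold hbox
  rw [Finset.mem_product, Finset.mem_filter, mem_ball h, Finset.mem_singleton, and_assoc]

/-- Every finite set of slots is eventually inside the boxes around `c`. -/
theorem eventually_subset_box (h : RT G d) (c : V) (J : Finset (Slot V)) :
    ∀ᶠ R in atTop, J ⊆ box G c R := by
  have : ∀ z ∈ J, ∀ᶠ R in atTop, z ∈ box G c R := by
    intro z _
    filter_upwards [eventually_ge_atTop (G.dist c z.1), eventually_gt_atTop z.2] with R h1 h2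
    exact (mem_box h).2 ⟨h1, h2⟩
  filter_upwards [(Filter.eventually_all_finset J).2 this] with R hR z hz
  exact hR z hz

theorem card_erase (h : RT G d) {u p : V} (hup : G.Adj u p) :
    ((G.neighborFinset u).erase p).card = d - 1 := by
  rw [Finset.card_erase_of_mem (by simpa using hup), SimpleGraph.card_neighborFinset_eq_degree,
    h.reg.degree_eq]

/-- A third neighbour. -/
theorem exists_third (h : RT G d) (u p c : V) : ∃ b, G.Adj b u ∧ b ≠ p ∧ b ≠ c := by
  by_contra hcon
  have hsub : G.neighborFinset u ⊆ {p, c} := by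
    intro b hb
    have hb' : G.Adj b u := by
      have : G.Adj u b := by simpa using hb
      exact this.symm
    by_contra hn
    simp only [Finset.mem_insert, Finset.mem_singleton, not_or] at hn
    exact hcon ⟨b, hb', hn.1, hn.2⟩
  have h1 := Finset.card_le_card hsub
  rw [SimpleGraph.card_neighborFinset_eq_degree, h.reg.degree_eq] at h1
  have h2 : ({p, c} : Finset V).card ≤ 2 := Finset.card_le_two
  have h3 := h.three
  omega

/-! ### Half trees -/

theorem self_mem_half (h : RT G d) {u p : V} (hup : G.Adj u p) : u ∈ half G u p := by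
  have := h.three
  show G.dist p u = G.dist u u + 1
  rw [dist_adj hup.symm, SimpleGraph.dist_self]

theorem mem_half_iff_not (h : RT G d) {u p : V} (hup : G.Adj u p) (w : V) :
    w ∈ half G u p ↔ w ∉ half G p u := by
  show G.dist p w = G.dist u w + 1 ↔ ¬ (G.dist u w = G.dist p w + 1)
  have := h.tree.dist_eq_dist_add_one_of_adj w hup
  rw [SimpleGraph.dist_comm (u := w) (v := u), SimpleGraph.dist_comm (u := w) (v := p)] at this
  omega

theorem half_subset (h : RT G d) {c u p : V} (hcu : G.Adj c u) (hup : G.Adj u p) (hne : c ≠ p) :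
    half G c u ⊆ half G u p := by
  intro w hw
  rw [mem_half_iff_not h hup]
  intro hw'
  have h1 : G.dist u w = G.dist c w + 1 := hw
  have h2 : G.dist u w = G.dist p w + 1 := hw'
  exact hne (geo_unique h.tree (o := u) (z := w) (i := 1) (dist_adj hcu.symm) h1.symm
    (dist_adj hup) h2.symm)

theorem exists_half (h : RT G d) {o w : V} (hne : w ≠ o) : ∃ c, G.Adj c o ∧ w ∈ half G c o := by
  have hpos : 0 < G.dist o w := h.tree.connected.pos_dist_of_ne hne.symm
  obtain ⟨c, hc1, hc2⟩ := geo_exists h.tree o w (i := 1) hpos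
  exact ⟨c, (SimpleGraph.dist_eq_one_iff_adj.mp hc1).symm, hc2.symm⟩

theorem exists_half_of_mem (h : RT G d) {u p w : V} (hup : G.Adj u p) (hw : w ∈ half G u p)
    (hne : w ≠ u) : ∃ c, G.Adj c u ∧ c ≠ p ∧ w ∈ half G c u := by
  obtain ⟨c, hc, hwc⟩ := exists_half h hne
  refine ⟨c, hc, ?_, hwc⟩
  rintro rfl
  exact (mem_half_iff_not h hup w).1 hw hwc

theorem half_unique (h : RT G d) {c c' u w : V} (hc : G.Adj c u) (hc' : G.Adj c' u)
    (hw : w ∈ half G c u) (hw' : w ∈ half G c' u) : c = c' := by
  have h1 : G.dist u w = G.dist c w + 1 := hw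
  have h2 : G.dist u w = G.dist c' w + 1 := hw'
  exact geo_unique h.tree (o := u) (z := w) (i := 1) (dist_adj hc.symm) h1.symm
    (dist_adj hc'.symm) h2.symm

/-- Distances across an edge. -/
theorem dist_of_half (h : RT G d) {u p w w' : V} (hup : G.Adj u p) (hw : w ∈ half G u p)
    (hw' : w' ∈ half G p u) : G.dist w w' = G.dist w u + 1 + G.dist p w' := by
  have key : ∀ n : ℕ, ∀ u p : V, G.Adj u p → w ∈ half G u p → w' ∈ half G p u →
      G.dist u w = n → G.dist w w' = n + 1 + G.dist p w' := by
    intro n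
    induction n with
    | zero =>
      intro u p _ _ hw' hn
      have := eq_of_dist h.tree hn
      subst this
      have h2 : G.dist u w' = G.dist p w' + 1 := hw'
      omega
    | succ n ih =>
      intro u p hup hw hw' hn
      have hne : w ≠ u := by
        rintro rfl
        rw [SimpleGraph.dist_self] at hn
        omega
      obtain ⟨c, hc, hcp, hwc⟩ := exists_half_of_mem h hup hw hne
      have h1 : G.dist u w = G.dist c w + 1 := hwc
      have h2 : G.dist u w' = G.dist p w' + 1 := hw'
      have h3 := ih c u hc hwc (half_subset h hup.symm hc.symm hcp.symm hw') (by omega)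
      omega
  rw [SimpleGraph.dist_comm (u := w) (v := u)]
  exact key _ u p hup hw hw' rfl

/-- The only edge between the two halves is `u p`. -/
theorem eq_of_adj_half (h : RT G d) {u p w w' : V} (hup : G.Adj u p) (hw : w ∈ half G u p)
    (hw' : w' ∈ half G p u) (hadj : G.Adj w w') : w = u ∧ w' = p := by
  have h1 := dist_of_half h hup hw hw'
  rw [dist_adj hadj] at h1
  exact ⟨eq_of_dist h.tree (by omega), (eq_of_dist h.tree (by omega)).symm⟩

/-! ### Geodesics -/

theorem geo_spec (h : RT G d) (o z : V) {i : ℕ} (hi : i ≤ G.dist o z) :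
    G.dist o (geo G o z i) = i ∧ G.dist (geo G o z i) z + i = G.dist o z := by
  have hex := geo_exists h.tree o z hi
  unfold geo
  rw [dif_pos hex]
  exact hex.choose_spec

theorem geo_eq_of (h : RT G d) {o z y : V} {i : ℕ} (h1 : G.dist o y = i)
    (h2 : G.dist y z + i = G.dist o z) : geo G o z i = y := by
  obtain ⟨h3, h4⟩ := geo_spec h o z (i := i) (by omega)
  exact geo_unique h.tree h3 h4 h1 h2

theorem geo_zero (h : RT G d) (o z : V) : geo G o z 0 = o := by
  exact geo_eq_of h SimpleGraph.dist_self rfl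

theorem geo_dist (h : RT G d) (o z : V) : geo G o z (G.dist o z) = z := by
  exact geo_eq_of h rfl (by rw [SimpleGraph.dist_self, Nat.zero_add])

theorem TreeAux.geo_geo_left (h : RT G d) (o z : V) {i j : ℕ} (hji : j ≤ i)
    (hi : i ≤ G.dist o z) : geo G o (geo G o z i) j = geo G o z j := by
  obtain ⟨h1, h2⟩ := geo_spec h o z hi
  obtain ⟨h3, h4⟩ := geo_spec h o (geo G o z i) (i := j) (by omega)
  have h5 := tri h.tree (geo G o (geo G o z i) j) (geo G o z i) z
  have h6 := tri h.tree o (geo G o (geo G o z i) j) z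
  exact (geo_eq_of h h3 (by omega)).symm

theorem TreeAux.geo_dist_geo (h : RT G d) (o z : V) {i j : ℕ} (hij : i ≤ j)
    (hj : j ≤ G.dist o z) : G.dist (geo G o z i) (geo G o z j) = j - i := by
  obtain ⟨h1, -⟩ := geo_spec h o z hj
  obtain ⟨-, h4⟩ := geo_spec h o (geo G o z j) (i := i) (by omega)
  rw [TreeAux.geo_geo_left h o z hij hj] at h4
  omega

theorem geo_adj (h : RT G d) (o z : V) {i : ℕ} (hi : i < G.dist o z) :
    G.Adj (geo G o z (i + 1)) (geo G o z i) := by
  have := TreeAux.geo_dist_geo h o z (i := i) (j := i + 1) (by omega) hi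
  rw [Nat.add_sub_cancel_left] at this
  exact (SimpleGraph.dist_eq_one_iff_adj.mp this).symm

theorem geo_dist_geo (h : RT G d) (o z : V) {i j : ℕ} (hij : i ≤ j) (hj : j ≤ G.dist o z) :
    G.dist (geo G o z i) (geo G o z j) = j - i := by
  exact TreeAux.geo_dist_geo h o z hij hj

theorem geo_geo_left (h : RT G d) (o z : V) {i j : ℕ} (hji : j ≤ i) (hi : i ≤ G.dist o z) :
    geo G o (geo G o z i) j = geo G o z j := by
  exact TreeAux.geo_geo_left h o z hji hi

theorem geo_geo_right (h : RT G d) (o z : V) {i j : ℕ} (hij : i + j ≤ G.dist o z) :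
    geo G (geo G o z i) z j = geo G o z (i + j) := by
  obtain ⟨-, h2⟩ := geo_spec h o z (i := i) (by omega)
  obtain ⟨-, h4⟩ := geo_spec h o z hij
  have h5 := geo_dist_geo h o z (i := i) (j := i + j) (by omega) hij
  exact geo_eq_of h (by omega) (by omega)

theorem geo_rev (h : RT G d) (o z : V) {i : ℕ} (hi : i ≤ G.dist o z) :
    geo G z o i = geo G o z (G.dist o z - i) := by
  obtain ⟨h1, h2⟩ := geo_spec h o z (i := G.dist o z - i) (by omega)
  refine geo_eq_of h ?_ ?_
  · rw [SimpleGraph.dist_comm]
    omega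
  · rw [SimpleGraph.dist_comm, h1, SimpleGraph.dist_comm (u := z) (v := o)]
    omega

theorem geo_ne (h : RT G d) (o z : V) {i : ℕ} (hi : i + 2 ≤ G.dist o z) :
    geo G o z (i + 2) ≠ geo G o z i := by
  intro he
  have := geo_dist_geo h o z (i := i) (j := i + 2) (by omega) hi
  rw [he, SimpleGraph.dist_self] at this
  omega

theorem mem_half_geo (h : RT G d) (o z : V) {i : ℕ} (hi : i < G.dist o z) :
    z ∈ half G (geo G o z (i + 1)) (geo G o z i) := by
  obtain ⟨-, h2⟩ := geo_spec h o z (i := i) (by omega)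
  obtain ⟨-, h4⟩ := geo_spec h o z (i := i + 1) hi
  show G.dist _ z = G.dist _ z + 1
  omega

theorem mem_half_geo' (h : RT G d) (o z : V) {i : ℕ} (hi : i < G.dist o z) :
    o ∈ half G (geo G o z i) (geo G o z (i + 1)) := by
  obtain ⟨h1, -⟩ := geo_spec h o z (i := i) (by omega)
  obtain ⟨h3, -⟩ := geo_spec h o z (i := i + 1) hi
  show G.dist _ o = G.dist _ o + 1
  rw [SimpleGraph.dist_comm, h3, SimpleGraph.dist_comm, h1]

theorem geo_one_of_half (h : RT G d) {c u w : V} (hcu : G.Adj c u) (hw : w ∈ half G c u) :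
    geo G u w 1 = c := by
  have h1 : G.dist u w = G.dist c w + 1 := hw
  exact geo_eq_of h (dist_adj hcu.symm) h1.symm

theorem geo_succ_of_half (h : RT G d) {c u w : V} (hcu : G.Adj c u) (hw : w ∈ half G c u)
    (i : ℕ) : geo G u w (i + 1) = geo G c w i := by
  have h1 : G.dist u w = G.dist c w + 1 := hw
  by_cases hi : i ≤ G.dist c w
  · have := geo_geo_right h u w (i := 1) (j := i) (by omega)
    rw [geo_one_of_half h hcu hw, Nat.add_comm] at this
    exact this.symm
  · rw [geo_of_lt (by omega), geo_of_lt (by omega)]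

/-- The half trees hanging further along a geodesic are nested. -/
theorem half_geo_subset (h : RT G d) (o z : V) {i j : ℕ} (hij : i ≤ j) (hj : j < G.dist o z) :
    half G (geo G o z (j + 1)) (geo G o z j) ⊆ half G (geo G o z (i + 1)) (geo G o z i) := by
  induction j, hij using Nat.le_induction with
  | base => exact subset_rfl
  | succ j _ ih =>
    exact (half_subset h (geo_adj h o z hj) (geo_adj h o z (by omega))
      (geo_ne h o z (by omega))).trans (ih (by omega))

/-- A geodesic from `u` into the half tree of `u` moves away from `p`. -/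
theorem half_geo_subset_half (h : RT G d) {u p z : V} (hup : G.Adj u p) (hz : z ∈ half G u p)
    {i : ℕ} (hi : i < G.dist u z) : half G (geo G u z (i + 1)) (geo G u z i) ⊆ half G u p := by
  refine (half_geo_subset h u z (Nat.zero_le i) hi).trans ?_
  have hadj := geo_adj h u z (i := 0) (by omega)
  have hmem := mem_half_geo h u z (i := 0) (by omega)
  rw [geo_zero h] at hadj hmem ⊢
  refine half_subset h hadj hup ?_
  intro he
  rw [he] at hmem
  exact (mem_half_iff_not h hup z).1 hz hmem

/-! ### Equivariance -/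

omit [G.LocallyFinite] in
theorem dist_map (g : G ≃g G) (a b : V) : G.dist (g a) (g b) = G.dist a b := by
  have h1 := edist_map_le g a b
  have h2 := edist_map_le g.symm (g a) (g b)
  rw [RelIso.symm_apply_apply, RelIso.symm_apply_apply] at h2
  unfold SimpleGraph.dist
  rw [le_antisymm h1 h2]

omit [G.LocallyFinite] in
theorem mem_half_map (g : G ≃g G) (u p w : V) : g w ∈ half G (g u) (g p) ↔ w ∈ half G u p := by
  show G.dist (g p) (g w) = G.dist (g u) (g w) + 1 ↔ G.dist p w = G.dist u w + 1
  rw [dist_map, dist_map]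

theorem geo_map (h : RT G d) (g : G ≃g G) (o z : V) (i : ℕ) :
    geo G (g o) (g z) i = g (geo G o z i) := by
  by_cases hi : i ≤ G.dist o z
  · obtain ⟨h1, h2⟩ := geo_spec h o z hi
    exact geo_eq_of h (by rw [dist_map, h1]) (by rw [dist_map, dist_map, h2])
  · rw [geo_of_lt (by rw [dist_map]; omega), geo_of_lt (by omega)]

theorem ball_map (h : RT G d) (g : G ≃g G) (c : V) (R : ℕ) :
    ball G (g c) R = (ball G c R).image g := by
  ext w
  rw [mem_ball h, Finset.mem_image]
  constructor
  · intro hw
    refine ⟨g.symm w, ?_, RelIso.apply_symm_apply g w⟩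
    rw [mem_ball h, ← dist_map g, RelIso.apply_symm_apply]
    exact hw
  · rintro ⟨y, hy, rfl⟩
    rw [dist_map]
    exact (mem_ball h).1 hy

theorem box_map (h : RT G d) (g : G ≃g G) (c : V) (R : ℕ) :
    box G (g c) R = (box G c R).image (gz g) := by
  ext z
  rw [mem_box h, Finset.mem_image]
  constructor
  · intro hz
    refine ⟨(g.symm z.1, z.2), ?_, ?_⟩
    · rw [mem_box h, ← dist_map g, RelIso.apply_symm_apply]
      exact hz
    · simp [gz]
  · rintro ⟨y, hy, rfl⟩
    have := (mem_box h).1 hy
    rw [← dist_map g] at this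
    exact this

end Crest.Agent.R160

end
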