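import Crest.Agent.R160.Tree

/-!
Sums over balls of the regular tree.
-/

set_option autoImplicit false

open MeasureTheory unitInterval Filter Topology
open Crest.ProbabilityR Crest.ProbabilityR.Labels Crest.ProbabilityR.TreeIsing
open scoped Classical

noncomputable section

namespace Crest.Agent.R160

universe u

variable {V : Type u} {G : SimpleGraph V} [G.LocallyFinite] {d : ℕ}

namespace TreeSumAux

theorem sum_split (h : RT G d) (u : V) (N : ℕ) (C : Finset V) (hC : ∀ c ∈ C, G.Adj c u)
    (B : Finset V) (hu : u ∈ B)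
    (hB : ∀ w, w ≠ u → (w ∈ B ↔ G.dist u w ≤ N + 1 ∧ ∃ c ∈ C, w ∈ half G c u)) (f : V → ℝ) :
    ∑ w ∈ B, f w = f u + ∑ c ∈ C, ∑ w ∈ (ball G c N).filter (· ∈ half G c u), f w := by
  have hne : ∀ c w, w ∈ half G c u → w ≠ u := by
    rintro c w hw rfl
    simp [half] at hw
  rw [← Finset.sum_biUnion, ← Finset.add_sum_erase B f hu]
  · congr 1
    refine Finset.sum_congr ?_ fun _ _ => rfl
    ext w
    simp only [Finset.mem_erase, Finset.mem_biUnion, Finset.mem_filter, mem_ball h]
    constructor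
    · rintro ⟨hw, hwB⟩
      obtain ⟨h1, c, hc, hwc⟩ := (hB w hw).mp hwB
      refine ⟨c, hc, ?_, hwc⟩
      have : G.dist u w = G.dist c w + 1 := hwc
      omega
    · rintro ⟨c, hc, h1, hwc⟩
      refine ⟨hne c w hwc, (hB w (hne c w hwc)).mpr ⟨?_, c, hc, hwc⟩⟩
      have : G.dist u w = G.dist c w + 1 := hwc
      omega
  · intro c hc c' hc' hcc
    rw [Function.onFun, Finset.disjoint_left]
    intro w hw hw'
    exact hcc (half_unique h (hC c hc) (hC c' hc') (Finset.mem_filter.mp hw).2
      (Finset.mem_filter.mp hw').2)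

theorem ball_zero (h : RT G d) (u : V) : ball G u 0 = {u} := by
  ext w
  rw [mem_ball h, Finset.mem_singleton, Nat.le_zero, h.tree.connected.dist_eq_zero_iff, eq_comm]

end TreeSumAux

open TreeSumAux

/-! ### Sums over balls -/

theorem sum_ball_succ (h : RT G d) (o : V) (N : ℕ) (f : V → ℝ) :
    ∑ w ∈ ball G o (N + 1), f w =
      f o + ∑ c ∈ G.neighborFinset o, ∑ w ∈ (ball G c N).filter (· ∈ half G c o), f w := by
  refine sum_split h o N _ (fun c hc => ((G.mem_neighborFinset o c).mp hc).symm) _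
    ((mem_ball h).mpr (by simp)) (fun w hw => ?_) f
  rw [mem_ball h]
  refine ⟨fun h1 => ⟨h1, ?_⟩, fun h1 => h1.1⟩
  obtain ⟨c, hc, hwc⟩ := exists_half h hw
  exact ⟨c, (G.mem_neighborFinset o c).mpr hc.symm, hwc⟩

theorem sum_half_zero (h : RT G d) {u p : V} (hup : G.Adj u p) (f : V → ℝ) :
    ∑ w ∈ (ball G u 0).filter (· ∈ half G u p), f w = f u := by
  rw [ball_zero h, Finset.filter_singleton, if_pos (self_mem_half h hup), Finset.sum_singleton]

theorem sum_half_succ (h : RT G d) {u p : V} (hup : G.Adj u p) (N : ℕ) (f : V → ℝ) :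
    ∑ w ∈ (ball G u (N + 1)).filter (· ∈ half G u p), f w =
      f u + ∑ c ∈ (G.neighborFinset u).erase p,
        ∑ w ∈ (ball G c N).filter (· ∈ half G c u), f w := by
  refine sum_split h u N _
    (fun c hc => ((G.mem_neighborFinset u c).mp (Finset.mem_of_mem_erase hc)).symm) _
    (Finset.mem_filter.mpr ⟨(mem_ball h).mpr (by simp), self_mem_half h hup⟩) (fun w hw => ?_) f
  rw [Finset.mem_filter, mem_ball h]
  refine and_congr_right fun _ => ⟨fun h1 => ?_, ?_⟩
  · obtain ⟨c, hc, hcp, hwc⟩ := exists_half_of_mem h hup h1 hw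
    exact ⟨c, Finset.mem_erase.mpr ⟨hcp, (G.mem_neighborFinset u c).mpr hc.symm⟩, hwc⟩
  · rintro ⟨c, hc, hwc⟩
    obtain ⟨hcp, hc⟩ := Finset.mem_erase.mp hc
    exact half_subset h ((G.mem_neighborFinset u c).mp hc).symm hup hcp hwc

/-- Radial sums over a half tree: there are `(d-1)^n` vertices at distance `n`. -/
theorem sum_half_radial (h : RT G d) {u p : V} (hup : G.Adj u p) (N : ℕ) (f : ℕ → ℝ) :
    ∑ w ∈ (ball G u N).filter (· ∈ half G u p), f (G.dist u w) =
      ∑ n ∈ Finset.range (N + 1), ((d : ℝ) - 1) ^ n * f n := by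
  induction N generalizing u p f with
  | zero => rw [sum_half_zero h hup (fun w => f (G.dist u w))]; simp
  | succ N ih =>
    rw [sum_half_succ h hup N (fun w => f (G.dist u w)), Finset.sum_range_succ' _ (N + 1)]
    have key : ∀ c ∈ (G.neighborFinset u).erase p,
        ∑ w ∈ (ball G c N).filter (· ∈ half G c u), f (G.dist u w) =
          ∑ n ∈ Finset.range (N + 1), ((d : ℝ) - 1) ^ n * f (n + 1) := by
      intro c hc
      rw [← ih ((G.mem_neighborFinset u c).mp (Finset.mem_of_mem_erase hc)).symm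
        (fun n => f (n + 1))]
      refine Finset.sum_congr rfl fun w hw => ?_
      have : G.dist u w = G.dist c w + 1 := (Finset.mem_filter.mp hw).2
      rw [this]
    rw [Finset.sum_congr rfl key, Finset.sum_const, card_erase h hup, nsmul_eq_mul,
      Nat.cast_sub (by have := h.three; omega), Finset.mul_sum]
    simp only [SimpleGraph.dist_self, pow_zero, one_mul, Nat.cast_one]
    rw [add_comm]
    congr 1
    refine Finset.sum_congr rfl fun n _ => ?_
    ring

theorem TreeSumAux.sum_ball_radial (h : RT G d) (o : V) (N : ℕ) (f : ℕ → ℝ) :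
    ∑ w ∈ ball G o (N + 1), f (G.dist o w) =
      f 0 + d * ∑ n ∈ Finset.range (N + 1), ((d : ℝ) - 1) ^ n * f (n + 1) := by
  rw [sum_ball_succ h o N (fun w => f (G.dist o w))]
  have key : ∀ c ∈ G.neighborFinset o,
      ∑ w ∈ (ball G c N).filter (· ∈ half G c o), f (G.dist o w) =
        ∑ n ∈ Finset.range (N + 1), ((d : ℝ) - 1) ^ n * f (n + 1) := by
    intro c hc
    rw [← sum_half_radial h ((G.mem_neighborFinset o c).mp hc).symm N (fun n => f (n + 1))]
    refine Finset.sum_congr rfl fun w hw => ?_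
    have : G.dist o w = G.dist c w + 1 := (Finset.mem_filter.mp hw).2
    rw [this]
  rw [Finset.sum_congr rfl key, Finset.sum_const, SimpleGraph.card_neighborFinset_eq_degree,
    h.reg.degree_eq, nsmul_eq_mul, SimpleGraph.dist_self]

/-- Radial sums over a ball, upper bound: at most `(3/2) (d-1)^n` vertices at distance `n`. -/
theorem sum_ball_radial_le (h : RT G d) (o : V) (N : ℕ) {f : ℕ → ℝ} (hf : ∀ n, 0 ≤ f n) :
    ∑ w ∈ ball G o N, f (G.dist o w) ≤
      3 / 2 * ∑ n ∈ Finset.range (N + 1), ((d : ℝ) - 1) ^ n * f n := by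
  have h2 := h.two_le
  cases N with
  | zero =>
    rw [ball_zero h]
    have := hf 0
    simp only [Finset.sum_singleton, SimpleGraph.dist_self, zero_add, Finset.range_one, pow_zero,
      one_mul]
    linarith
  | succ N =>
    rw [sum_ball_radial h, Finset.sum_range_succ' _ (N + 1)]
    have e : ∑ n ∈ Finset.range (N + 1), ((d : ℝ) - 1) ^ (n + 1) * f (n + 1) =
        ((d : ℝ) - 1) * ∑ n ∈ Finset.range (N + 1), ((d : ℝ) - 1) ^ n * f (n + 1) := by
      rw [Finset.mul_sum]
      exact Finset.sum_congr rfl fun n _ => by ring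
    have hS : 0 ≤ ∑ n ∈ Finset.range (N + 1), ((d : ℝ) - 1) ^ n * f (n + 1) :=
      Finset.sum_nonneg fun n _ => mul_nonneg (pow_nonneg (by linarith) _) (hf _)
    rw [e, pow_zero, one_mul]
    have := hf 0
    nlinarith

/-- Radial sums over a ball, lower bound: at least `(d-1)^n` vertices at distance `n`. -/
theorem le_sum_ball_radial (h : RT G d) (o : V) (N : ℕ) {f : ℕ → ℝ} (hf : ∀ n, 0 ≤ f n) :
    ∑ n ∈ Finset.range (N + 1), ((d : ℝ) - 1) ^ n * f n ≤ ∑ w ∈ ball G o N, f (G.dist o w) := by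
  have h2 := h.two_le
  cases N with
  | zero =>
    rw [ball_zero h]
    simp
  | succ N =>
    rw [sum_ball_radial h, Finset.sum_range_succ' _ (N + 1)]
    have e : ∑ n ∈ Finset.range (N + 1), ((d : ℝ) - 1) ^ (n + 1) * f (n + 1) =
        ((d : ℝ) - 1) * ∑ n ∈ Finset.range (N + 1), ((d : ℝ) - 1) ^ n * f (n + 1) := by
      rw [Finset.mul_sum]
      exact Finset.sum_congr rfl fun n _ => by ring
    have hS : 0 ≤ ∑ n ∈ Finset.range (N + 1), ((d : ℝ) - 1) ^ n * f (n + 1) :=
      Finset.sum_nonneg fun n _ => mul_nonneg (pow_nonneg (by linarith) _) (hf _)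
    rw [e, pow_zero, one_mul]
    nlinarith

theorem ball_connected (h : RT G d) (c : V) (R : ℕ) :
    (G.induce (ball G c R : Set V)).Connected := by
  have hc : c ∈ (ball G c R : Set V) := Finset.mem_coe.mpr ((mem_ball h).mpr (by simp))
  have key : ∀ (n : ℕ) (w : V) (hw : w ∈ (ball G c R : Set V)), G.dist c w = n →
      (G.induce (ball G c R : Set V)).Reachable ⟨c, hc⟩ ⟨w, hw⟩ := by
    intro n
    induction n with
    | zero =>
      intro w hw h0
      obtain rfl := h.tree.connected.dist_eq_zero_iff.mp h0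
      rfl
    | succ n ih =>
      intro w hw h1
      have hR : G.dist c w ≤ R := (mem_ball h).mp (Finset.mem_coe.mp hw)
      have hy := (geo_spec h c w (i := n) (by omega)).1
      have hyb : geo G c w n ∈ (ball G c R : Set V) :=
        Finset.mem_coe.mpr ((mem_ball h).mpr (by omega))
      have hadj := geo_adj h c w (i := n) (by omega)
      rw [← h1, geo_dist h] at hadj
      refine (ih _ hyb hy).trans (SimpleGraph.Adj.reachable ?_)
      exact hadj.symm
  rw [SimpleGraph.connected_iff_exists_forall_reachable]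
  exact ⟨⟨c, hc⟩, fun w => key _ w.1 w.2 rfl⟩

theorem card_ball_le (h : RT G d) (c : V) (R : ℕ) : (ball G c R).card ≤ (d + 1) ^ R := by
  have h2 := h.two_le
  cases R with
  | zero => rw [ball_zero h]; simp
  | succ N =>
    have h1 := sum_ball_radial h c N (fun _ => 1)
    simp only [Finset.sum_const, nsmul_eq_mul, mul_one] at h1
    have h3 : ∑ n ∈ Finset.range (N + 1), ((d : ℝ) - 1) ^ n ≤
        ∑ n ∈ Finset.range (N + 1), ((d : ℝ) + 1) ^ n :=
      Finset.sum_le_sum fun n _ => pow_le_pow_left₀ (by linarith) (by linarith) n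
    have h4 := mul_geom_sum ((d : ℝ) + 1) (N + 1)
    rw [add_sub_cancel_right] at h4
    have h5 : ((ball G c (N + 1)).card : ℝ) ≤ ((d : ℝ) + 1) ^ (N + 1) := by
      rw [h1]
      have : (0 : ℝ) ≤ d := d.cast_nonneg
      nlinarith
    exact_mod_cast h5

end Crest.Agent.R160

end
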