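import Crest.Agent.R160.Bayes
import Crest.Agent.R160.IsingOm

/-!
Lower bounds on the information from linear estimators.
-/

set_option autoImplicit false

open MeasureTheory unitInterval Filter Topology
open Crest.ProbabilityR Crest.ProbabilityR.Labels Crest.ProbabilityR.TreeIsing
open scoped Classical

noncomputable section

namespace Crest.Agent.R160

universe u

variable {V : Type u} {G : SimpleGraph V} [G.LocallyFinite] {d : ℕ}

variable {θ : ℝ}

namespace XLowAux

open IsingOmAux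

theorem integral_eval {A : Type u} (a : A) {f : I → ℝ} (hf : Measurable f) :
    ∫ x, f (x a) ∂(labelMeasure A) = ∫ r, f r := by
  have h : MeasurePreserving (fun x : A → I => x a) (labelMeasure A) volume :=
    measurePreserving_eval_infinitePi (fun _ : A => (volume : Measure I)) a
  rw [← h.map_eq, integral_map h.measurable.aemeasurable hf.aestronglyMeasurable]

theorem integral_eval_two {A : Type u} {a b : A} (hab : a ≠ b) {f g : I → ℝ} (hf : Measurable f)
    (hg : Measurable g) :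
    ∫ x, f (x a) * g (x b) ∂(labelMeasure A) = (∫ r, f r) * ∫ r, g r := by
  rw [integral_mul_of_dep {a} (f := fun x => f (x a)) (g := fun x => g (x b))
    (hf.comp (measurable_pi_apply a)) (hg.comp (measurable_pi_apply b))
    (fun x y h => by rw [h a rfl]) (fun x y h => by rw [h b hab.symm]),
    integral_eval a hf, integral_eval b hg]

theorem meas_inner {f : I × I → ℝ} (hf : Measurable f) : Measurable fun r => ∫ u, f (r, u) :=
  (hf.stronglyMeasurable.integral_prod_right').measurable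

/-- The spin-free part of a likelihood increment. -/
def amp (s : ℝ) (k : ℕ) (q : I × I) : ℝ :=
  if (k : ℝ) + q.1 < s then lk (epsf (k + q.1)) (qt (epsf (k + q.1)) q.2) else 0

theorem measurable_amp (s : ℝ) (k : ℕ) : Measurable (amp s k) := by
  have h1 : Measurable fun q : I × I => (k : ℝ) + q.1 := by fun_prop
  have h2 : Measurable fun q : I × I => epsf ((k : ℝ) + q.1) := measurable_epsf.comp h1
  exact Measurable.ite (measurableSet_lt h1 measurable_const)
    (measurable_lk.comp (h2.prodMk (measurable_qt.comp (h2.prodMk measurable_snd))))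
    measurable_const

theorem abs_amp_le (s : ℝ) (k : ℕ) (q : I × I) : |amp s k q| ≤ 1 := by
  unfold amp
  split_ifs
  · exact (abs_lk_le (epsf_nonneg _) _).trans ((epsf_le _).trans (by norm_num))
  · simp

omit [G.LocallyFinite] in
theorem Lms_eq {A : Set (Slot V)} {z : Slot V} (hz : z ∈ A) (s : ℝ) (ω : Om V) :
    Lms A s ω z = spin (ω.2.1 z.1) * amp s z.2 (ω.1 z, ω.2.2 z) := by
  simp only [Lms, Lt, Set.indicator_of_mem hz, amp, Set.indicator_apply, tm, Set.mem_ofPred_eq]
  by_cases h : tim ω.1 z < s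
  · rw [if_pos h, if_pos (show (z.2 : ℝ) + ω.1 z < s from h), Lw_eq]; rfl
  · rw [if_neg h, if_neg (show ¬ (z.2 : ℝ) + ω.1 z < s from h), mul_zero]

theorem integral_amp (s : ℝ) (k : ℕ) :
    ∫ r : I, ∫ u : I, amp s k (r, u) = (∫ r : I, if (k : ℝ) + r < s then epsf (k + r) ^ 2 else 0) / 3 := by
  rw [← integral_div]
  congr 1
  funext r
  simp only [amp]
  split_ifs
  · exact integral_lk_qt (epsf_nonneg _) (epsf_le _)
  · simp

theorem integral_amp_sq (s : ℝ) (k : ℕ) :
    ∫ r : I, ∫ u : I, amp s k (r, u) * amp s k (r, u) ≤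
      ∫ r : I, if (k : ℝ) + r < s then epsf (k + r) ^ 2 else 0 := by
  have h1 : Measurable fun r : I => (k : ℝ) + r := by fun_prop
  refine integral_mono_of_nonneg (Eventually.of_forall fun r => integral_nonneg fun u =>
    mul_self_nonneg _) (R168.integrable_of_abs_le (Measurable.ite
      (measurableSet_lt h1 measurable_const) ((measurable_epsf.comp h1).pow_const 2)
      measurable_const) 1 fun r => ?_) (Eventually.of_forall fun r => ?_)
  · split_ifs
    · rw [abs_of_nonneg (sq_nonneg _)]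
      nlinarith [epsf_nonneg ((k : ℝ) + r), epsf_le ((k : ℝ) + r)]
    · simp
  · refine (le_abs_self _).trans (abs_integral_le fun u => ?_)
    simp only [amp]
    split_ifs
    · rw [abs_mul, sq]
      exact mul_self_le_mul_self (abs_nonneg _) (abs_lk_le (epsf_nonneg _) _)
    · simp

omit [G.LocallyFinite] in
theorem measurable_sp (v : V) : Measurable fun η : V → Bool => spin (η v) :=
  measurable_spin.comp (measurable_pi_apply v)

omit [G.LocallyFinite] in
theorem measurable_at {f : I × I → ℝ} (hf : Measurable f) (z : Slot V) :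
    Measurable fun ω : Om V => f (ω.1 z, ω.2.2 z) :=
  hf.comp (by fun_prop)

theorem abs_sp_mul (a b : Bool) : |spin a * spin b| ≤ 1 := by
  rw [abs_mul, abs_spin, abs_spin, mul_one]

omit [G.LocallyFinite] in
/-- Spins are independent of times and noise. -/
theorem integral_split (v w : V) {F : Lb V × Lb V → ℝ} (hF : Measurable F) (hb : ∀ q, |F q| ≤ 1) :
    ∫ ω, spin (ω.2.1 v) * spin (ω.2.1 w) * F (ω.1, ω.2.2) ∂(Pw G θ) =
      (∫ η, spin (η v) * spin (η w) ∂(ising G θ)) * ∫ T, ∫ W, F (T, W) ∂(nu V) ∂(nu V) := by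
  rw [integral_Pw θ (C := 1) (F := fun ω => spin (ω.2.1 v) * spin (ω.2.1 w) * F (ω.1, ω.2.2))
    (((BayesAux.measurable_spinv v).mul (BayesAux.measurable_spinv w)).mul
    (hF.comp (by fun_prop))) (fun ω => by
      rw [abs_mul]
      exact mul_le_one₀ (abs_sp_mul _ _) (abs_nonneg _) (hb _)), ← integral_mul_const]
  congr 1
  funext η
  simp only [av, av1, integral_const_mul]

theorem integral_one (v : V) (z : Slot V) {f : I × I → ℝ} (hf : Measurable f)
    (hb : ∀ q, |f q| ≤ 1) :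
    ∫ ω, spin (ω.2.1 v) * spin (ω.2.1 z.1) * f (ω.1 z, ω.2.2 z) ∂(Pw G θ) =
      (∫ η, spin (η v) * spin (η z.1) ∂(ising G θ)) * ∫ r, ∫ u, f (r, u) := by
  rw [integral_split v z.1 (F := fun q => f (q.1 z, q.2 z)) (hf.comp (by fun_prop)) fun q => hb _]
  congr 1
  rw [← integral_eval z (meas_inner hf)]
  congr 1
  funext T
  exact integral_eval z (f := fun u => f (T z, u)) (hf.comp (by fun_prop))

theorem integral_two {z z' : Slot V} (hz : z ≠ z') {f g : I × I → ℝ} (hf : Measurable f)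
    (hg : Measurable g) (hb : ∀ q, |f q| ≤ 1) (hb' : ∀ q, |g q| ≤ 1) :
    ∫ ω, spin (ω.2.1 z.1) * spin (ω.2.1 z'.1) * (f (ω.1 z, ω.2.2 z) * g (ω.1 z', ω.2.2 z'))
        ∂(Pw G θ) =
      (∫ η, spin (η z.1) * spin (η z'.1) ∂(ising G θ)) *
        ((∫ r, ∫ u, f (r, u)) * ∫ r, ∫ u, g (r, u)) := by
  rw [integral_split z.1 z'.1 (F := fun q => f (q.1 z, q.2 z) * g (q.1 z', q.2 z'))
    ((hf.comp (by fun_prop)).mul (hg.comp (by fun_prop))) fun q => by
      rw [abs_mul]; exact mul_le_one₀ (hb _) (abs_nonneg _) (hb' _)]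
  congr 1
  rw [← integral_eval_two hz (meas_inner hf) (meas_inner hg)]
  congr 1
  funext T
  exact integral_eval_two hz (f := fun u => f (T z, u)) (g := fun u => g (T z', u))
    (hf.comp (by fun_prop)) (hg.comp (by fun_prop))

omit [G.LocallyFinite] in
theorem int_sp (v w : V) : Integrable (fun η : V → Bool => spin (η v) * spin (η w)) (ising G θ) :=
  R168.integrable_of_abs_le ((measurable_sp v).mul (measurable_sp w)) 1 fun _ => abs_sp_mul _ _

omit [G.LocallyFinite] in
theorem integral_sp_self (v : V) : ∫ η, spin (η v) * spin (η v) ∂(ising G θ) = 1 := by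
  simp only [← sq, spin_sq]
  simp

section Linear
variable {κ : Type*} (J : Finset κ) (ζ : κ → Slot V) (c : κ → ℝ) (s : ℝ) {A : Set (Slot V)}
  (hA : ∀ j ∈ J, ζ j ∈ A) {m₀ : ℝ} (hm : ∀ j ∈ J, ∫ r : I, ∫ u : I, amp s (ζ j).2 (r, u) = m₀)
include hA hm

theorem linear_mean (v : V) :
    ∫ ω, spin (ω.2.1 v) * ∑ j ∈ J, c j * Lms A s ω (ζ j) ∂(Pw G θ) =
      m₀ * ∫ η, spin (η v) * ∑ j ∈ J, c j * spin (η (ζ j).1) ∂(ising G θ) := by
  have e1 : ∀ ω : Om V, spin (ω.2.1 v) * ∑ j ∈ J, c j * Lms A s ω (ζ j) = ∑ j ∈ J, c j *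
      (spin (ω.2.1 v) * spin (ω.2.1 (ζ j).1) * amp s (ζ j).2 (ω.1 (ζ j), ω.2.2 (ζ j))) := by
    intro ω
    rw [Finset.mul_sum]
    exact Finset.sum_congr rfl fun j hj => by rw [Lms_eq (hA j hj)]; ring
  have e2 : ∀ η : V → Bool, spin (η v) * ∑ j ∈ J, c j * spin (η (ζ j).1) =
      ∑ j ∈ J, c j * (spin (η v) * spin (η (ζ j).1)) := by
    intro η
    rw [Finset.mul_sum]
    exact Finset.sum_congr rfl fun j _ => by ring
  simp only [e1, e2]
  rw [integral_finsetSum, integral_finsetSum, Finset.mul_sum]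
  · refine Finset.sum_congr rfl fun j hj => ?_
    rw [integral_const_mul, integral_const_mul,
      integral_one v _ (measurable_amp _ _) (abs_amp_le _ _), hm j hj]
    ring
  · exact fun j _ => (int_sp _ _).const_mul _
  · refine fun j _ => (R168.integrable_of_abs_le (((BayesAux.measurable_spinv _).mul
      (BayesAux.measurable_spinv _)).mul (measurable_at (measurable_amp _ _) _)) 1
        fun ω => ?_).const_mul _
    simp only [Pi.mul_apply]
    rw [abs_mul]
    exact mul_le_one₀ (abs_sp_mul _ _) (abs_nonneg _) (abs_amp_le _ _ _)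

theorem linear_sq (hζ : Set.InjOn ζ J) {n₀ : ℝ}
    (hn : ∀ j ∈ J, ∫ r : I, ∫ u : I, amp s (ζ j).2 (r, u) * amp s (ζ j).2 (r, u) ≤ n₀) :
    ∫ ω, (∑ j ∈ J, c j * Lms A s ω (ζ j)) ^ 2 ∂(Pw G θ) ≤ n₀ * ∑ j ∈ J, c j ^ 2 +
      m₀ ^ 2 * ∫ η, (∑ j ∈ J, c j * spin (η (ζ j).1)) ^ 2 ∂(ising G θ) := by
  have e1 : ∀ ω : Om V, (∑ j ∈ J, c j * Lms A s ω (ζ j)) ^ 2 = ∑ j ∈ J, ∑ i ∈ J, c j * c i *
      (spin (ω.2.1 (ζ j).1) * spin (ω.2.1 (ζ i).1) * (amp s (ζ j).2 (ω.1 (ζ j), ω.2.2 (ζ j)) *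
        amp s (ζ i).2 (ω.1 (ζ i), ω.2.2 (ζ i)))) := by
    intro ω
    rw [sq, Finset.sum_mul_sum]
    exact Finset.sum_congr rfl fun j hj => Finset.sum_congr rfl fun i hi => by
      rw [Lms_eq (hA j hj), Lms_eq (hA i hi)]; ring
  have e2 : ∀ η : V → Bool, (∑ j ∈ J, c j * spin (η (ζ j).1)) ^ 2 =
      ∑ j ∈ J, ∑ i ∈ J, c j * c i * (spin (η (ζ j).1) * spin (η (ζ i).1)) := by
    intro η
    rw [sq, Finset.sum_mul_sum]
    exact Finset.sum_congr rfl fun j _ => Finset.sum_congr rfl fun i _ => by ring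
  have i1 : ∀ j i, Integrable (fun ω : Om V => c j * c i *
      (spin (ω.2.1 (ζ j).1) * spin (ω.2.1 (ζ i).1) * (amp s (ζ j).2 (ω.1 (ζ j), ω.2.2 (ζ j)) *
        amp s (ζ i).2 (ω.1 (ζ i), ω.2.2 (ζ i))))) (Pw G θ) := by
    refine fun j i => (R168.integrable_of_abs_le (((BayesAux.measurable_spinv _).mul
      (BayesAux.measurable_spinv _)).mul ((measurable_at (measurable_amp _ _) _).mul
        (measurable_at (measurable_amp _ _) _))) 1 fun ω => ?_).const_mul _
    simp only [Pi.mul_apply]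
    rw [abs_mul, abs_mul (amp _ _ _)]
    exact mul_le_one₀ (abs_sp_mul _ _) (by positivity)
      (mul_le_one₀ (abs_amp_le _ _ _) (abs_nonneg _) (abs_amp_le _ _ _))
  have i2 : ∀ j i, Integrable (fun η : V → Bool =>
      c j * c i * (spin (η (ζ j).1) * spin (η (ζ i).1))) (ising G θ) :=
    fun j i => (int_sp _ _).const_mul _
  simp only [e1, e2]
  rw [integral_finsetSum _ fun j _ => integrable_finsetSum _ fun i _ => i1 j i,
    integral_finsetSum _ fun j _ => integrable_finsetSum _ fun i _ => i2 j i,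
    Finset.mul_sum, Finset.mul_sum, ← Finset.sum_add_distrib]
  refine Finset.sum_le_sum fun j hj => ?_
  rw [integral_finsetSum _ fun i _ => i1 j i, integral_finsetSum _ fun i _ => i2 j i,
    Finset.mul_sum, ← Finset.add_sum_erase _ _ hj, ← Finset.add_sum_erase _ _ hj, ← add_assoc]
  refine add_le_add ?_ (le_of_eq (Finset.sum_congr rfl fun i hi => ?_))
  · rw [integral_const_mul, integral_const_mul, integral_one _ (ζ j)
      (f := fun q => amp s (ζ j).2 q * amp s (ζ j).2 q)
      ((measurable_amp _ _).mul (measurable_amp _ _)) (fun q => by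
        rw [abs_mul]; exact mul_le_one₀ (abs_amp_le _ _ _) (abs_nonneg _) (abs_amp_le _ _ _)),
      integral_sp_self]
    have := mul_le_mul_of_nonneg_left (hn j hj) (sq_nonneg (c j))
    nlinarith [sq_nonneg (m₀ * c j)]
  · rw [Finset.mem_erase] at hi
    rw [integral_const_mul, integral_const_mul, integral_two (fun h => hi.1 (hζ hi.2 hj h.symm))
      (measurable_amp _ _) (measurable_amp _ _) (abs_amp_le _ _) (abs_amp_le _ _), hm j hj,
      hm i hi.2]
    ring

end Linear

/-- The weighted magnetisation of a half ball. -/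
def YY (G : SimpleGraph V) (θ : ℝ) (N : ℕ) (u p : V) (η : V → Bool) : ℝ :=
  ∑ w ∈ (ball G u N).filter (· ∈ half G u p), θ ^ G.dist u w * spin (η w)

omit [G.LocallyFinite] in
theorem measurable_YY (N : ℕ) (u p : V) : Measurable (YY G θ N u p) :=
  Finset.measurable_fun_sum _ fun w _ => (measurable_sp w).const_mul _

omit [G.LocallyFinite] in
theorem abs_YY_le (N : ℕ) (u p : V) : ∃ C, 1 ≤ C ∧ ∀ η, |YY G θ N u p η| ≤ C := by
  refine ⟨1 + ∑ w ∈ (ball G u N).filter (· ∈ half G u p), |θ ^ G.dist u w|,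
    le_add_of_nonneg_right (Finset.sum_nonneg fun _ _ => abs_nonneg _), fun η => ?_⟩
  refine (Finset.abs_sum_le_sum_abs _ _).trans ?_
  simp only [abs_mul, abs_spin, mul_one]
  linarith

omit [G.LocallyFinite] in
theorem dep_YY (N : ℕ) (u p : V) {E : Set V} (hE : half G u p ⊆ E) :
    DependsOn (YY G θ N u p) E := fun η η' h =>
  Finset.sum_congr rfl fun w hw => by rw [h w (hE (Finset.mem_filter.1 hw).2)]

theorem integral_YY (h : RT G d) (h0 : 0 ≤ θ) (h1 : θ ≤ 1) (N : ℕ) (u p : V) :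
    ∫ η, YY G θ N u p η ∂(ising G θ) = 0 := by
  unfold YY
  rw [integral_finsetSum]
  · simp only [integral_const_mul, integral_spin h h0 h1, mul_zero, Finset.sum_const_zero]
  · exact fun w _ => (R168.integrable_of_abs_le (measurable_sp w) 1
      fun η => (abs_spin _).le).const_mul _

theorem YY_succ (h : RT G d) {u p : V} (hup : G.Adj u p) (N : ℕ) (η : V → Bool) :
    YY G θ (N + 1) u p η =
      spin (η u) + θ * ∑ c ∈ (G.neighborFinset u).erase p, YY G θ N c u η := by
  rw [YY, sum_half_succ h hup, SimpleGraph.dist_self, pow_zero, one_mul, Finset.mul_sum]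
  congr 1
  refine Finset.sum_congr rfl fun c _ => ?_
  rw [YY, Finset.mul_sum]
  refine Finset.sum_congr rfl fun w hw => ?_
  have : G.dist u w = G.dist c w + 1 := (Finset.mem_filter.1 hw).2
  rw [this]
  ring

theorem geom_le {q : ℝ} (h0 : 0 ≤ q) (h1 : q ≤ 1) (n : ℕ) : ∑ i ∈ Finset.range n, q ^ i ≤ n := by
  simpa using Finset.sum_le_card_nsmul (Finset.range n) (fun i => q ^ i) 1
    fun i _ => pow_le_one₀ h0 h1

theorem YY_moments (h : RT G d) (hθ : Subc d θ) (N : ℕ) : ∀ u p, G.Adj u p →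
    ∫ η, spin (η u) * YY G θ N u p η ∂(ising G θ) =
        ∑ i ∈ Finset.range (N + 1), (((d : ℝ) - 1) * θ ^ 2) ^ i ∧
      ∫ η, YY G θ N u p η ^ 2 ∂(ising G θ) ≤ (N + 1) ^ 3 := by
  have h0 := hθ.1
  have h1 : θ ≤ 1 := (hθ.le h).trans (by norm_num)
  have hd := h.two_le
  induction N with
  | zero =>
    intro u p hup
    simp only [YY, sum_half_zero h hup, SimpleGraph.dist_self, pow_zero, one_mul, spin_sq,
      integral_sp_self]
    simp
  | succ N ih =>
    intro u p hup
    set q := ((d : ℝ) - 1) * θ ^ 2 with hq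
    have hq0 : 0 ≤ q := by positivity
    have hq1 : q ≤ 1 := hθ.2.le
    set a := ∑ i ∈ Finset.range (N + 1), q ^ i with ha
    have ha0 : 0 ≤ a := Finset.sum_nonneg fun _ _ => by positivity
    have ha1 : a ≤ N + 1 := by simpa using geom_le hq0 hq1 (N + 1)
    set C := (G.neighborFinset u).erase p with hC
    have hcard : (C.card : ℝ) = d - 1 := by
      rw [hC, card_erase h hup, Nat.cast_sub (by have := h.three; omega), Nat.cast_one]
    have hadj : ∀ c ∈ C, G.Adj c u := fun c hc =>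
      ((G.mem_neighborFinset u c).1 (Finset.mem_erase.1 hc).2).symm
    have k1 : ∀ c ∈ C, ∫ η, spin (η u) * YY G θ N c u η ∂(ising G θ) = θ * a := by
      intro c hc
      obtain ⟨B, hB1, hB⟩ := abs_YY_le (G := G) (θ := θ) N c u
      have := ising_edge h h0 h1 (hadj c hc) (measurable_YY N c u) (measurable_sp u) hB
        (fun η => (abs_spin _).le.trans hB1) (dep_YY N c u le_rfl)
        (fun η η' hη => by simp only [hη u (self_mem_half h (hadj c hc).symm)])
      rw [integral_spin h h0 h1, (ih c u (hadj c hc)).1, integral_sp_self] at this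
      simp only [mul_comm (spin _)]
      rw [this]; ring
    have k2 : ∀ c ∈ C, ∀ c' ∈ C, c' ≠ c →
        ∫ η, YY G θ N c u η * YY G θ N c' u η ∂(ising G θ) = θ ^ 2 * a ^ 2 := by
      intro c hc c' hc' hne
      obtain ⟨B, -, hB⟩ := abs_YY_le (G := G) (θ := θ) N c u
      obtain ⟨B', -, hB'⟩ := abs_YY_le (G := G) (θ := θ) N c' u
      have := ising_edge h h0 h1 (hadj c hc) (measurable_YY N c u) (measurable_YY N c' u)
        (fun η => (hB η).trans (le_max_left B B')) (fun η => (hB' η).trans (le_max_right B B'))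
        (dep_YY N c u le_rfl) (dep_YY N c' u (half_subset h (hadj c' hc') (hadj c hc).symm hne))
      rw [this, integral_YY h h0 h1, (ih c u (hadj c hc)).1, k1 c' hc']
      ring
    have i1 : ∀ c, Integrable (fun η => spin (η u) * YY G θ N c u η) (ising G θ) := by
      intro c
      obtain ⟨B, -, hB⟩ := abs_YY_le (G := G) (θ := θ) N c u
      exact BayesAux.integrable_mul (measurable_sp u) (measurable_YY N c u)
        (fun η => (abs_spin _).le) hB
    have i2 : ∀ c c', Integrable (fun η => YY G θ N c u η * YY G θ N c' u η) (ising G θ) := by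
      intro c c'
      obtain ⟨B, -, hB⟩ := abs_YY_le (G := G) (θ := θ) N c u
      obtain ⟨B', -, hB'⟩ := abs_YY_le (G := G) (θ := θ) N c' u
      exact BayesAux.integrable_mul (measurable_YY N c u) (measurable_YY N c' u) hB hB'
    have s1 : ∫ η, ∑ c ∈ C, spin (η u) * YY G θ N c u η ∂(ising G θ) = (d - 1) * (θ * a) := by
      rw [integral_finsetSum _ fun c _ => i1 c, Finset.sum_congr rfl k1, Finset.sum_const,
        nsmul_eq_mul, hcard]
    have s2 : ∫ η, ∑ c ∈ C, ∑ c' ∈ C, YY G θ N c u η * YY G θ N c' u η ∂(ising G θ) ≤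
        (d - 1) * ((N + 1) ^ 3 + (d - 1) * (θ ^ 2 * a ^ 2)) := by
      rw [integral_finsetSum _ fun c _ => integrable_finsetSum _ fun c' _ => i2 c c', ← hcard,
        ← nsmul_eq_mul]
      refine Finset.sum_le_card_nsmul _ _ _ fun c hc => ?_
      rw [integral_finsetSum _ fun c' _ => i2 c c', ← Finset.add_sum_erase _ _ hc,
        Finset.sum_congr rfl fun c' hc' =>
          k2 c hc c' (Finset.mem_erase.1 hc').2 (Finset.mem_erase.1 hc').1,
        Finset.sum_const, nsmul_eq_mul]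
      refine add_le_add (by simpa only [sq] using (ih c u (hadj c hc)).2) ?_
      exact mul_le_mul_of_nonneg_right (by exact_mod_cast Finset.card_erase_le) (by positivity)
    have j1 : Integrable (fun η => ∑ c ∈ C, spin (η u) * YY G θ N c u η) (ising G θ) :=
      integrable_finsetSum _ fun c _ => i1 c
    have j2 : Integrable (fun η => ∑ c ∈ C, ∑ c' ∈ C, YY G θ N c u η * YY G θ N c' u η)
        (ising G θ) := integrable_finsetSum _ fun c _ => integrable_finsetSum _ fun c' _ => i2 c c'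
    constructor
    · have e : ∀ η, spin (η u) * YY G θ (N + 1) u p η =
          1 + θ * ∑ c ∈ C, spin (η u) * YY G θ N c u η := by
        intro η
        rw [YY_succ h hup, ← Finset.mul_sum, mul_add, ← sq, spin_sq]
        ring
      simp only [e]
      rw [integral_add (integrable_const _) (j1.const_mul _), integral_const_mul, s1,
        geom_sum_succ, ← ha]
      simp only [integral_const, probReal_univ, smul_eq_mul, mul_one]
      ring
    · have e : ∀ η, YY G θ (N + 1) u p η ^ 2 =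
          1 + (2 * θ * ∑ c ∈ C, spin (η u) * YY G θ N c u η +
            θ ^ 2 * ∑ c ∈ C, ∑ c' ∈ C, YY G θ N c u η * YY G θ N c' u η) := by
        intro η
        rw [YY_succ h hup, ← Finset.mul_sum, ← Finset.sum_mul_sum, add_sq, spin_sq]
        ring
      simp only [e]
      have j3 : Integrable (fun η => 2 * θ * ∑ c ∈ C, spin (η u) * YY G θ N c u η +
          θ ^ 2 * ∑ c ∈ C, ∑ c' ∈ C, YY G θ N c u η * YY G θ N c' u η) (ising G θ) :=
        (j1.const_mul _).add (j2.const_mul _)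
      rw [integral_add (integrable_const _) j3,
        integral_add (j1.const_mul _) (j2.const_mul _), integral_const_mul, integral_const_mul, s1]
      simp only [integral_const, probReal_univ, smul_eq_mul, mul_one]
      have s3 := mul_le_mul_of_nonneg_left s2 (sq_nonneg θ)
      have s4 : θ ^ 2 * ((d - 1) * ((N + 1) ^ 3 + (d - 1) * (θ ^ 2 * a ^ 2))) =
          q * (N + 1) ^ 3 + (q * a) ^ 2 := by rw [hq]; ring
      have s5 : 2 * θ * ((d - 1) * (θ * a)) = 2 * (q * a) := by rw [hq]; ring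
      have s6 : q * a ≤ N + 1 := by nlinarith
      have s7 : 0 ≤ q * a := by positivity
      have s8 : q * (N + 1) ^ 3 ≤ (N + 1) ^ 3 := by
        have : (0 : ℝ) ≤ (N + 1) ^ 3 := by positivity
        nlinarith
      have s9 : (q * a) ^ 2 ≤ (N + 1) ^ 2 := pow_le_pow_left₀ s7 s6 2
      have hN : (0 : ℝ) ≤ N := by positivity
      push_cast
      nlinarith

omit [G.LocallyFinite] in
theorem lin_bound {κ : Type*} (J : Finset κ) (ζ : κ → Slot V) (c : κ → ℝ) :
    Measurable (fun ℓ : Slot V → ℝ => ∑ j ∈ J, c j * ℓ (ζ j)) ∧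
      ∀ ℓ, Bd ℓ → |∑ j ∈ J, c j * ℓ (ζ j)| ≤ ∑ j ∈ J, |c j| * (1 / 2) := by
  refine ⟨Finset.measurable_fun_sum _ fun j _ => (measurable_pi_apply _).const_mul _,
    fun ℓ hℓ => (Finset.abs_sum_le_sum_abs _ _).trans (Finset.sum_le_sum fun j _ => ?_)⟩
  rw [abs_mul]
  exact mul_le_mul_of_nonneg_left (hℓ _) (abs_nonneg _)

theorem fin_ineq {n x : ℝ} (hn : 142 < n)
    (h : (1 / 24 * (1 * n)) ^ 2 ≤ x * (1 / 8 * n + (1 / 24) ^ 2 * (1 * n ^ 2))) :
    (1 - x) * (n + 2) ≤ 144 := by
  have h9 : n ≤ x * (72 + n) := by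
    have : n * n ≤ n * (x * (72 + n)) := by nlinarith
    exact le_of_mul_le_mul_left this (by linarith)
  rcases le_total x 1 with h1 | h1 <;> nlinarith

end XLowAux

open XLowAux

theorem xlow_gen (h : RT G d) (hθ : Subc d θ) {s : ℝ} (hs : 0 < s) {u p : V} (hup : G.Adj u p)
    {r : ℕ} (hr : 1 ≤ r) (hq : 1 / 2 ≤ (((d : ℝ) - 1) * θ ^ 2) ^ r) {A : Set (Slot V)}
    (hA : (hbox G u p r : Set (Slot V)) ⊆ A) :
    (tt s * r / 6) ^ 2 / (r * tt s + r ^ 3 * tt s ^ 2) ≤
      ∫ ω, cav G θ (Lms A s ω) u p ^ 2 ∂(Pw G θ) := by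
  obtain ⟨N, rfl⟩ : ∃ N, r = N + 1 := ⟨r - 1, by omega⟩
  set J := (ball G u N).filter (· ∈ half G u p) with hJ
  have hA' : ∀ w ∈ J, ((w, 0) : Slot V) ∈ vm (half G u p) ∩ A := by
    intro w hw
    rw [hJ, Finset.mem_filter, mem_ball h] at hw
    exact ⟨hw.2, hA (Finset.mem_coe.2 ((mem_hbox h).2 ⟨hw.1.trans (Nat.le_succ N), hw.2, rfl⟩))⟩
  have ht : (∫ r : I, if ((0 : ℕ) : ℝ) + r < s then epsf ((0 : ℕ) + r) ^ 2 else 0) = tt s := by
    simpa using integral_epsf_sq_zero hs.le
  have hm : ∀ w ∈ J, ∫ r : I, ∫ u : I, amp s ((w, 0) : Slot V).2 (r, u) = tt s / 3 :=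
    fun w _ => by rw [integral_amp, ht]
  have h1 := linear_mean (G := G) (θ := θ) J (fun w => (w, 0)) (fun w => θ ^ G.dist u w) s hA' hm u
  have h2 := linear_sq (G := G) (θ := θ) J (fun w => (w, 0)) (fun w => θ ^ G.dist u w) s hA' hm
    (fun w _ w' _ hw => congrArg Prod.fst hw) (n₀ := tt s)
    fun w _ => (integral_amp_sq s 0).trans ht.le
  obtain ⟨h3, h4⟩ := YY_moments h hθ N u p hup
  obtain ⟨h5, h6⟩ := lin_bound J (fun w => ((w, 0) : Slot V)) fun w => θ ^ G.dist u w
  have h7 := sq_le_mag_sq_mul h hθ ((mask_tm s).inter (vm (half G u p) ∩ A)) u h5 h6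
  simp only [← Lms_eq_Lm] at h7
  have h8 : ∀ ω, cav G θ (Lms A s ω) u p = mag G θ (Lms (vm (half G u p) ∩ A) s ω) u :=
    fun ω => by rw [cav, indicator_Lms]
  simp only [h8]
  have hd := h.two_le
  set q := ((d : ℝ) - 1) * θ ^ 2 with hqdef
  have hq0 : 0 ≤ q := by positivity
  have hq1 : q ≤ 1 := hθ.2.le
  have h9 : ∑ w ∈ J, (θ ^ G.dist u w) ^ 2 ≤ N + 1 := by
    rw [hJ, sum_half_radial h hup N fun n => (θ ^ n) ^ 2]
    have : ∀ n : ℕ, ((d : ℝ) - 1) ^ n * (θ ^ n) ^ 2 = q ^ n := fun n => by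
      rw [hqdef, mul_pow]; ring
    simpa [this] using geom_le hq0 hq1 (N + 1)
  have h10 : ((N : ℝ) + 1) / 2 ≤ ∑ i ∈ Finset.range (N + 1), q ^ i := by
    have := Finset.card_nsmul_le_sum (Finset.range (N + 1)) (fun i => q ^ i) (1 / 2) fun i hi =>
      hq.trans (pow_le_pow_of_le_one hq0 hq1 (Finset.mem_range.1 hi).le)
    simp only [Finset.card_range, nsmul_eq_mul] at this
    push_cast at this
    linarith
  have htp := tt_pos hs
  change _ = tt s / 3 * ∫ η, spin (η u) * YY G θ N u p η ∂(ising G θ) at h1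
  change _ ≤ _ + (tt s / 3) ^ 2 * ∫ η, YY G θ N u p η ^ 2 ∂(ising G θ) at h2
  rw [h1, h3] at h7
  have hI : 0 ≤ ∫ ω, mag G θ (Lms (vm (half G u p) ∩ A) s ω) u ^ 2 ∂(Pw G θ) :=
    integral_nonneg fun ω => sq_nonneg _
  push_cast
  rw [div_le_iff₀ (by positivity)]
  refine le_trans ?_ (h7.trans (mul_le_mul_of_nonneg_left (h2.trans ?_) hI))
  · refine pow_le_pow_left₀ (by positivity) ?_ 2
    nlinarith
  · have a1 := mul_le_mul_of_nonneg_left h9 htp.le
    have a2 := mul_le_mul_of_nonneg_left h4 (sq_nonneg (tt s / 3))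
    have a3 : 0 ≤ ((N : ℝ) + 1) ^ 3 * tt s ^ 2 := by positivity
    nlinarith

theorem xlow (h : RT G d) {s : ℝ} (hs : 0 < s) (hθ : Near d θ s) {u p : V} (hup : G.Adj u p)
    {A : Set (Slot V)} (hA : (hbox G u p (rad s) : Set (Slot V)) ⊆ A) :
    Real.sqrt (tt s) / 180 ≤ ∫ ω, cav G θ (Lms A s ω) u p ^ 2 ∂(Pw G θ) := by
  refine le_trans ?_ (xlow_gen h hθ.1 hs hup (one_le_rad hs) hθ.2 hA)
  obtain ⟨h1, h2⟩ := rad_mul_sqrt hs
  have htp := tt_pos hs
  have hx : 0 < Real.sqrt (tt s) := Real.sqrt_pos.2 htp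
  have hr : (0 : ℝ) < rad s := by exact_mod_cast one_le_rad hs
  have ht : tt s = Real.sqrt (tt s) ^ 2 := (Real.sq_sqrt htp.le).symm
  generalize Real.sqrt (tt s) = x at *
  generalize (rad s : ℝ) = r at *
  rw [ht, le_div_iff₀ (by positivity)]
  have h3 : (r * x) ^ 2 ≤ 5 * (r * x) - 1 := by nlinarith
  have h4 := mul_le_mul_of_nonneg_left h3 (show 0 ≤ r * x ^ 3 by positivity)
  nlinarith

/-- After `k` rounds the spin is almost known. -/
theorem dec_le (h : RT G d) (hθ : Subc d θ) {k : ℕ} (hk : 1 ≤ k) (v : V) :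
    ∫ ω, (spin (ω.2.1 v) - mag G θ (Lms Set.univ k ω) v) ^ 2 ∂(Pw G θ) ≤ 144 / k := by
  have hM := (mask_tm (V := V) k).inter Set.univ
  have h0 := integral_spin_sub_sq h hθ hM v
  simp only [← Lms_eq_Lm] at h0
  rw [h0]
  have hI : 0 ≤ ∫ ω, mag G θ (Lms Set.univ k ω) v ^ 2 ∂(Pw G θ) :=
    integral_nonneg fun ω => sq_nonneg _
  have hk' : (0 : ℝ) < k := by exact_mod_cast hk
  rcases le_or_gt k 144 with hk1 | hk1
  · have : (1 : ℝ) ≤ 144 / k := by
      rw [le_div_iff₀ hk', one_mul]; exact_mod_cast hk1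
    linarith
  obtain ⟨n, rfl⟩ : ∃ n, k = n + 2 := ⟨k - 2, by omega⟩
  have ht : ∀ i ∈ Finset.range n, (∫ r : I, if ((i + 1 : ℕ) : ℝ) + r < ((n + 2 : ℕ) : ℝ) then
      epsf ((i + 1 : ℕ) + r) ^ 2 else 0) = 1 / 8 := by
    intro i hi
    rw [← integral_epsf_sq (k := i + 1) (by omega)]
    congr 1
    funext r
    have h1 : (i : ℝ) + 1 ≤ n := by exact_mod_cast Finset.mem_range.1 hi
    rw [if_pos (by push_cast; linarith [r.2.2])]
  have hm : ∀ i ∈ Finset.range n, ∫ r : I, ∫ u : I,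
      amp ((n + 2 : ℕ) : ℝ) ((v, i + 1) : Slot V).2 (r, u) = 1 / 24 :=
    fun i hi => by rw [integral_amp, ht i hi]; norm_num
  have h1 := linear_mean (G := G) (θ := θ) (Finset.range n) (fun i => (v, i + 1)) (fun _ => 1) _
    (A := Set.univ) (fun _ _ => trivial) hm v
  have h2 := linear_sq (G := G) (θ := θ) (Finset.range n) (fun i => (v, i + 1)) (fun _ => 1) _
    (A := Set.univ) (fun _ _ => trivial) hm
    (fun i _ i' _ hi => by simpa using hi) (n₀ := 1 / 8)
    fun i hi => (integral_amp_sq _ _).trans (ht i hi).le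
  obtain ⟨h5, h6⟩ := lin_bound (Finset.range n) (fun i => ((v, i + 1) : Slot V)) fun _ => 1
  have h7 := sq_le_mag_sq_mul h hθ hM v h5 h6
  simp only [← Lms_eq_Lm] at h7
  have e1 : ∀ η : V → Bool, spin (η v) * ∑ _i ∈ Finset.range n, 1 * spin (η v) = n := by
    intro η
    rw [Finset.sum_const, Finset.card_range, nsmul_eq_mul, one_mul, mul_left_comm, ← sq, spin_sq,
      mul_one]
  have e2 : ∀ η : V → Bool, (∑ _i ∈ Finset.range n, 1 * spin (η v)) ^ 2 = n ^ 2 := by
    intro η
    rw [Finset.sum_const, Finset.card_range, nsmul_eq_mul, one_mul, mul_pow, spin_sq, mul_one]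
  simp only [e1, e2] at h1 h2
  simp only [integral_const, probReal_univ, smul_eq_mul, one_pow, Finset.sum_const,
    Finset.card_range, nsmul_eq_mul, mul_one] at h1 h2
  rw [h1] at h7
  have h8 := h7.trans (mul_le_mul_of_nonneg_left h2 hI)
  have hn : (142 : ℝ) < n := by exact_mod_cast (by omega : 142 < n)
  generalize ∫ ω, mag G θ (Lms Set.univ ((n + 2 : ℕ) : ℝ) ω) v ^ 2 ∂(Pw G θ) = x at *
  rw [le_div_iff₀ hk']
  push_cast
  exact fin_ineq hn h8

end Crest.Agent.R160

end
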